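import Vale.Agent.P167.H446.NotchF

/-!
# Brick polygons with flat cuts at prescribed conformal positions

`Sys`: a family of flat cuts of `F '' ball 0 1`, and a further removed set `B`. The brick polygon is
flat, with the domain above, at every cut; the flat parts are in the component of `F w₀`.
-/

namespace Vale.Agent.P167.H446.Cut

open Set Metric Vale.Agent.P167.H756 Vale.Agent.P153.R2.R1 Vale.Agent.P167.E6
open Vale.Agent.P167.H450

variable {ι : Type} {F : ℂ → ℂ} {w₀ : ℂ} {ξ : ι → ℂ} {ε η ℓ ρ : ℝ} {x : ι → ℝ} {k : ι → ℤ}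
  {q : ι → ℝ} {K C : ι → Set ℂ} {B E D : Set ℂ} {F₀ G : ℤ × ℤ} {z : ℂ}

/-- A family of flat cuts of `F '' ball 0 1 \ B`. -/
structure Sys (F : ℂ → ℂ) (w₀ : ℂ) (ξ : ι → ℂ) (ε η ℓ : ℝ) (x : ι → ℝ) (k : ι → ℤ) (q : ι → ℝ)
    (K C : ι → Set ℂ) (B E : Set ℂ) : Prop where
  hℓ : 0 < ℓ
  ntc : ∀ j, Ntc F w₀ (ξ j) ε η ℓ (x j) (k j) (q j) (K j) (C j)
  far : ∀ i j, ∀ u ∈ C j, ∀ u' ∈ K i, η ≤ dist u u'
  dis : ∀ i j, Disjoint (K i) (up (x j) (ℓ * k j) (q j))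
  farB : ∀ j, ∀ u ∈ C j, ∀ u' ∈ B, η ≤ dist u u'
  disB : ∀ j, Disjoint B (up (x j) (ℓ * k j) (q j))
  bdd : Bornology.IsBounded (F '' ball 0 1)
  pc : IsPreconnected (F '' ball 0 1 \ B)ᶜ
  hDE : F '' ball 0 1 \ B ⊆ E
  flat0 : ∀ z ∈ E, z ∉ F '' ball 0 1 \ B →
    ∃ G, z ∈ sqr ℓ G ∧ ¬ (obk ℓ (br G) ⊆ F '' ball 0 1 \ B)

theorem good_of_ball' (hρ : 0 < ρ) (hℓ : 0 < ℓ) (hDE : D ⊆ E)
    (hz : ball z (ρ + 3 * ℓ) ⊆ D) (hG : z ∈ sqr ℓ G) : G ∈ GF ℓ ρ D E := by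
  have key : ∀ u ∈ bk ℓ (br G), ball u ρ ⊆ D := by
    intro u hu
    apply Subset.trans _ hz
    apply ball_subset_ball'
    have := dist_le_of_bk hu (sqr_subset_bk hℓ hG)
    linarith
  exact ⟨fun u hu => (key u hu).trans hDE, fun u hu => key u (obk_subset_bk hu) (mem_ball_self hρ)⟩

namespace Sys

variable (H : Sys F w₀ ξ ε η ℓ x k q K C B E)
include H

theorem cuts : Cuts ℓ (F '' ball 0 1 \ B) E x k q K where
  bdd := H.bdd.subset sdiff_subset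
  pc := H.pc
  hDE := H.hDE
  flat0 := H.flat0
  conn j := (H.ntc j).pathc.isConnected.isPreconnected
  meet j := by
    obtain ⟨w, hw, hwD⟩ := (H.ntc j).meet
    exact ⟨w, hw, fun h => hwD h.1⟩
  low j := (H.ntc j).low
  upp j := fun u hu => ⟨(H.ntc j).upp hu, fun h => disjoint_left.1 (H.disB j) h hu⟩
  dis := H.dis

theorem hDE1 : D1 (F '' ball 0 1 \ B) K ⊆ E1 ℓ E x k q K :=
  (sdiff_subset_sdiff_left H.hDE).trans subset_union_left

/-- The accesses are far from the complement of the remaining domain. -/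
theorem ball_sub (j : ι) {u : ℂ} (hu : u ∈ C j) : ball u η ⊆ D1 (F '' ball 0 1 \ B) K := by
  intro u' hu'
  rw [mem_ball, dist_comm] at hu'
  refine ⟨⟨(H.ntc j).Cfar u hu (by rw [mem_ball, dist_comm]; exact hu'), fun h => ?_⟩, fun h => ?_⟩
  · have := H.farB j u hu u' h
    linarith
  · obtain ⟨i, hi⟩ := mem_iUnion.1 h
    have := H.far i j u hu u' hi
    linarith

theorem good [Nonempty ι] (hρ : 0 < ρ) (h : ρ + 3 * ℓ ≤ η) (hF₀ : F w₀ ∈ sqr ℓ F₀) :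
    F₀ ∈ GF ℓ ρ (D1 (F '' ball 0 1 \ B) K) (E1 ℓ E x k q K) := by
  obtain ⟨j⟩ := ‹Nonempty ι›
  refine good_of_ball' hρ H.hℓ H.hDE1 ?_ hF₀
  exact (ball_subset_ball h).trans (H.ball_sub j (H.ntc j).Cw)

theorem q_pos (h : 2 * (ρ + 4 * ℓ) ≤ η) (j : ι) : 2 * (ρ + 4 * ℓ) ≤ q j :=
  h.trans (H.ntc j).q_ge

/-- The accesses are in the domain of the polygon. -/
theorem access [Nonempty ι] (hρ : 0 < ρ) (h : 2 * (ρ + 4 * ℓ) ≤ η) (hF₀ : F w₀ ∈ sqr ℓ F₀) (j : ι) :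
    C j ∪ segment ℝ (⟨x j, ℓ * k j + q j⟩ : ℂ) ⟨x j, ℓ * k j + q j / 2⟩ ⊆
      interior (reg ℓ (Cmp (GF ℓ ρ (D1 (F '' ball 0 1 \ B) K) (E1 ℓ E x k q K)) F₀)) := by
  have hℓ := H.hℓ
  have hq := h.trans (H.ntc j).q_ge
  have hg := H.good hρ (by linarith) hF₀
  refine (data H.cuts hℓ hρ hg).inner ?_ (Or.inl (H.ntc j).Cw) hF₀ ?_
  · exact IsPreconnected.union _ (H.ntc j).Cc (left_mem_segment ℝ _ _) (H.ntc j).Cconn
      (convex_segment _ _).isPreconnected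
  · rintro u (hu | hu)
    · exact (ball_subset_ball (by linarith)).trans (H.ball_sub j hu)
    · obtain ⟨a, b, ha, hb, hab, rfl⟩ := hu
      intro u' hu'
      have e1 : (a • (⟨x j, ℓ * k j + q j⟩ : ℂ) + b • (⟨x j, ℓ * k j + q j / 2⟩ : ℂ)).re = x j := by
        simp
        linear_combination x j * hab
      have e2 : (a • (⟨x j, ℓ * k j + q j⟩ : ℂ) + b • (⟨x j, ℓ * k j + q j / 2⟩ : ℂ)).im =
          ℓ * k j + q j / 2 + a * (q j / 2) := by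
        simp
        linear_combination (ℓ * k j + q j / 2) * hab
      rw [mem_ball, dist_eq_norm] at hu'
      have d1 := lt_of_le_of_lt (Complex.abs_re_le_norm _) hu'
      have d2 := lt_of_le_of_lt (Complex.abs_im_le_norm _) hu'
      rw [Complex.sub_re, e1, abs_lt] at d1
      rw [Complex.sub_im, e2, abs_lt] at d2
      have ha1 : a ≤ 1 := by linarith
      have haq : a * (q j / 2) ≤ q j / 2 := by nlinarith
      have haq0 : 0 ≤ a * (q j / 2) := by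
        apply mul_nonneg ha
        linarith
      have hup : u' ∈ up (x j) (ℓ * k j) (q j) := by
        refine ⟨?_, ?_, ?_⟩
        · rw [abs_le]; constructor <;> linarith [d1.1, d1.2]
        · linarith [d2.1]
        · linarith [d2.2]
      refine ⟨H.cuts.upp j hup, fun h' => ?_⟩
      obtain ⟨i, hi⟩ := mem_iUnion.1 h'
      exact disjoint_left.1 (H.dis i j) hi hup

/-- A near face above the line in the component of `F₀`. -/
theorem face [Nonempty ι] (hρ : 0 < ρ) (h : 2 * (ρ + 4 * ℓ) ≤ η) (hF₀ : F w₀ ∈ sqr ℓ F₀) (j : ι) :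
    ∃ G, Near ℓ ρ (x j) (k j) (q j) G ∧ k j ≤ G.2 ∧
      G ∈ Cmp (GF ℓ ρ (D1 (F '' ball 0 1 \ B) K) (E1 ℓ E x k q K)) F₀ := by
  have hℓ := H.hℓ
  have hq := h.trans (H.ntc j).q_ge
  obtain ⟨G, hG⟩ := exists_sqr hℓ (⟨x j, ℓ * k j + q j / 2⟩ : ℂ)
  refine ⟨G, ?_, ?_, mem_of_interior hℓ (H.access hρ h hF₀ j (Or.inr (right_mem_segment ℝ _ _))) hG⟩
  · obtain ⟨g1, g2, g3, g4⟩ := hG
    simp only at g1 g2 g3 g4
    constructor
    · have : |ℓ * G.1 - x j| ≤ ℓ := by rw [abs_le]; constructor <;> linarith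
      linarith
    · have : |ℓ * G.2 - ℓ * k j| ≤ q j / 2 := by
        rw [abs_le]; constructor <;> linarith
      linarith
  · obtain ⟨g1, g2, g3, g4⟩ := hG
    simp only at g1 g2 g3 g4
    have h3 : ℓ * (k j : ℝ) < ℓ * (G.2 + 1) := by linarith
    have h4 := lt_of_mul_lt_mul_left h3 hℓ.le
    have h5 : k j < G.2 + 1 := by exact_mod_cast h4
    omega

/-- **Flatness at the cuts.** -/
theorem flat [Nonempty ι] (hρ : 0 < ρ) (h : 2 * (ρ + 4 * ℓ) ≤ η) (hF₀ : F w₀ ∈ sqr ℓ F₀)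
    {S : Finset (ℤ × ℤ)}
    (hS : (S : Set (ℤ × ℤ)) = Cmp (GF ℓ ρ (D1 (F '' ball 0 1 \ B) K) (E1 ℓ E x k q K)) F₀) (j : ι)
    {R m : ℤ} (hm : |ℓ * m - x j| ≤ ℓ) (hR : ℓ * R + ρ + 4 * ℓ ≤ q j) (v : ℤ × ℤ) (h1 : m - R ≤ v.1)
    (h2 : v.1 ≤ m + R) (h3 : k j - R ≤ v.2) (h4 : v.2 ≤ k j + R) : v ∈ S ↔ k j ≤ v.2 := by
  obtain ⟨G, hG, hGk, hGc⟩ := H.face hρ h hF₀ j
  exact flat_box H.cuts H.hℓ hρ (H.good hρ (by linarith [H.hℓ]) hF₀) hG hGk hGc hS hm hR v h1 h2 h3 h4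

/-- The flat boundary points. -/
theorem mem_frontier [Nonempty ι] (hρ : 0 < ρ) (h : 2 * (ρ + 4 * ℓ) ≤ η) (hF₀ : F w₀ ∈ sqr ℓ F₀)
    (j : ι) {z : ℂ} (h1 : |z.re - x j| + ρ + 4 * ℓ < q j) (h2 : z.im = ℓ * k j) :
    z ∈ frontier (interior
      (reg ℓ (Cmp (GF ℓ ρ (D1 (F '' ball 0 1 \ B) K) (E1 ℓ E x k q K)) F₀))) := by
  obtain ⟨G, hG, hGk, hGc⟩ := H.face hρ h hF₀ j
  exact Cut.mem_frontier H.cuts H.hℓ hρ (H.good hρ (by linarith [H.hℓ]) hF₀) hG hGk hGc h1 h2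

/-- The flat boundary points are conformally near the marks. -/
theorem mem_closure [Nonempty ι] (hρ : 0 < ρ) (h : 2 * (ρ + 4 * ℓ) ≤ η) (hF₀ : F w₀ ∈ sqr ℓ F₀)
    (j : ι) {z : ℂ} (h1 : |z.re - x j| + ρ + 4 * ℓ < q j) (h2 : z.im = ℓ * k j) :
    z ∈ closure (interior
      (reg ℓ (Cmp (GF ℓ ρ (D1 (F '' ball 0 1 \ B) K) (E1 ℓ E x k q K)) F₀)) ∩
        F '' {v | v ∈ ball (0 : ℂ) 1 ∧ dist v (ξ j) ≤ ε}) := by
  obtain ⟨G, hG, hGk, hGc⟩ := H.face hρ h hF₀ j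
  have hℓ := H.hℓ
  rw [Metric.mem_closure_iff]
  intro δ hδ
  set s : ℝ := min (δ / 2) (q j - ρ - 4 * ℓ - |z.re - x j|) with hs
  have hs0 : 0 < s := lt_min (by linarith) (by linarith)
  have hs1 : s ≤ δ / 2 := min_le_left _ _
  have hs2 : s ≤ q j - ρ - 4 * ℓ - |z.re - x j| := min_le_right _ _
  have e1 : (z + s * Complex.I).re = z.re := by simp
  have e2 : (z + s * Complex.I).im = z.im + s := by simp
  have habs := abs_nonneg (z.re - x j)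
  refine ⟨z + s * Complex.I, ⟨?_, ?_⟩, ?_⟩
  · rw [mem_dom H.cuts hℓ hρ (H.good hρ (by linarith) hF₀) hG hGk hGc]
    · rw [e2]; linarith
    · rw [e1]; linarith
    · rw [e2, h2, add_sub_cancel_left, abs_of_pos hs0]; linarith
  · have hup : z + s * Complex.I ∈ up (x j) (ℓ * k j) (q j) := by
      refine ⟨?_, ?_, ?_⟩
      · rw [e1]; linarith
      · rw [e2]; linarith
      · rw [e2]; linarith
    obtain ⟨v, hv, hvz⟩ := (H.ntc j).upp hup
    exact ⟨v, ⟨hv, (H.ntc j).preU v hv (by rw [hvz]; exact hup)⟩, hvz⟩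
  · rw [dist_comm, dist_eq_norm, add_sub_cancel_left, norm_mul, Complex.norm_I, mul_one,
      Complex.norm_real, Real.norm_eq_abs, abs_of_pos hs0]
    linarith

/-- Inner sets with respect to `F '' ball 0 1`, when `B` is small too. -/
theorem inner [Nonempty ι] (hρ : 0 < ρ) (h : ρ + 3 * ℓ ≤ η) (hF₀ : F w₀ ∈ sqr ℓ F₀) {h' : ℝ}
    (hε : 0 ≤ ε) (hh' : ε ≤ h') (hB : ∀ z ∈ B, ∃ w, w ∉ F '' ball 0 1 ∧ dist z w ≤ h')
    {C' : Set ℂ} (hC : IsPreconnected C') (hz : F w₀ ∈ C')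
    (hb : ∀ z ∈ C', ball z (ρ + 3 * ℓ + h') ⊆ F '' ball 0 1) :
    C' ⊆ interior (reg ℓ (Cmp (GF ℓ ρ (D1 (F '' ball 0 1 \ B) K) (E1 ℓ E x k q K)) F₀)) := by
  have hℓ := H.hℓ
  apply (data H.cuts hℓ hρ (H.good hρ h hF₀)).inner hC hz hF₀
  intro z hzC w hw
  refine ⟨⟨hb z hzC (ball_subset_ball (by linarith) hw), fun hwB => ?_⟩, fun hwK => ?_⟩
  · obtain ⟨w', h2, h3⟩ := hB w hwB
    apply h2
    apply hb z hzC
    rw [mem_ball] at hw ⊢
    have := dist_triangle w' w z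
    rw [dist_comm w' w] at this
    linarith
  · obtain ⟨j, hj⟩ := mem_iUnion.1 hwK
    obtain ⟨w', h1, h2⟩ := (H.ntc j).meet
    have h3 := (H.ntc j).diam w hj w' h1
    apply h2
    apply hb z hzC
    rw [mem_ball] at hw ⊢
    have := dist_triangle w' w z
    rw [dist_comm w' w] at this
    linarith

/-- The collar with respect to `F '' ball 0 1`, when `B` is small too. -/
theorem collar [Nonempty ι] (hρ : 0 < ρ) (h : ρ + 3 * ℓ ≤ η) (hF₀ : F w₀ ∈ sqr ℓ F₀) {h' : ℝ}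
    (hε : 0 ≤ ε) (hh' : ε ≤ h')
    (hB : ∀ z ∈ B, ∃ w ∈ B, w ∉ F '' ball 0 1 ∧ JoinedIn B z w ∧ ∀ u ∈ B, dist u z ≤ h') {y : ℂ}
    (hy : y ∈ frontier (interior
      (reg ℓ (Cmp (GF ℓ ρ (D1 (F '' ball 0 1 \ B) K) (E1 ℓ E x k q K)) F₀)))) :
    ∃ g : ℝ → ℂ, ContinuousOn g (Icc 0 1) ∧ g 0 = y ∧ g 1 ∉ F '' ball 0 1 ∧ ∀ t ∈ Icc (0 : ℝ) 1,
      g t ∉ interior (reg ℓ (Cmp (GF ℓ ρ (D1 (F '' ball 0 1 \ B) K) (E1 ℓ E x k q K)) F₀)) ∧
        dist (g t) y ≤ ρ + 3 * ℓ + h' := by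
  have hℓ := H.hℓ
  have hd := data H.cuts hℓ hρ (H.good hρ h hF₀)
  obtain ⟨g, hg, hg0, hg1, hg2⟩ := hd.collar hy
  -- the sets which lead to the complement
  have key : g 1 ∈ F '' ball 0 1 → ∃ T : Set ℂ, g 1 ∈ T ∧ Disjoint T
      (D1 (F '' ball 0 1 \ B) K) ∧ ∃ w, w ∉ F '' ball 0 1 ∧ JoinedIn T (g 1) w ∧
      ∀ u ∈ T, dist u (g 1) ≤ h' := by
    intro hgD
    by_cases hgB : g 1 ∈ B
    · obtain ⟨w, -, hwD, hj, hdist⟩ := hB _ hgB
      exact ⟨B, hgB, disjoint_left.2 fun u hu hu' => hu'.1.2 hu, w, hwD, hj, hdist⟩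
    · have hgK : g 1 ∈ ⋃ j, K j := by
        by_contra hcon
        exact hg1 ⟨⟨hgD, hgB⟩, hcon⟩
      obtain ⟨j, hj⟩ := mem_iUnion.1 hgK
      obtain ⟨w, hw, hwD⟩ := (H.ntc j).meet
      refine ⟨K j, hj, disjoint_left.2 fun u hu hu' => hu'.2 (mem_iUnion.2 ⟨j, hu⟩), w, hwD,
        (H.ntc j).pathc.joinedIn _ hj _ hw, fun u hu => ?_⟩
      exact ((H.ntc j).diam u hu _ hj).trans hh'
  by_cases hD : g 1 ∈ F '' ball 0 1
  · obtain ⟨T, -, hT, w, hwD, ⟨c, hc⟩, hdT⟩ := key hD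
    have hcr : ∀ t : ℝ, c.extend t ∈ T := fun t => by
      have : c.extend t ∈ range c := by
        rw [← Path.extend_range]
        exact mem_range_self t
      obtain ⟨s, hs⟩ := this
      rw [← hs]
      exact hc s
    refine ⟨fun t => if t ≤ 1 / 2 then g (2 * t) else c.extend (2 * t - 1), ?_, ?_, ?_, ?_⟩
    · apply Continuous.continuousOn
      apply Continuous.if_le
      · exact hg.comp (continuous_const.mul continuous_id)
      · exact c.continuous_extend.comp ((continuous_const.mul continuous_id).sub continuous_const)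
      · exact continuous_id
      · exact continuous_const
      · rintro t rfl
        norm_num
    · norm_num
      exact hg0
    · norm_num
      simpa using hwD
    · intro t ht
      simp only
      split_ifs with h1
      · obtain ⟨h2, h3⟩ := hg2 (2 * t) ⟨by linarith [ht.1], by linarith⟩
        exact ⟨h2, by linarith⟩
      · refine ⟨fun h2 => ?_, ?_⟩
        · exact disjoint_left.1 hT (hcr _) (hd.subset_dom h2)
        · have h3 := hdT _ (hcr (2 * t - 1))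
          have h4 := (hg2 1 ⟨zero_le_one, le_refl 1⟩).2
          have h5 := dist_triangle (c.extend (2 * t - 1)) (g 1) y
          linarith
  · refine ⟨g, hg.continuousOn, hg0, hD, fun t ht => ⟨(hg2 t ht).1, ?_⟩⟩
    have := (hg2 t ht).2
    linarith

end Sys

end Vale.Agent.P167.H446.Cut
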