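import Vale.Agent.P167.H446.PosDefs
import Vale.Agent.P167.H756.Bounds

/-!
# P167, block POS: (L4), small connected sets near the observation point

`near_X` : the points of the half-plane near `X` have positions close to `uX W t X`.
`pos_cut` : a small connected subset of the whole domain `ψ HH`, which contains a point `ψ z₁` with `z₁`
close to `X`, is in `D_t`, and all its points have positions close to `uX W t X`.
-/

set_option autoImplicit false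

open Set Topology Metric MeasureTheory Filter Bornology
open scoped ENNReal Real ComplexConjugate

namespace Vale.Agent.P167.H446

open Vale.Agent.P153.R2.R1 Vale.Agent.P167.H756
open Vale.Agent.P153.R2.L1 (HH)
open Vale.Agent.P164 (loewnerDomain Zf)
open Vale.Agent.P167.H947 (flow flow_gf)

/-- The points near `X`. -/
theorem near_X {T R X κ : ℝ} (hX0 : 0 < X) (hX : 8 * R ≤ X) (hX2 : 64 * T ≤ X ^ 2)
    (hκ : 0 < κ) : ∃ η > 0, ∀ (W : ℝ → ℝ) (t : ℝ), Drv T R W t → ∀ z : ℂ, 0 < z.im →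
      ‖z - X‖ ≤ η → z ∈ loewnerDomain W t ∧ ‖Zf W z t - uX W t X‖ ≤ κ / 2 ∧
        dist (mb 1 Complex.I (Zf W z t)) (mb 1 Complex.I (uX W t X : ℂ)) ≤ κ := by
  refine ⟨min (X / 8) (κ / 32), by positivity, fun W t H z hz0 hz => ?_⟩
  have habs : |X| = X := abs_of_pos hX0
  have hg := trans_FD H (fun z => z) hX0.ne' (by rw [habs]; exact hX) hX2
  rw [habs] at hg
  obtain ⟨-, hlip⟩ := lip_of_bdd (f := fun z => flow W t z - W t) (x := (X : ℂ)) (ρ := X / 4)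
    (s := X / 4) (B := 2 * X) (by positivity)
    (by rw [show X / 4 + X / 4 = X / 2 by ring]; exact hg.diff)
    (by rw [show X / 4 + X / 4 = X / 2 by ring]; exact hg.bdd)
  obtain ⟨X₁, h1, h2, h3⟩ := H.real_pt hX0 hX hX2
  have eu : uX W t X = X₁ := by rw [uX, h1, Complex.ofReal_re]
  have hn : ‖(X : ℂ)‖ = X := by rw [Complex.norm_real, Real.norm_eq_abs, habs]
  have hzX : ‖z - X‖ ≤ X / 8 := hz.trans (min_le_left _ _)
  have hzn : X / 2 ≤ ‖z‖ := by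
    have h4 : ‖(X : ℂ)‖ ≤ ‖z‖ + ‖z - X‖ := by
      have e2 : (X : ℂ) = z - (z - X) := by ring
      calc ‖(X : ℂ)‖ = ‖z - (z - X)‖ := by rw [← e2]
        _ ≤ _ := norm_sub_le _ _
    rw [hn] at h4
    linarith
  have hsq : 16 * T ≤ ‖z‖ ^ 2 := by
    have h5 : (X / 2) ^ 2 ≤ ‖z‖ ^ 2 := by gcongr
    rw [div_pow] at h5
    linarith
  have hdom : z ∈ loewnerDomain W t := H.dom hz0 (by linarith) hsq
  have e : Zf W z t = flow W t z - W t := by
    rw [flow_gf H.nn H.cont.continuousOn hdom, Vale.Agent.P164.Zf_eq]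
  have hZ : ‖Zf W z t - uX W t X‖ ≤ κ / 2 := by
    have h6 := hlip X (mem_ball_self (by positivity)) z
      (by rw [mem_ball, dist_eq_norm]; linarith)
    rw [e, eu, ← h1]
    refine h6.trans ?_
    have e3 : 2 * X / (X / 4 / 2) = 16 := by field_simp; norm_num
    rw [e3]
    have : ‖z - X‖ ≤ κ / 32 := hz.trans (min_le_right _ _)
    linarith
  refine ⟨hdom, hZ, ?_⟩
  refine (dist_mb_mb (Vale.Agent.P164.Zf_im_pos H.nn hdom).le (by simp)).trans ?_
  linarith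

/-- **(L4)** Small connected sets near the observation point. -/
theorem pos_cut {T R Rd cd Y X κ : ℝ} (hRd : 0 < Rd) (hcd : 0 < cd) (hY0 : 0 < Y)
    (hY : 8 * R ≤ Y) (hY2 : 64 * T ≤ Y ^ 2) (hT : 0 ≤ T) (hR : 0 ≤ R) (hX0 : 0 < X)
    (hX : 8 * R ≤ X) (hX2 : 64 * T ≤ X ^ 2) (hκ : 0 < κ) :
    ∃ h > 0, ∀ ψ : ℂ → ℂ, HConf Rd cd Y ψ → ∀ C ⊆ ψ '' HH, IsPreconnected C →
      (∀ x ∈ C, ∀ y ∈ C, dist x y ≤ h) → (∃ z₁ ∈ HH, ψ z₁ ∈ C ∧ ‖z₁ - X‖ ≤ h) →
      ∀ z ∈ HH, ψ z ∈ C → ‖z - X‖ ≤ κ ∧ ∀ (W : ℝ → ℝ) (t : ℝ), Drv T R W t →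
        z ∈ loewnerDomain W t ∧ Nr κ {uX W t X} (Zf W z t) := by
  obtain ⟨η, hη, hnear⟩ := near_X (T := T) (R := R) hX0 hX hX2 hκ
  set η' : ℝ := min η κ with hη'
  have hη'0 : 0 < η' := by positivity
  obtain ⟨ε, hε, himb⟩ := imb_close (M := X + 1) (κ := η' / 2) (by positivity) (by positivity)
  obtain ⟨h, hh, hsm⟩ := small_dom (T := T) (R := R) hRd hcd hY0 hY hY2 hε
  refine ⟨min h (min (η' / 2) 1), by positivity, fun ψ hψ C hC hCc hdm hex z hz hzC => ?_⟩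
  obtain ⟨z₁, hz₁, hz₁C, hz₁X⟩ := hex
  have H0 : Drv T R (fun _ => (0 : ℝ)) 0 :=
    ⟨continuous_const, le_rfl, hT, fun s _ => by rw [abs_zero]; exact hR⟩
  have hz0 : 0 < z.im := hz
  have hz₁0 : 0 < z₁.im := hz₁
  have hle1 : min h (min (η' / 2) 1) ≤ h := min_le_left _ _
  have hle2 : min h (min (η' / 2) 1) ≤ η' / 2 := (min_le_right _ _).trans (min_le_left _ _)
  have hle3 : min h (min (η' / 2) 1) ≤ 1 := (min_le_right _ _).trans (min_le_right _ _)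
  have h1 := hsm ψ hψ (fun _ => 0) 0 H0 C (by rw [dom_zero']; exact hC) hCc
    (fun x hx y hy => (hdm x hx y hy).trans hle1) z (by rw [dom_zero']; exact hz) z₁
    (by rw [dom_zero']; exact hz₁) hzC hz₁C
  rw [Vale.Agent.P164.Zf_zero hz0, Vale.Agent.P164.Zf_zero hz₁0, Complex.ofReal_zero, sub_zero,
    sub_zero, dist_eq_norm] at h1
  have hn : ‖(X : ℂ)‖ = X := by rw [Complex.norm_real, Real.norm_eq_abs, abs_of_pos hX0]
  have hz₁n : ‖z₁‖ ≤ X + 1 := by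
    have h4 : ‖z₁‖ ≤ ‖z₁ - X‖ + ‖(X : ℂ)‖ := by
      have := norm_add_le (z₁ - X) (X : ℂ)
      rwa [sub_add_cancel] at this
    rw [hn] at h4
    linarith
  have h2 := himb z₁ (mb 1 Complex.I z) hz₁0.le hz₁n h1
  rw [imb_mb norm_one (by simp) hz0.le] at h2
  have h3 : ‖z - X‖ ≤ η' := by
    calc ‖z - X‖ = ‖(z - z₁) + (z₁ - X)‖ := by congr 1; ring
      _ ≤ ‖z - z₁‖ + ‖z₁ - X‖ := norm_add_le _ _
      _ ≤ η' := by linarith
  refine ⟨h3.trans (min_le_right _ _), fun W t H => ?_⟩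
  obtain ⟨g1, -, g2⟩ := hnear W t H z hz0 (h3.trans (min_le_left _ _))
  exact ⟨g1, uX W t X, rfl, g2⟩

end Vale.Agent.P167.H446
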