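import Vale.Agent.P167.H446.Pos

/-!
# P167, block POS: the positions of the points of the boundary curve

`pos_curve` : the boundary curve `F` of a domain which almost fills `D_t`, from the target `F tb` to the
tip `F ta` (positions `≤ 0`), to the foot `F tf` (positions in `[0, u]`), and back to the target
(positions `≥ u`), up to `κ` in the chart of the disc. `pos_poly` : the case of a lattice polygon.
-/

set_option autoImplicit false

open Set Topology Metric MeasureTheory Filter Bornology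
open scoped ENNReal Real ComplexConjugate

namespace Vale.Agent.P167.H446

open Vale.Agent.P153.R2.R1 Vale.Agent.P153.R2.OBSV Vale.Agent.P167.H174 Vale.Agent.P167.H756
open Vale.Agent.P153.R2.L1 (HH)
open Vale.Agent.P164 (loewnerDomain Zf)
open Vale.Agent.P167.H947 (flow flow_gf)

theorem uX_bd {T R : ℝ} {W : ℝ → ℝ} {t : ℝ} (H : Drv T R W t) {X : ℝ} (hX0 : 0 < X)
    (hX : 8 * R ≤ X) (hX2 : 64 * T ≤ X ^ 2) :
    flow W t X - W t = uX W t X ∧ X / 2 ≤ uX W t X ∧ uX W t X ≤ 2 * X := by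
  obtain ⟨X₁, h1, h2, h3⟩ := H.real_pt hX0 hX hX2
  have e : uX W t X = X₁ := by rw [uX, h1, Complex.ofReal_re]
  rw [e]
  exact ⟨h1, h2, h3⟩

/-- A position near the target. -/
theorem nr_of_far {ε κ u : ℝ} (hε : 0 < ε) (hκ : 2 * ε ≤ κ) {w : ℂ}
    (h : dist (mb 1 Complex.I w) 1 ≤ ε) : Nr κ (Iic 0) w ∧ Nr κ (Ici u) w := by
  obtain ⟨x, h1, h2, h3⟩ := exists_far_real hε (max 0 u)
  have g1 : 0 ≤ x := (le_max_left _ _).trans h1
  have g2 : u ≤ x := (le_max_right _ _).trans h1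
  refine ⟨⟨-x, by show -x ≤ 0; linarith, ?_⟩, ⟨x, g2, ?_⟩⟩
  · refine (dist_triangle_right _ _ 1).trans ?_
    linarith
  · refine (dist_triangle_right _ _ 1).trans ?_
    linarith

/-- **The positions of the points of the boundary curve.** `u` is the position of the foot. -/
theorem pos_curve_u {T R Rd cd Y u₀ U κ : ℝ} (hRd : 0 < Rd) (hcd : 0 < cd) (hY0 : 0 < Y)
    (hY : 8 * R ≤ Y) (hY2 : 64 * T ≤ Y ^ 2) (hT : 0 ≤ T) (hR : 0 ≤ R) (hu₀ : 0 < u₀)
    (hκ : 0 < κ) :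
    ∃ h > 0, ∀ ψ : ℂ → ℂ, HConf Rd cd Y ψ → ∀ (W : ℝ → ℝ) (t : ℝ), Drv T R W t →
      ∀ (D : Set ℂ) (F : ℝ → ℂ) (L tb ta tf t₀ : ℝ), JCurve F L → frontier D = range F →
      H327.Flat F D t₀ → t₀ ∈ Ioo tb (tb + L) → PD h ψ W t Y D (F ta) (F tb) →
      ta ∈ Ioo tb (tb + L) → tf ∈ Ioo tb (tb + L) → ∀ u : ℝ, u₀ ≤ u → u ≤ U →
      ∀ zf ∈ loewnerDomain W t, ψ zf = F tf → Nr h {u} (Zf W zf t) →
      ta < tf ∧ ∀ s ∈ Icc tb (tb + L), ∀ z ∈ loewnerDomain W t, ψ z = F s →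
        (s ≤ ta → Nr κ (Iic 0) (Zf W z t)) ∧
        (ta ≤ s → s ≤ tf → Nr κ (Icc 0 u) (Zf W z t)) ∧
        (tf ≤ s → Nr κ (Ici u) (Zf W z t)) := by
  set V : ℝ := max U 0 with hV
  have hV0 : 0 ≤ V := le_max_right _ _
  set σ : ℝ := 2 * min u₀ 1 / (1 + V) with hσ
  have hσ0 : 0 < σ := by positivity
  set ε : ℝ := min (κ / 4) (σ / 4) with hε
  have hε0 : 0 < ε := by positivity
  obtain ⟨h₁, hh₁, hbd⟩ := bd_close (T := T) (R := R) hRd hcd hY0 hY hY2 hT hR hε0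
  refine ⟨min h₁ ε, by positivity, ?_⟩
  intro ψ hψ W t H D F L tb ta tf t₀ hF hfr hfl ht₀ hPD hta htf u hu1 hu2 zf hzf hzfe hnr
  have hpos : 0 < min h₁ ε := by positivity
  obtain ⟨φ, hφ, hinj, hcl, hinf⟩ := hbd ψ hψ W t H D _ _ (hPD.mono hpos (min_le_left _ _))
  have hu0 : 0 < u := by linarith
  have hn := hPD.good.nocut
  have hD := hPD.good.isOpen
  have hmono := H327.hpar_mono hφ hn hD hF hfr ht₀ hfl
  have huni := H327.uni_of hφ hn
  have hspec := fun (s : ℝ) (hs : s ∈ Ioo tb (tb + L)) =>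
    (H327.hpar_spec hφ hn hD hF hfr hs).1
  have hva : H327.hpar φ F ta = 0 := by
    have h1 := hspec ta hta
    rw [← hφ.zero] at h1
    have := huni.inj (H327.real_HC _) (by show (0 : ℝ) ≤ (0 : ℂ).im; simp) h1
    exact_mod_cast this
  set xf : ℝ := H327.hpar φ F tf with hxf
  have hεκ : ε ≤ κ / 4 := min_le_left _ _
  have hεσ : ε ≤ σ / 4 := min_le_right _ _
  -- the foot
  have hf1 : dist (mb 1 Complex.I (xf : ℂ)) (mb 1 Complex.I (u : ℂ)) ≤ 2 * ε := by
    obtain ⟨x, hx, hx2⟩ := hnr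
    rw [mem_singleton_iff] at hx
    subst hx
    have h1 := hcl xf zf hzf (by rw [hzfe, hspec tf htf])
    have h2 : dist (mb 1 Complex.I (Zf W zf t)) (mb 1 Complex.I (x : ℂ)) ≤ ε :=
      hx2.trans (min_le_right _ _)
    have h3 := dist_triangle_left (mb 1 Complex.I (xf : ℂ)) (mb 1 Complex.I (x : ℂ))
      (mb 1 Complex.I (Zf W zf t))
    linarith
  have hσu : σ ≤ 2 * min u 1 / (1 + u) := by
    have a1 : min u₀ 1 ≤ min u 1 := min_le_min_right _ hu1
    have a2 : 0 ≤ min u 1 := le_min hu0.le zero_le_one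
    have a3 : u ≤ V := hu2.trans (le_max_left _ _)
    rw [hσ]
    gcongr
  have hxf0 : 0 < xf := by
    by_contra hcon
    push Not at hcon
    have := chord_sep hu0 hcon
    linarith
  have htaf : ta < tf := by
    by_contra hcon
    push Not at hcon
    have := hmono.monotoneOn htf hta hcon
    rw [hva] at this
    linarith
  refine ⟨htaf, fun s hs z hz hzs => ?_⟩
  by_cases hsb : s ∈ Ioo tb (tb + L)
  · set x : ℝ := H327.hpar φ F s with hx
    have h1 := hcl x z hz (by rw [hzs, hspec s hsb])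
    refine ⟨fun h2 => ?_, fun h2 h3 => ?_, fun h2 => ?_⟩
    · refine ⟨x, ?_, by linarith⟩
      have := hmono.monotoneOn hsb hta h2
      rw [hva] at this
      exact this
    · have h4 := hmono.monotoneOn hta hsb h2
      have h5 := hmono.monotoneOn hsb htf h3
      rw [hva] at h4
      rcases le_or_gt x u with h6 | h6
      · exact ⟨x, ⟨h4, h6⟩, by linarith⟩
      · refine ⟨u, ⟨hu0.le, le_rfl⟩, ?_⟩
        have h7 := chord_mono hu0.le h6.le h5
        have h8 := dist_triangle (mb 1 Complex.I (Zf W z t)) (mb 1 Complex.I (x : ℂ))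
          (mb 1 Complex.I (u : ℂ))
        linarith
    · have h5 := hmono.monotoneOn htf hsb h2
      rcases le_or_gt u x with h6 | h6
      · exact ⟨x, h6, by linarith⟩
      · refine ⟨u, self_mem_Ici, ?_⟩
        have h7 := chord_mono' hxf0.le h5 h6.le
        have h8 := dist_triangle (mb 1 Complex.I (Zf W z t)) (mb 1 Complex.I (x : ℂ))
          (mb 1 Complex.I (u : ℂ))
        linarith
  · have h1 : s = tb ∨ s = tb + L := by
      rcases hs.1.eq_or_lt with h | h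
      · exact Or.inl h.symm
      · rcases hs.2.eq_or_lt with h' | h'
        · exact Or.inr h'
        · exact absurd ⟨h, h'⟩ hsb
    have h2 : F s = F tb := by
      rcases h1 with h | h
      · rw [h]
      · rw [h, hF.per]
    have h3 := hinf z hz (by rw [hzs, h2])
    obtain ⟨g1, g2⟩ := nr_of_far (κ := κ) (u := u) hε0 (by linarith) h3
    refine ⟨fun _ => g1, fun h4 h5 => ?_, fun _ => g2⟩
    exfalso
    rcases h1 with h | h
    · linarith [hta.1]
    · linarith [htf.2]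

/-- **The positions of the points of the boundary curve**, for the observation point `X`. -/
theorem pos_curve {T R Rd cd Y X κ : ℝ} (hRd : 0 < Rd) (hcd : 0 < cd) (hY0 : 0 < Y)
    (hY : 8 * R ≤ Y) (hY2 : 64 * T ≤ Y ^ 2) (hT : 0 ≤ T) (hR : 0 ≤ R) (hX0 : 0 < X)
    (hX : 8 * R ≤ X) (hX2 : 64 * T ≤ X ^ 2) (hκ : 0 < κ) :
    ∃ h > 0, ∀ ψ : ℂ → ℂ, HConf Rd cd Y ψ → ∀ (W : ℝ → ℝ) (t : ℝ), Drv T R W t →
      ∀ (D : Set ℂ) (F : ℝ → ℂ) (L tb ta tf t₀ : ℝ), JCurve F L → frontier D = range F →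
      H327.Flat F D t₀ → t₀ ∈ Ioo tb (tb + L) → PD h ψ W t Y D (F ta) (F tb) →
      ta ∈ Ioo tb (tb + L) → tf ∈ Ioo tb (tb + L) →
      ∀ zf ∈ loewnerDomain W t, ψ zf = F tf → Nr h {uX W t X} (Zf W zf t) →
      ta < tf ∧ ∀ s ∈ Icc tb (tb + L), ∀ z ∈ loewnerDomain W t, ψ z = F s →
        (s ≤ ta → Nr κ (Iic 0) (Zf W z t)) ∧
        (ta ≤ s → s ≤ tf → Nr κ (Icc 0 (uX W t X)) (Zf W z t)) ∧
        (tf ≤ s → Nr κ (Ici (uX W t X)) (Zf W z t)) := by
  obtain ⟨h, hh, H⟩ := pos_curve_u (T := T) (R := R) (U := 2 * X) hRd hcd hY0 hY hY2 hT hR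
    (half_pos hX0) hκ
  refine ⟨h, hh, fun ψ hψ W t hD D F L tb ta tf t₀ hF hfr hfl ht₀ hPD hta htf => ?_⟩
  obtain ⟨-, hu1, hu2⟩ := uX_bd hD hX0 hX hX2
  exact H ψ hψ W t hD D F L tb ta tf t₀ hF hfr hfl ht₀ hPD hta htf _ hu1 hu2

end Vale.Agent.P167.H446
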