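import Vale.Agent.P167.H446.NotchB
import Vale.Agent.P167.H446.PosC
import Vale.Agent.P167.CL.GeoDefs

/-!
# P167, block CLOSE [ASM] (B): existence of the stages

`exists_sys` : the flat cuts at the tip and at the target of `D_t`, in the presence of the cut at the
observation point `X`. `exists_stage` : existence of the stages `Stg`.
-/

set_option autoImplicit false

open Set Topology Metric MeasureTheory Filter Bornology
open scoped ENNReal Real ComplexConjugate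

namespace Vale.Agent.P167.H446

open Vale.Agent.P153.R2.R1 Vale.Agent.P167.H756
open Vale.Agent.P153.R2.L1 (HH)
open Vale.Agent.P164 (loewnerDomain Zf)
open Vale.Agent.P167.H947 (flow flow_gf)
open Vale.Agent.P167.E6
open Vale.Agent.P167.H446.Cut (Sys D1 E1 data)
open Vale.Agent.P167.H450 (sqr reg GF Cmp bk obk br exists_sqr)

/-- The base point in the disc. -/
theorem base_mem {T R Y : ℝ} {W : ℝ → ℝ} {t : ℝ} (H : Drv T R W t) (hY0 : 0 < Y)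
    (hY : 8 * R ≤ Y) (hY2 : 64 * T ≤ Y ^ 2) :
    mb 1 Complex.I (Zf W (Y * Complex.I) t) ∈
      closedBall (0 : ℂ) √(1 - 4 * (3 * Y / 4) / (1 + 2 * Y) ^ 2) := by
  obtain ⟨hd, h1, h2, h3⟩ := H.base hY0 hY hY2
  have e : ‖mb 1 Complex.I (Zf W (Y * Complex.I) t)‖ =
      ‖mb 1 (Zf W (Y * Complex.I) t) Complex.I‖ := by
    rw [norm_mb norm_one, norm_mb norm_one, norm_sub_rev, Complex.conj_I]
    congr 1
    rw [← RCLike.norm_conj (Complex.I - _), map_sub, Complex.conj_conj, Complex.conj_I,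
      ← norm_neg]
    congr 1
    ring
  rw [mem_closedBall_zero_iff, e]
  exact norm_mb_le (by positivity) h1 h2

theorem base_lt {Y : ℝ} (hY0 : 0 < Y) : √(1 - 4 * (3 * Y / 4) / (1 + 2 * Y) ^ 2) < 1 := by
  rw [Real.sqrt_lt' one_pos, one_pow, sub_lt_self_iff]
  positivity

/-- The distance of the position of the observation point to the marks. -/
theorem mark_sep {u X : ℝ} (hX0 : 0 < X) (h1 : X / 2 ≤ u) (h2 : u ≤ 2 * X) :
    min X 1 / (1 + 2 * X) ≤ dist (-1 : ℂ) (mb 1 Complex.I (u : ℂ)) ∧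
      min X 1 / (1 + 2 * X) ≤ dist (1 : ℂ) (mb 1 Complex.I (u : ℂ)) := by
  have hu0 : 0 < u := by linarith
  constructor
  · have h3 := chord_sep hu0 (le_refl (0 : ℝ))
    have e : mb 1 Complex.I ((0 : ℝ) : ℂ) = -1 := by
      rw [mb, Complex.ofReal_zero, zero_sub, zero_sub, Complex.conj_I, neg_neg, one_mul, neg_div,
        div_self Complex.I_ne_zero]
    rw [e] at h3
    refine le_trans ?_ h3
    have h4 : min X 1 ≤ 2 * min u 1 := by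
      rcases le_total u 1 with h | h
      · rw [min_eq_left h]
        exact (min_le_left _ _).trans (by linarith)
      · rw [min_eq_right h]
        exact (min_le_right _ _).trans (by norm_num)
    have h5 : 0 ≤ min X 1 := le_min hX0.le zero_le_one
    gcongr
  · have h0 := add_I_ne (z := (u : ℂ)) (by simp)
    have e : mb 1 Complex.I (u : ℂ) - 1 = -(2 * Complex.I) / ((u : ℂ) + Complex.I) := by
      rw [mb, Complex.conj_I, sub_neg_eq_add, one_mul]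
      field_simp
      ring
    rw [dist_comm, dist_eq_norm, e, norm_div, norm_neg, norm_mul, Complex.norm_I, mul_one]
    have h3 : ‖(2 : ℂ)‖ = 2 := by norm_num
    rw [h3]
    have h4 : ‖(u : ℂ) + Complex.I‖ ≤ 1 + 2 * X := by
      refine (norm_add_le _ _).trans ?_
      rw [Complex.norm_I, Complex.norm_real, Real.norm_of_nonneg hu0.le]
      linarith
    have h5 : 0 < ‖(u : ℂ) + Complex.I‖ := norm_pos_iff.2 h0
    have h6 : min X 1 ≤ 2 := (min_le_right _ _).trans (by norm_num)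
    gcongr

/-- A small brick with its margin is conformally small. -/
theorem thick_pre {R c : ℝ} (hR : 0 < R) (hc : 0 < c) {e : ℝ} (he : 0 < e) :
    ∃ η > 0, ∀ F : ℂ → ℂ, Cls R c F → ∀ (ℓ ρ : ℝ) (b : ℤ × ℤ), 0 < ρ → 2 * ρ + 3 * ℓ ≤ η →
      (∀ u ∈ bk ℓ b, ball u ρ ⊆ F '' ball 0 1) → ∀ v ∈ ball (0 : ℂ) 1, ∀ v' ∈ ball (0 : ℂ) 1,
      (∃ u ∈ bk ℓ b, F v ∈ ball u ρ) → (∃ u ∈ bk ℓ b, F v' ∈ ball u ρ) → dist v v' ≤ e := by
  obtain ⟨η, hη, hsm⟩ := Cut.small_pre (R := R) (c := c) hR hc he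
  refine ⟨η, hη, fun F hF ℓ ρ b hρ hle hsub v hv v' hv' h h' => ?_⟩
  have hconf := hF.conf
  set T : Set ℂ := ⋃ u ∈ bk ℓ b, ball u ρ with hT
  have hTD : T ⊆ F '' ball 0 1 := by
    intro x hx
    obtain ⟨u, hu, hxu⟩ := mem_iUnion₂.1 hx
    exact hsub u hu hxu
  have hTc : IsPreconnected T := by
    have e1 : T = thickening ρ (bk ℓ b) := by rw [hT, thickening_eq_biUnion_ball]
    rw [e1]
    exact ((H450.convex_bk ℓ b).thickening ρ).isPreconnected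
  have hdT : ∀ x ∈ T, ∀ y ∈ T, dist x y ≤ η := by
    intro x hx y hy
    obtain ⟨u, hu, hxu⟩ := mem_iUnion₂.1 hx
    obtain ⟨u', hu', hyu⟩ := mem_iUnion₂.1 hy
    have h1 := H450.dist_le_of_bk hu hu'
    rw [mem_ball] at hxu hyu
    have h2 := dist_triangle4 x u u' y
    rw [dist_comm u' y] at h2
    linarith
  obtain ⟨u, hu, hvu⟩ := h
  obtain ⟨u', hu', hvu'⟩ := h'
  refine hsm F hF (dinv F '' T) ?_ ?_ ?_ v ⟨F v, mem_iUnion₂.2 ⟨u, hu, hvu⟩, hconf.dinv_apply hv⟩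
    v' ⟨F v', mem_iUnion₂.2 ⟨u', hu', hvu'⟩, hconf.dinv_apply hv'⟩
  · rintro _ ⟨x, hx, rfl⟩
    exact hconf.dinv_mem (hTD hx)
  · exact hTc.image _ fun x hx => (hconf.dinv_continuousAt (hTD hx)).continuousWithinAt
  · rintro _ ⟨x, hx, rfl⟩ _ ⟨y, hy, rfl⟩
    rw [hconf.apply_dinv (hTD hx), hconf.apply_dinv (hTD hy)]
    exact hdT x hx y hy

/-- **The flat cuts** at the tip and at the target of `D_t`. `B` is the cut at the observation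
point. -/
theorem exists_sys {T R X Y Rd cd : ℝ} (hRd : 0 < Rd) (hcd : 0 < cd) (hX0 : 0 < X)
    (hX : 8 * R ≤ X) (hX2 : 64 * T ≤ X ^ 2) (hY0 : 0 < Y) (hY : 8 * R ≤ Y)
    (hY2 : 64 * T ≤ Y ^ 2) :
    ∃ r > 0, ∃ ε₀ > 0, ∀ ε : ℝ, 0 < ε → ε ≤ ε₀ → ∃ η > 0, ∀ ψ : ℂ → ℂ, HConf Rd cd Y ψ →
      ∀ (W : ℝ → ℝ) (t : ℝ), Drv T R W t → ∀ ℓ : ℝ, 0 < ℓ → ℓ ≤ η → ∀ (ι : Type) (ξ : ι → ℂ),
      (∀ j, ξ j = -1 ∨ ξ j = 1) → Function.Injective ξ → ∀ g B : Set ℂ, g ⊆ B →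
      (∀ v ∈ ball (0 : ℂ) 1, FD ψ W t v ∈ B → dist v (mb 1 Complex.I (uX W t X : ℂ)) ≤ r) →
      IsPreconnected (FD ψ W t '' ball 0 1 \ g)ᶜ → IsPreconnected (FD ψ W t '' ball 0 1 \ B)ᶜ →
      (∀ z ∈ FD ψ W t '' ball 0 1, z ∉ g → z ∈ B →
        ∃ G, z ∈ sqr ℓ G ∧ ¬ (obk ℓ (br G) ⊆ FD ψ W t '' ball 0 1 \ B)) →
      ∃ (x : ι → ℝ) (k : ι → ℤ) (q : ι → ℝ) (K C : ι → Set ℂ),
        Sys (FD ψ W t) (mb 1 Complex.I (Zf W (Y * Complex.I) t)) ξ ε η ℓ x k q K C g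
          (FD ψ W t '' ball 0 1 \ g) ∧
        Sys (FD ψ W t) (mb 1 Complex.I (Zf W (Y * Complex.I) t)) ξ ε η ℓ x k q K C B
          (FD ψ W t '' ball 0 1 \ g) ∧
        ∀ ρ : ℝ, 0 < ρ → 2 * (ρ + 4 * ℓ) ≤ η →
          GF ℓ ρ (D1 (FD ψ W t '' ball 0 1 \ g) K) (E1 ℓ (FD ψ W t '' ball 0 1 \ g) x k q K) ⊆
            GF ℓ ρ (FD ψ W t '' ball 0 1 \ g) (FD ψ W t '' ball 0 1 \ g) ∧
          ∀ KB : Set (ℤ × ℤ), reg ℓ KB ⊆ B →
            KB ⊆ GF ℓ ρ (FD ψ W t '' ball 0 1 \ g) (FD ψ W t '' ball 0 1 \ g) →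
            KB ⊆ GF ℓ ρ (D1 (FD ψ W t '' ball 0 1 \ g) K)
              (E1 ℓ (FD ψ W t '' ball 0 1 \ g) x k q K) := by
  obtain ⟨c, hc, hcls⟩ := cls_FD (T := T) (R := R) hRd hcd hY0 hY hY2
  have hρ1 := base_lt hY0
  set ρ₀ : ℝ := √(1 - 4 * (3 * Y / 4) / (1 + 2 * Y) ^ 2) with hρ₀
  have hρ0 : 0 ≤ ρ₀ := Real.sqrt_nonneg _
  set s : ℝ := min X 1 / (1 + 2 * X) with hs
  have hs0 : 0 < s := by positivity
  have h1ρ : 0 < 1 - ρ₀ := by linarith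
  have hsρ0 : 0 < s * (1 - ρ₀) := by positivity
  have hsρ : s * (1 - ρ₀) ≤ s := mul_le_of_le_one_right hs0.le (by linarith)
  obtain ⟨η₂, hη₂, hthick⟩ := thick_pre (R := Rd) (c := c) hRd hc (e := s * (1 - ρ₀) / 12)
    (by positivity)
  refine ⟨s * (1 - ρ₀) / 12, by positivity, min (s * (1 - ρ₀) / 12) ((1 - ρ₀) / 9), by positivity,
    fun ε hε hε₀ => ?_⟩
  have hε1 : ε ≤ s * (1 - ρ₀) / 12 := hε₀.trans (min_le_left _ _)
  have hε2 : ε ≤ (1 - ρ₀) / 9 := hε₀.trans (min_le_right _ _)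
  obtain ⟨η₁, hη₁, H⟩ := Cut.exists_syss (R := Rd) (c := c) hRd hc hρ1 (ε := ε) (s₀ := 2) hε
    (by linarith)
  refine ⟨min η₁ η₂, by positivity, fun ψ hψ W t hD ℓ hℓ hℓη ι ξ hξ hinj g B hgB hsize hpg hpB
    hfl => ?_⟩
  obtain ⟨-, hu1, hu2⟩ := uX_bd hD hX0 hX hX2
  obtain ⟨m1, m2⟩ := mark_sep hX0 hu1 hu2
  have hζ : ‖mb 1 Complex.I (uX W t X : ℂ)‖ = 1 :=
    norm_mb_eq norm_one (by simp) (by simp)
  have hξζ : ∀ j, s ≤ dist (ξ j) (mb 1 Complex.I (uX W t X : ℂ)) := by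
    intro j
    rcases hξ j with h | h <;> rw [h]
    · exact m1
    · exact m2
  obtain ⟨x, k, q, K, C, S1, S2⟩ := H (FD ψ W t) (hcls ψ hψ W t hD) _ (base_mem hD hY0 hY hY2) ι ξ
    (fun j => by rcases hξ j with h | h <;> rw [h] <;> simp)
    (fun i j hij => by
      have hne : ξ i ≠ ξ j := fun h => hij (hinj h)
      rcases hξ i with h | h <;> rcases hξ j with h' | h' <;> rw [h, h'] at hne ⊢
      · exact absurd rfl hne
      · rw [dist_eq_norm]; norm_num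
      · rw [dist_eq_norm]; norm_num
      · exact absurd rfl hne) ℓ hℓ (hℓη.trans (min_le_left _ _))
    (mb 1 Complex.I (uX W t X : ℂ)) g B (s * (1 - ρ₀) / 12) s
    (by positivity) hζ hξζ (by linarith) hsize hgB hpg hpB hfl
  have hmono : ∀ {B' E' : Set ℂ}, Sys (FD ψ W t) (mb 1 Complex.I (Zf W (Y * Complex.I) t)) ξ ε η₁ ℓ
      x k q K C B' E' → Sys (FD ψ W t) (mb 1 Complex.I (Zf W (Y * Complex.I) t)) ξ ε (min η₁ η₂) ℓ
      x k q K C B' E' := fun S =>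
    { S with
      ntc := fun j => (S.ntc j).mono (min_le_left _ _)
      far := fun i j u hu u' hu' => (min_le_left _ _).trans (S.far i j u hu u' hu')
      farB := fun j u hu u' hu' => (min_le_left _ _).trans (S.farB j u hu u' hu') }
  -- the notches do not meet the cut
  have hKg : ∀ j, Disjoint (K j ∩ FD ψ W t '' ball 0 1) g := by
    intro j
    rw [disjoint_left]
    rintro z ⟨hz, ⟨v, hv, rfl⟩⟩ hzg
    have h1 := (S1.ntc j).preK v hv hz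
    have h2 := hsize v hv (hgB hzg)
    have h3 := dist_triangle_left (ξ j) (mb 1 Complex.I (uX W t X : ℂ)) v
    have h4 := hξζ j
    linarith
  have hE1 : E1 ℓ (FD ψ W t '' ball 0 1 \ g) x k q K ⊆ FD ψ W t '' ball 0 1 \ g := by
    rintro z (hz | hz)
    · exact hz.1
    · obtain ⟨j, h1, h2, h3⟩ := mem_iUnion.1 hz
      have hlo : z ∈ Cut.lo (x j) (ℓ * k j) (q j) := ⟨h1.le, h2.le, h3⟩
      exact ⟨(S1.ntc j).loD hlo, fun hg =>
        disjoint_left.1 (hKg j) ⟨(S1.ntc j).low hlo, (S1.ntc j).loD hlo⟩ hg⟩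
  refine ⟨x, k, q, K, C, hmono S1, hmono S2, fun ρ hρ hmesh => ⟨?_, fun KB hKB hKG => ?_⟩⟩
  · rintro F ⟨h1, h2⟩
    exact ⟨fun u hu => (h1 u hu).trans hE1, h2.trans sdiff_subset⟩
  · intro F hF
    obtain ⟨h1, h2⟩ := hKG hF
    have hη₂' : 2 * ρ + 3 * ℓ ≤ η₂ := by
      have := min_le_right η₁ η₂
      linarith
    -- the brick and its margin miss the notches
    have key : ∀ u ∈ bk ℓ (br F), ∀ j, Disjoint (ball u ρ) (K j) := by
      intro u hu j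
      rw [disjoint_left]
      intro z hz hzK
      obtain ⟨v, hv, rfl⟩ := (h1 u hu hz).1
      have hu0 : ⟨ℓ * F.1, ℓ * F.2⟩ ∈ sqr ℓ F := by
        refine ⟨le_refl _, ?_, le_refl _, ?_⟩
        · exact mul_le_mul_of_nonneg_left (by linarith) hℓ.le
        · exact mul_le_mul_of_nonneg_left (by linarith) hℓ.le
      have hub := H450.sqr_subset_bk hℓ hu0
      obtain ⟨v', hv', hv'e⟩ := (h1 _ hub (mem_ball_self hρ)).1
      have h3 := hthick (FD ψ W t) (hcls ψ hψ W t hD) ℓ ρ (br F) hρ hη₂'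
        (fun u hu => (h1 u hu).trans sdiff_subset) v hv v' hv' ⟨u, hu, hz⟩
        ⟨_, hub, by rw [hv'e]; exact mem_ball_self hρ⟩
      have h4 := (S1.ntc j).preK v hv hzK
      have h5 := hsize v' hv' (by rw [hv'e]; exact hKB ⟨F, hF, hu0⟩)
      have h6 := hξζ j
      have h7 := dist_triangle4 (ξ j) v v' (mb 1 Complex.I (uX W t X : ℂ))
      rw [dist_comm (ξ j) v] at h7
      linarith
    refine ⟨fun u hu z hz => Or.inl ⟨h1 u hu hz, fun h => ?_⟩, fun z hz => ⟨h2 hz, fun h => ?_⟩⟩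
    · obtain ⟨j, hj⟩ := mem_iUnion.1 h
      exact disjoint_left.1 (key u hu j) hz hj
    · obtain ⟨j, hj⟩ := mem_iUnion.1 h
      exact disjoint_left.1 (key z (H450.obk_subset_bk hz) j) (mem_ball_self hρ) hj

/-- **Existence of the stages.** -/
theorem exists_stage {T R X Y Rd cd : ℝ} (hRd : 0 < Rd) (hcd : 0 < cd) (hX0 : 0 < X)
    (hX : 8 * R ≤ X) (hX2 : 64 * T ≤ X ^ 2) (hY0 : 0 < Y) (hY : 8 * R ≤ Y)
    (hY2 : 64 * T ≤ Y ^ 2) :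
    ∃ r > 0, ∃ ε₀ > 0, ∀ ε : ℝ, 0 < ε → ε ≤ ε₀ → ∃ η > 0, ∀ ψ : ℂ → ℂ, HConf Rd cd Y ψ →
      ∀ (W : ℝ → ℝ) (t : ℝ), Drv T R W t → ∀ ℓ ρ : ℝ, 0 < ℓ → 0 < ρ → 2 * (ρ + 4 * ℓ) ≤ η →
      ∀ (g B : Set ℂ) (KB : Finset (ℤ × ℤ)), g ⊆ B → reg ℓ (KB : Set (ℤ × ℤ)) ⊆ B →
      H450.Bricky (KB : Set (ℤ × ℤ)) →
      (KB : Set (ℤ × ℤ)) ⊆ GF ℓ ρ (FD ψ W t '' ball 0 1 \ g) (FD ψ W t '' ball 0 1 \ g) →
      (∀ F ∉ (KB : Set (ℤ × ℤ)), (obk ℓ (br F) ∩ B).Nonempty →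
        F ∉ GF ℓ ρ (FD ψ W t '' ball 0 1 \ g) (FD ψ W t '' ball 0 1 \ g)) →
      (∀ v ∈ ball (0 : ℂ) 1, FD ψ W t v ∈ B → dist v (mb 1 Complex.I (uX W t X : ℂ)) ≤ r) →
      IsPreconnected (FD ψ W t '' ball 0 1 \ g)ᶜ → IsPreconnected (FD ψ W t '' ball 0 1 \ B)ᶜ →
      (∀ z ∈ FD ψ W t '' ball 0 1, z ∉ g → z ∈ B →
        ∃ G, z ∈ sqr ℓ G ∧ ¬ (obk ℓ (br G) ⊆ FD ψ W t '' ball 0 1 \ B)) →
      ∃ s : CL.Stg, s.Ok T R Rd cd ∧ s.ψ = ψ ∧ s.W = W ∧ s.t = t ∧ s.Y = Y ∧ s.ℓ = ℓ ∧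
        s.ρm = ρ ∧ s.ε = ε ∧ s.η = η ∧ s.g = g ∧ s.B = B ∧ s.KB = KB := by
  obtain ⟨r, hr, ε₀, hε₀, H⟩ := exists_sys (T := T) (R := R) hRd hcd hX0 hX hX2 hY0 hY hY2
  refine ⟨r, hr, ε₀, hε₀, fun ε hε hε1 => ?_⟩
  obtain ⟨η, hη, H⟩ := H ε hε hε1
  refine ⟨η, hη, fun ψ hψ W t hD ℓ ρ hℓ hρ hmesh g B KB hgB hKB hbrk hKG hoff hsize hpg hpB
    hfl => ?_⟩
  obtain ⟨x, k, q, K, C, S1, S2, H3⟩ := H ψ hψ W t hD ℓ hℓ (by linarith) Bool xi
    (fun j => by cases j <;> simp [xi]) (by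
      intro i j hij
      cases i <;> cases j <;> simp [xi] at hij ⊢
      · exact absurd hij (by norm_num [Complex.ext_iff])
      · exact absurd hij (by norm_num [Complex.ext_iff])) g B hgB hsize hpg hpB hfl
  obtain ⟨h4, h5⟩ := H3 ρ hρ hmesh
  obtain ⟨F₀, hF₀⟩ := exists_sqr hℓ (FD ψ W t (mb 1 Complex.I (Zf W (Y * Complex.I) t)))
  have hle : ρ + 3 * ℓ ≤ η := by linarith
  obtain ⟨SE, mE, pE, e1, e2, e3⟩ := (data S1.cuts hℓ hρ (S1.good hρ hle hF₀)).exists_polygon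
  obtain ⟨SP, mP, pP, f1, f2, f3⟩ := (data S2.cuts hℓ hρ (S2.good hρ hle hF₀)).exists_polygon
  refine ⟨⟨ψ, W, t, Y, ℓ, ρ, ε, η, x, k, q, K, C, g, B, KB, F₀, mE, pE, SE, mP, pP, SP⟩,
    ⟨hψ, hD, hρ, hmesh, hgB, hKB, hbrk, h5 _ hKB hKG, ?_, S1, S2, hF₀, e1, f1, e2, e3, f2, f3⟩,
    rfl, rfl, rfl, rfl, rfl, rfl, rfl, rfl, rfl, rfl, rfl⟩
  intro F hF hFK
  rw [disjoint_iff_inter_eq_empty]
  by_contra hne
  exact hoff F (fun h => hFK (Finset.mem_coe.1 h)) (nonempty_iff_ne_empty.2 hne) (h4 hF)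

end Vale.Agent.P167.H446
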