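import Vale.Agent.P167.E6.Poly6
import Vale.Agent.P167.E2.OmDef

/-!
# P167, block E2-GEO (T): the domain of the corner curve is simply connected
-/

open Set Filter Topology Metric Bornology

namespace Vale.Agent.P167.H446

open Vale.Agent.P167.E6 Vale.Agent.P167.E2
open Vale.Agent.P153.R2 (Final.IsEdge)

variable {n : ℕ} {p : ZMod n → ℤ × ℤ} {S : Finset (ℤ × ℤ)} {δ : ℝ}

/-! ### The two sides of the polygon -/

theorem aux21 : ∀ r : Fin 4, r + 2 - 1 = r + 1 := by decide

theorem side6 (hS : Encloses p S) {v w : ℤ × ℤ} {r : Fin 4} (hw : w = v + dir r)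
    (h : ¬ Final.IsEdge p v w) : face v r ∈ S ↔ face v (r - 1) ∈ S := by
  subst hw
  have h1 := hS v r
  have h2 := hS (v + dir r) (r + 2)
  rw [dir_add_two', face_right, aux21, face_left] at h2
  have n1 : ¬ ∃ i, p i = v ∧ p (i + 1) = v + dir r := by
    rintro ⟨i, hi⟩
    exact h ⟨i, Or.inl hi⟩
  have n2 : ¬ ∃ i, p i = v + dir r ∧ p (i + 1) = v := by
    rintro ⟨i, hi⟩
    exact h ⟨i, Or.inr hi⟩
  rw [h1] at n1
  rw [h2] at n2
  tauto

/-- A set of faces which is closed under passing to a neighbour on the same side of the polygon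
contains all or none of the faces of each side. -/
theorem two_sides (hp : IsPolygon p) (hS : Encloses p S) {T : Set (ℤ × ℤ)}
    (hT : ∀ v r, (face v r ∈ S ↔ face v (r - 1) ∈ S) → (face v r ∈ T ↔ face v (r - 1) ∈ T))
    {f g : ℤ × ℤ} (hfg : f ∈ S ↔ g ∈ S) : f ∈ T ↔ g ∈ T := by
  have key := Vale.Agent.P153.R2.POLY.two_sides_set hp.tri (Encloses.tri hp hS)
    (T := {t | t.1 ∈ T}) (by
      intro v k hk
      have e0 : face v 0 = v := by ext <;> simp [face]
      have e1 : face v 1 = v - (1, 0) := by rw [face1]; ext <;> simp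
      have e2 : face v 2 = v - (1, 1) := by rw [face2]; ext <;> simp
      have e3 : face v 3 = v - (0, 1) := by rw [face3]; ext <;> simp
      fin_cases k
      · have h1 := hT v 0 (side6 hS rfl hk)
        rw [f4_0m, e0, e3] at h1
        exact h1.symm
      · have h1 := hT v 1 (side6 hS rfl hk)
        rw [f4_1m, e0, e1] at h1
        exact h1.symm
      · exact Iff.rfl
      · have h1 := hT v 2 (side6 hS rfl hk)
        rw [f4_2m, e1, e2] at h1
        exact h1.symm
      · have h1 := hT v 3 (side6 hS rfl hk)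
        rw [f4_3m, e2, e3] at h1
        exact h1.symm
      · exact Iff.rfl)
  by_cases hf : f ∈ S
  · exact key.1 (f, false) (g, false) (mem_tri.2 hf) (mem_tri.2 (hfg.1 hf))
  · exact key.2 (f, false) (g, false) (fun h => hf (mem_tri.1 h))
      (fun h => hf (hfg.2 (mem_tri.1 h)))

/-! ### The domain of mesh `1` -/

theorem same_compC {A X : Set ℂ} {x a b : ℂ} (hA : IsPreconnected A) (hAX : A ⊆ X)
    (ha : a ∈ A) (hb : b ∈ A) (h : a ∈ connectedComponentIn X x) : b ∈ connectedComponentIn X x := by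
  rw [connectedComponentIn_eq h]
  exact hA.subset_connectedComponentIn ha hAX hb

/-- The enlarged face. -/
def box (f : ℤ × ℤ) : Set ℂ := {z | (f.1 : ℝ) - 3 / 8 < z.re ∧ z.re < f.1 + 11 / 8 ∧
    (f.2 : ℝ) - 3 / 8 < z.im ∧ z.im < f.2 + 11 / 8}

/-- The closed face. -/
def cbox (f : ℤ × ℤ) : Set ℂ := {z | (f.1 : ℝ) ≤ z.re ∧ z.re ≤ f.1 + 1 ∧
    (f.2 : ℝ) ≤ z.im ∧ z.im ≤ f.2 + 1}

/-- The centre of a face. -/
noncomputable def ctr (f : ℤ × ℤ) : ℂ := ⟨f.1 + 1 / 2, f.2 + 1 / 2⟩

theorem mem_O1 {T : Set (ℤ × ℤ)} {z : ℂ} : z ∈ O1 T ↔ ∃ f ∈ T, z ∈ box f := Iff.rfl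

theorem cbox_sub (f : ℤ × ℤ) : cbox f ⊆ box f := fun z ⟨h1, h2, h3, h4⟩ =>
  ⟨by linarith, by linarith, by linarith, by linarith⟩

theorem ctr_mem (f : ℤ × ℤ) : ctr f ∈ cbox f := by
  refine ⟨?_, ?_, ?_, ?_⟩ <;> simp only [ctr] <;> linarith

theorem pt_mem (v : ℤ × ℤ) (r : Fin 4) : pt v ∈ cbox (face v r) := by
  revert r
  refine forall4 ?_ ?_ ?_ ?_ <;>
    simp only [cbox, face0, face1, face2, face3, mem_ofPred_eq, pt_re, pt_im] <;>
    push_cast <;> refine ⟨?_, ?_, ?_, ?_⟩ <;> linarith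

theorem convex_box (f : ℤ × ℤ) : Convex ℝ (box f) := by
  intro z hz w hw a b ha hb hab
  obtain ⟨h1, h2, h3, h4⟩ := hz
  obtain ⟨k1, k2, k3, k4⟩ := hw
  have hb' : b = 1 - a := by linarith
  subst hb'
  simp only [box, mem_ofPred_eq, re_comb, im_comb]
  have q1 : 0 ≤ a * (z.re - (f.1 - 3 / 8)) := mul_nonneg ha (by linarith)
  rcases ha.eq_or_lt with h0 | h0
  · subst h0
    simp only [zero_mul, zero_add, sub_zero, one_mul]
    exact ⟨k1, k2, k3, k4⟩
  · have a1 : 0 < a * (z.re - (f.1 - 3 / 8)) := mul_pos h0 (by linarith)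
    have a2 : 0 < a * (f.1 + 11 / 8 - z.re) := mul_pos h0 (by linarith)
    have a3 : 0 < a * (z.im - (f.2 - 3 / 8)) := mul_pos h0 (by linarith)
    have a4 : 0 < a * (f.2 + 11 / 8 - z.im) := mul_pos h0 (by linarith)
    have b1 : 0 ≤ (1 - a) * (w.re - (f.1 - 3 / 8)) := mul_nonneg hb (by linarith)
    have b2 : 0 ≤ (1 - a) * (f.1 + 11 / 8 - w.re) := mul_nonneg hb (by linarith)
    have b3 : 0 ≤ (1 - a) * (w.im - (f.2 - 3 / 8)) := mul_nonneg hb (by linarith)
    have b4 : 0 ≤ (1 - a) * (f.2 + 11 / 8 - w.im) := mul_nonneg hb (by linarith)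
    refine ⟨?_, ?_, ?_, ?_⟩ <;> nlinarith

theorem isOpen_box (f : ℤ × ℤ) : IsOpen (box f) := by
  have h1 : IsOpen {z : ℂ | (f.1 : ℝ) - 3 / 8 < z.re} := isOpen_lt continuous_const Complex.continuous_re
  have h2 : IsOpen {z : ℂ | z.re < (f.1 : ℝ) + 11 / 8} := isOpen_lt Complex.continuous_re continuous_const
  have h3 : IsOpen {z : ℂ | (f.2 : ℝ) - 3 / 8 < z.im} := isOpen_lt continuous_const Complex.continuous_im
  have h4 : IsOpen {z : ℂ | z.im < (f.2 : ℝ) + 11 / 8} := isOpen_lt Complex.continuous_im continuous_const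
  exact h1.inter (h2.inter (h3.inter h4))

theorem isOpen_O1 (T : Set (ℤ × ℤ)) : IsOpen (O1 T) := by
  have : O1 T = ⋃ f ∈ T, box f := by
    ext z
    simp only [mem_O1, mem_iUnion, exists_prop]
  rw [this]
  exact isOpen_biUnion fun f _ => isOpen_box f

theorem isBounded_O1 (S : Finset (ℤ × ℤ)) : IsBounded (O1 (S : Set (ℤ × ℤ))) := by
  have : O1 (S : Set (ℤ × ℤ)) = ⋃ f ∈ S, box f := by
    ext z
    simp only [mem_O1, mem_iUnion, exists_prop, Finset.mem_coe]
  rw [this]
  refine (isBounded_biUnion_finset S).2 fun f _ => ?_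
  refine (Metric.isBounded_closedBall (x := (pt f : ℂ)) (r := 4)).subset fun z hz => ?_
  obtain ⟨h1, h2, h3, h4⟩ := hz
  rw [mem_closedBall, dist_eq_norm]
  refine (Complex.norm_le_abs_re_add_abs_im _).trans ?_
  have e1 : |(z - pt f).re| ≤ 2 := by
    rw [Complex.sub_re, pt_re, abs_le]
    constructor <;> linarith
  have e2 : |(z - pt f).im| ≤ 2 := by
    rw [Complex.sub_im, pt_im, abs_le]
    constructor <;> linarith
  linarith

theorem nonempty_S (hp : IsPolygon p) (hS : Encloses p S) : S.Nonempty :=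
  ⟨_, (enc_out hp hS (i := 0)).1⟩

theorem isConnected_O1 (hp : IsPolygon p) (hS : Encloses p S) :
    IsConnected (O1 (S : Set (ℤ × ℤ))) := by
  obtain ⟨f0, hf0⟩ := nonempty_S hp hS
  have hbox : ∀ f ∈ S, box f ⊆ O1 (S : Set (ℤ × ℤ)) := fun f hf z hz => ⟨f, hf, hz⟩
  have hc0 : ctr f0 ∈ O1 (S : Set (ℤ × ℤ)) := hbox f0 hf0 (cbox_sub _ (ctr_mem f0))
  set C := connectedComponentIn (O1 (S : Set (ℤ × ℤ))) (ctr f0) with hC
  have key := fun g (hg : g ∈ S) => two_sides hp hS (T := {f | f ∈ S ∧ ctr f ∈ C}) (f := f0) (g := g)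
    (by
      intro v r hvr
      by_cases hb : face v r ∈ S
      · have ha := hvr.1 hb
        have hA := IsPreconnected.union (pt v) (cbox_sub _ (pt_mem v r))
          (cbox_sub _ (pt_mem v (r - 1))) (convex_box _).isPreconnected
          (convex_box _).isPreconnected
        have hAS := union_subset (hbox _ hb) (hbox _ ha)
        have m1 : ctr (face v r) ∈ box (face v r) ∪ box (face v (r - 1)) :=
          Or.inl (cbox_sub _ (ctr_mem _))
        have m2 : ctr (face v (r - 1)) ∈ box (face v r) ∪ box (face v (r - 1)) :=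
          Or.inr (cbox_sub _ (ctr_mem _))
        constructor
        · rintro ⟨_, h⟩
          exact ⟨ha, same_compC hA hAS m1 m2 h⟩
        · rintro ⟨_, h⟩
          exact ⟨hb, same_compC hA hAS m2 m1 h⟩
      · have ha : face v (r - 1) ∉ S := fun h => hb (hvr.2 h)
        exact ⟨fun h => absurd h.1 hb, fun h => absurd h.1 ha⟩)
    (by tauto)
  have hall : O1 (S : Set (ℤ × ℤ)) ⊆ C := by
    rintro z ⟨f, hf, hz⟩
    have h1 : ctr f ∈ C := ((key f hf).1 ⟨hf0, mem_connectedComponentIn hc0⟩).2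
    exact same_compC (convex_box f).isPreconnected (hbox f hf) (cbox_sub _ (ctr_mem f)) hz h1
  have he : O1 (S : Set (ℤ × ℤ)) = C := Subset.antisymm hall (connectedComponentIn_subset _ _)
  refine ⟨⟨_, hc0⟩, ?_⟩
  rw [he]
  exact isPreconnected_connectedComponentIn

/-! ### The complement -/

theorem coord_star {d : ℤ} {b u : ℝ} (hb : 0 ≤ b) (hb1 : b ≤ 1) (hu : -(1 / 2) ≤ u)
    (hu1 : u ≤ 1 / 2) (h : (d : ℝ) - 7 / 8 < b * u) (h' : b * u < d + 7 / 8) :
    (d : ℝ) - 7 / 8 < u ∧ u < d + 7 / 8 := by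
  have k1 : b * u ≤ 1 / 2 := by nlinarith
  have k2 : -(1 / 2) ≤ b * u := by nlinarith
  have d1 : d < 2 := by
    have : (d : ℝ) < 2 := by linarith
    exact_mod_cast this
  have d2 : -2 < d := by
    have : (-2 : ℝ) < d := by linarith
    exact_mod_cast this
  have d3 : d = -1 ∨ d = 0 ∨ d = 1 := by omega
  rcases d3 with rfl | rfl | rfl
  · push_cast at h h' ⊢
    have : u < -1 / 8 := by
      by_contra hc
      push Not at hc
      rcases le_or_gt 0 u with h0 | h0
      · nlinarith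
      · nlinarith
    constructor <;> linarith
  · push_cast at h h' ⊢
    constructor <;> linarith
  · push_cast at h h' ⊢
    have : 1 / 8 < u := by
      by_contra hc
      push Not at hc
      rcases le_or_gt 0 u with h0 | h0
      · nlinarith
      · nlinarith
    constructor <;> linarith

theorem box_star {f g : ℤ × ℤ} {y z : ℂ} (hy : y ∈ cbox g) (hz : z ∈ segment ℝ (ctr g) y)
    (hf : z ∈ box f) : y ∈ box f := by
  obtain ⟨a, b, ha, hb, hab, rfl⟩ := hz
  obtain ⟨h1, h2, h3, h4⟩ := hy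
  obtain ⟨k1, k2, k3, k4⟩ := hf
  have ha' : a = 1 - b := by linarith
  subst ha'
  simp only [re_comb, im_comb, ctr] at k1 k2 k3 k4
  have c1 := coord_star (d := f.1 - g.1) (b := b) (u := y.re - (g.1 + 1 / 2)) hb (by linarith)
    (by linarith) (by linarith) (by push_cast; linarith) (by push_cast; linarith)
  have c2 := coord_star (d := f.2 - g.2) (b := b) (u := y.im - (g.2 + 1 / 2)) hb (by linarith)
    (by linarith) (by linarith) (by push_cast; linarith) (by push_cast; linarith)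
  push_cast at c1 c2
  exact ⟨by linarith [c1.1], by linarith [c1.2], by linarith [c2.1], by linarith [c2.2]⟩

theorem segment_cbox {g : ℤ × ℤ} {y z : ℂ} (hy : y ∈ cbox g) (hz : z ∈ segment ℝ (ctr g) y) :
    z ∈ cbox g := by
  obtain ⟨a, b, ha, hb, hab, rfl⟩ := hz
  obtain ⟨h1, h2, h3, h4⟩ := hy
  have ha' : a = 1 - b := by linarith
  subst ha'
  simp only [cbox, mem_ofPred_eq, re_comb, im_comb, ctr]
  refine ⟨?_, ?_, ?_, ?_⟩ <;> nlinarith

theorem ctr_notMem {g : ℤ × ℤ} (hg : g ∉ S) : ctr g ∉ O1 (S : Set (ℤ × ℤ)) := by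
  rintro ⟨f, hf, h1, h2, h3, h4⟩
  simp only [ctr] at h1 h2 h3 h4
  have a1 : f.1 < g.1 + 1 := by
    have : (f.1 : ℝ) < g.1 + 1 := by linarith
    exact_mod_cast this
  have a2 : g.1 < f.1 + 1 := by
    have : (g.1 : ℝ) < f.1 + 1 := by linarith
    exact_mod_cast this
  have a3 : f.2 < g.2 + 1 := by
    have : (f.2 : ℝ) < g.2 + 1 := by linarith
    exact_mod_cast this
  have a4 : g.2 < f.2 + 1 := by
    have : (g.2 : ℝ) < f.2 + 1 := by linarith
    exact_mod_cast this
  have : f = g := Prod.ext (by omega) (by omega)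
  exact hg (this ▸ hf)

theorem segment_sub {v : ℤ × ℤ} (r : Fin 4) (h1 : face v r ∉ S) (h2 : face v (r - 1) ∉ S) :
    segment ℝ (ctr (face v r)) (ctr (face v (r - 1))) ⊆ (O1 (S : Set (ℤ × ℤ)))ᶜ := by
  rintro z ⟨a, b, ha, hb, hab, rfl⟩ ⟨f, hf, k1, k2, k3, k4⟩
  have ha' : a = 1 - b := by linarith
  subst ha'
  simp only [re_comb, im_comb, ctr] at k1 k2 k3 k4
  have hf' : f = face v r ∨ f = face v (r - 1) := by
    clear h1 h2 hf
    have key : ∀ x y : ℤ, (x : ℝ) < y + 2 → x ≤ y + 1 := by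
      intro x y h
      have : x < y + 2 := by exact_mod_cast h
      omega
    have key' : ∀ x y : ℤ, (x : ℝ) < y + 1 → x ≤ y := by
      intro x y h
      have : x < y + 1 := by exact_mod_cast h
      omega
    revert r
    refine forall4 ?_ ?_ ?_ ?_
    · intro k1 k2 k3 k4
      simp only [f4_0m, face0, face3] at *
      push_cast at k1 k2 k3 k4
      have e1 := key' f.1 v.1 (by linarith)
      have e2 := key' v.1 f.1 (by linarith)
      have e3 := key' f.2 v.2 (by linarith)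
      have e4 := key v.2 f.2 (by linarith)
      simp only [Prod.ext_iff]
      omega
    · intro k1 k2 k3 k4
      simp only [f4_1m, face0, face1] at *
      push_cast at k1 k2 k3 k4
      have e1 := key' f.1 v.1 (by linarith)
      have e2 := key v.1 f.1 (by linarith)
      have e3 := key' f.2 v.2 (by linarith)
      have e4 := key' v.2 f.2 (by linarith)
      simp only [Prod.ext_iff]
      omega
    · intro k1 k2 k3 k4
      simp only [f4_2m, face1, face2] at *
      push_cast at k1 k2 k3 k4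
      have e1 := key' f.1 (v.1 - 1) (by push_cast; linarith)
      have e2 := key v.1 f.1 (by linarith)
      have e3 := key' f.2 v.2 (by linarith)
      have e4 := key v.2 f.2 (by linarith)
      simp only [Prod.ext_iff]
      omega
    · intro k1 k2 k3 k4
      simp only [f4_3m, face2, face3] at *
      push_cast at k1 k2 k3 k4
      have e1 := key' f.1 v.1 (by linarith)
      have e2 := key v.1 f.1 (by linarith)
      have e3 := key' f.2 (v.2 - 1) (by push_cast; linarith)
      have e4 := key v.2 f.2 (by linarith)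
      simp only [Prod.ext_iff]
      omega
  rcases hf' with rfl | rfl
  · exact h1 hf
  · exact h2 hf

theorem exists_cbox (z : ℂ) : ∃ f, z ∈ cbox f :=
  ⟨(⌊z.re⌋, ⌊z.im⌋), Int.floor_le _, (Int.lt_floor_add_one _).le, Int.floor_le _,
    (Int.lt_floor_add_one _).le⟩

theorem isPreconnected_compl_O1 (hp : IsPolygon p) (hS : Encloses p S) :
    IsPreconnected (O1 (S : Set (ℤ × ℤ)))ᶜ := by
  obtain ⟨f0, hf0⟩ := Infinite.exists_notMem_finset S
  have hc0 : ctr f0 ∈ (O1 (S : Set (ℤ × ℤ)))ᶜ := ctr_notMem hf0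
  set C := connectedComponentIn (O1 (S : Set (ℤ × ℤ)))ᶜ (ctr f0) with hC
  have key := fun g (hg : g ∉ S) => two_sides hp hS (T := {f | f ∉ S ∧ ctr f ∈ C}) (f := f0) (g := g)
    (by
      intro v r hvr
      by_cases hb : face v r ∈ S
      · have ha := hvr.1 hb
        exact ⟨fun h => absurd hb h.1, fun h => absurd ha h.1⟩
      · have ha : face v (r - 1) ∉ S := fun h => hb (hvr.2 h)
        have hA := (convex_segment (𝕜 := ℝ) (ctr (face v r)) (ctr (face v (r - 1)))).isPreconnected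
        have hAS := segment_sub r hb ha
        have m1 := left_mem_segment ℝ (ctr (face v r)) (ctr (face v (r - 1)))
        have m2 := right_mem_segment ℝ (ctr (face v r)) (ctr (face v (r - 1)))
        constructor
        · rintro ⟨_, h⟩
          exact ⟨ha, same_compC hA hAS m1 m2 h⟩
        · rintro ⟨_, h⟩
          exact ⟨hb, same_compC hA hAS m2 m1 h⟩)
    (by tauto)
  have hall : (O1 (S : Set (ℤ × ℤ)))ᶜ ⊆ C := by
    intro z hz
    obtain ⟨f, hf⟩ := exists_cbox z
    have hfS : f ∉ S := fun h => hz ⟨f, h, cbox_sub f hf⟩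
    have h1 : ctr f ∈ C := ((key f hfS).1 ⟨hf0, mem_connectedComponentIn hc0⟩).2
    refine same_compC (convex_segment (𝕜 := ℝ) (ctr f) z).isPreconnected ?_
      (left_mem_segment ℝ _ _) (right_mem_segment ℝ _ _) h1
    rintro w hw ⟨g, hg, hwg⟩
    exact hz ⟨g, hg, box_star hf hw hwg⟩
  have he : (O1 (S : Set (ℤ × ℤ)))ᶜ = C := Subset.antisymm hall (connectedComponentIn_subset _ _)
  rw [he]
  exact isPreconnected_connectedComponentIn

/-! ### The domain of mesh `δ` -/

/-- Multiplication by `δ`. -/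
noncomputable def mulH (hδ : 0 < δ) : ℂ ≃ₜ ℂ :=
  Homeomorph.mulLeft₀ (δ : ℂ) (by exact_mod_cast hδ.ne')

theorem Om_img (hδ : 0 < δ) (S : Finset (ℤ × ℤ)) :
    Om δ S = mulH hδ '' O1 (S : Set (ℤ × ℤ)) := Om_eq hδ S

theorem isOpen_Om (hδ : 0 < δ) (S : Finset (ℤ × ℤ)) : IsOpen (Om δ S) := by
  rw [Om_img hδ, (mulH hδ).isOpen_image]
  exact isOpen_O1 _

theorem isBounded_Om (hδ : 0 < δ) (S : Finset (ℤ × ℤ)) : IsBounded (Om δ S) := by
  rw [Om_eq hδ]
  have h := (isBounded_O1 S).smul₀ (δ : ℂ)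
  exact h

theorem isConnected_Om (hδ : 0 < δ) (hp : IsPolygon p) (hS : Encloses p S) :
    IsConnected (Om δ S) := by
  rw [Om_img hδ, (mulH hδ).isConnected_image]
  exact isConnected_O1 hp hS

theorem isPreconnected_compl_Om (hδ : 0 < δ) (hp : IsPolygon p) (hS : Encloses p S) :
    IsPreconnected (Om δ S)ᶜ := by
  rw [Om_img hδ, ← image_compl_eq (mulH hδ).bijective, (mulH hδ).isPreconnected_image]
  exact isPreconnected_compl_O1 hp hS

theorem not_isBounded_compl_Om (hδ : 0 < δ) (S : Finset (ℤ × ℤ)) : ¬ IsBounded (Om δ S)ᶜ := by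
  intro h
  have h2 := (isBounded_Om hδ S).union h
  rw [union_compl_self] at h2
  exact NormedSpace.unbounded_univ ℝ ℂ h2

theorem noBdd_Om (hδ : 0 < δ) (hp : IsPolygon p) (hS : Encloses p S) :
    P153.TOP.NoBdd (Om δ S) := fun _ hz =>
  ⟨(Om δ S)ᶜ, isPreconnected_compl_Om hδ hp hS, hz, Subset.rfl, not_isBounded_compl_Om hδ S⟩

/-- **The domain of the corner curve is simply connected.** -/
theorem rdom_Om (hδ : 0 < δ) (hp : IsPolygon p) (hS : Encloses p S) :
    P153.TOP.RMT.RDom (Om δ S) :=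
  ⟨isConnected_Om hδ hp hS, P153.TOP.hasLogOn_of_noBdd (isOpen_Om hδ S)
    (isConnected_Om hδ hp hS).isPreconnected (noBdd_Om hδ hp hS)⟩

end Vale.Agent.P167.H446
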