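import Vale.Agent.P167.H446.PosC

/-!
# P167, block POS: (L6), the positions of the sites of a lattice polygon
-/

set_option autoImplicit false

open Set Topology Metric MeasureTheory Filter Bornology
open scoped ENNReal Real ComplexConjugate

namespace Vale.Agent.P167.H446

open Vale.Agent.P153.R2.R1 Vale.Agent.P167.H756
open Vale.Agent.P153.R2.L1 (HH)
open Vale.Agent.P164 (loewnerDomain Zf)
open Vale.Agent.P167.H947 (flow flow_gf)
open Vale.Agent.P167.E6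

variable {M : ℕ} {q : ZMod M → ℤ × ℤ} {PE : Finset (ℤ × ℤ)} {δ : ℝ}

/-- The open squares of the faces are in the domain. -/
theorem open_face {f : ℤ × ℤ} (hf : f ∈ PE) {z : ℂ} (h1 : δ * f.1 < z.re)
    (h2 : z.re < δ * (f.1 + 1)) (h3 : δ * f.2 < z.im) (h4 : z.im < δ * (f.2 + 1)) :
    z ∈ D6 δ PE := by
  rw [D6, mem_interior]
  refine ⟨{z : ℂ | δ * f.1 < z.re ∧ z.re < δ * (f.1 + 1) ∧ δ * f.2 < z.im ∧
    z.im < δ * (f.2 + 1)}, ?_, ?_, h1, h2, h3, h4⟩
  · rintro w ⟨g1, g2, g3, g4⟩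
    exact ⟨f, hf, g1.le, g2.le, g3.le, g4.le⟩
  · exact (isOpen_lt continuous_const Complex.continuous_re).inter
      ((isOpen_lt Complex.continuous_re continuous_const).inter
        ((isOpen_lt continuous_const Complex.continuous_im).inter
          (isOpen_lt Complex.continuous_im continuous_const)))

/-- The curve of the polygon is straight at the parameter `1 / 2`, with the domain on the left. -/
theorem flat_half (hδ : 0 < δ) (hq : IsPolygon q) (hPE : Encloses q PE) :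
    H327.Flat (PF6 q δ) (D6 δ PE) (1 / 2) := by
  obtain ⟨r, hr⟩ := hq.2.2 0
  have hface : face (q 0) r ∈ PE := ((hPE (q 0) r).1 ⟨0, rfl, hr⟩).1
  set u : ℂ := pt (dir r) with hu
  have hcurve : ∀ s : ℝ, 0 ≤ s → s ≤ 1 → PF6 q δ s = δ * (pt (q 0) + s * u) := by
    intro s hs0 hs1
    have h := pl_eq (PV6 q δ) (0 : ℤ) (x := s) (by push_cast; linarith) (by push_cast; linarith)
    rw [PF6, h]
    have e1 : PV6 q δ 0 = δ * pt (q 0) := by simp [PV6]
    have e2 : PV6 q δ (0 + 1) = δ * (pt (q 0) + u) := by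
      simp only [PV6, zero_add, Int.cast_one]
      rw [zero_add] at hr
      rw [hr, hu]
      congr 1
      apply Complex.ext <;> simp [pt]
    rw [e1, e2]
    simp only [Complex.real_smul]
    push_cast
    ring
  refine ⟨δ / 4, 1 / δ, u, by positivity, by positivity, ?_, ?_⟩
  · intro y hy
    have e1 : 1 / δ * y ≤ 1 / 4 := by
      have := mul_le_mul_of_nonneg_left hy.2 (show 0 ≤ 1 / δ by positivity)
      have e : 1 / δ * (δ / 4) = 1 / 4 := by field_simp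
      linarith
    have e2 : -(1 / 4) ≤ 1 / δ * y := by
      have := mul_le_mul_of_nonneg_left hy.1 (show 0 ≤ 1 / δ by positivity)
      have e : 1 / δ * (-(δ / 4)) = -(1 / 4) := by field_simp
      linarith
    rw [hcurve _ (by linarith) (by linarith), hcurve _ (by norm_num) (by norm_num)]
    have hδ' : (δ : ℂ) ≠ 0 := by exact_mod_cast hδ.ne'
    push_cast
    field_simp
    ring
  · intro x hx y hy
    rw [hcurve _ (by norm_num) (by norm_num)]
    have hδ4 : 0 < δ / 4 := by positivity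
    have hx1 := hx.1
    have hx2 := hx.2
    have hy1 := hy.1
    have hy2 := hy.2
    rcases H192.fin4_cases r with rfl | rfl | rfl | rfl
    all_goals
      refine open_face hface ?_ ?_ ?_ ?_ <;>
        simp [hu, face, dir, pt] <;> nlinarith

section shift

variable {F : ℝ → ℂ} {D : Set ℂ} {L : ℝ}

theorem jcurve_add (hF : JCurve F L) (c : ℂ) : JCurve (fun s => F s + c) L where
  pos := hF.pos
  cont := hF.cont.add continuous_const
  per x := by simp only [hF.per]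
  inj x y h := hF.inj x y (add_right_cancel h)

theorem frontier_add (hfr : frontier D = range F) (c : ℂ) :
    frontier ((fun z => z + c) '' D) = range fun s => F s + c := by
  have h := (Homeomorph.addRight c).image_frontier D
  have e : (fun z : ℂ => z + c) '' D = (Homeomorph.addRight c) '' D := rfl
  rw [e, ← h, hfr, ← range_comp]
  rfl

theorem flat_add {t₀ : ℝ} (h : H327.Flat F D t₀) (c : ℂ) :
    H327.Flat (fun s => F s + c) ((fun z => z + c) '' D) t₀ := by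
  obtain ⟨r, k, u, hr, hk, h1, h2⟩ := h
  refine ⟨r, k, u, hr, hk, fun x hx => ?_, fun x hx y hy => ?_⟩
  · simp only [h1 x hx]
    ring
  · exact ⟨_, h2 x hx y hy, by ring⟩

end shift

/-- **(L6) The positions of the points of a lattice polygon.** `q 0` = target, `q a` = tip, `q l` =
foot, `u` = position of the foot. -/
theorem pos_poly_u {T R Rd cd Y u₀ U κ : ℝ} (hRd : 0 < Rd) (hcd : 0 < cd) (hY0 : 0 < Y)
    (hY : 8 * R ≤ Y) (hY2 : 64 * T ≤ Y ^ 2) (hT : 0 ≤ T) (hR : 0 ≤ R) (hu₀ : 0 < u₀)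
    (hκ : 0 < κ) :
    ∃ h > 0, ∀ ψ : ℂ → ℂ, HConf Rd cd Y ψ → ∀ (W : ℝ → ℝ) (t : ℝ), Drv T R W t →
      ∀ (M : ℕ) (q : ZMod M → ℤ × ℤ) (PE : Finset (ℤ × ℤ)) (δ : ℝ) (c : ℂ) (a l : ℕ), 0 < δ →
      IsPolygon q → Encloses q PE → 0 < a → a < M → 0 < l → l < M →
      PD h ψ W t Y ((fun z => z + c) '' D6 δ PE) (δ * pt (q (a : ZMod M)) + c)
        (δ * pt (q 0) + c) → ∀ u : ℝ, u₀ ≤ u → u ≤ U →
      ∀ zl ∈ loewnerDomain W t, ψ zl = δ * pt (q (l : ZMod M)) + c → Nr h {u} (Zf W zl t) →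
      a < l ∧
      (∀ s ∈ Icc (0 : ℝ) M, ∀ z ∈ loewnerDomain W t, ψ z = PF6 q δ s + c →
        (s ≤ a → Nr κ (Iic 0) (Zf W z t)) ∧
        (a ≤ s → s ≤ l → Nr κ (Icc 0 u) (Zf W z t)) ∧
        (l ≤ s → Nr κ (Ici u) (Zf W z t))) ∧
      ∀ i : ℕ, i ≤ M → ∀ z ∈ loewnerDomain W t, ψ z = δ * pt (q (i : ZMod M)) + c →
        (i ≤ a → Nr κ (Iic 0) (Zf W z t)) ∧
        (a ≤ i → i ≤ l → Nr κ (Icc 0 u) (Zf W z t)) ∧
        (l ≤ i → Nr κ (Ici u) (Zf W z t)) := by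
  obtain ⟨h, hh, hpos⟩ := pos_curve_u (U := U) hRd hcd hY0 hY hY2 hT hR hu₀ hκ
  refine ⟨h, hh, ?_⟩
  intro ψ hψ W t H M q PE δ c a l hδ hq hPE ha haM hl hlM hPD u hu1 hu2 zl hzl hzle hnr
  have hnat : ∀ i : ℕ, PF6 q δ (i : ℝ) = δ * pt (q (i : ZMod M)) := by
    intro i
    have h := pl_int (PV6 q δ) (i : ℤ)
    rw [PV6] at h
    push_cast at h
    exact h
  have h0 : PF6 q δ 0 = δ * pt (q 0) := by simpa using hnat 0
  have hM : (2 : ℝ) < M := by exact_mod_cast hq.1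
  have key := hpos ψ hψ W t H ((fun z => z + c) '' D6 δ PE) (fun s => PF6 q δ s + c) M 0 a l (1 / 2)
    (jcurve_add (jcurve_PF6 hδ hq) c) (frontier_add (frontier_D6 hδ hq hPE) c)
    (flat_add (flat_half hδ hq hPE) c) (by constructor <;> linarith)
    (by
      show PD h ψ W t Y _ (PF6 q δ (a : ℝ) + c) (PF6 q δ 0 + c)
      rw [hnat, h0]; exact hPD)
    (by
      have h1 : (0 : ℝ) < a := by exact_mod_cast ha
      have h2 : (a : ℝ) < M := by exact_mod_cast haM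
      constructor <;> linarith)
    (by
      have h1 : (0 : ℝ) < l := by exact_mod_cast hl
      have h2 : (l : ℝ) < M := by exact_mod_cast hlM
      constructor <;> linarith) u hu1 hu2 zl hzl
    (by
      show ψ zl = PF6 q δ (l : ℝ) + c
      rw [hnat]; exact hzle) hnr
  obtain ⟨k1, k2⟩ := key
  rw [zero_add] at k2
  refine ⟨by exact_mod_cast k1, k2, fun i hi z hz hzi => ?_⟩
  obtain ⟨g1, g2, g3⟩ := k2 i ⟨by positivity, by exact_mod_cast hi⟩ z hz (by
    show ψ z = PF6 q δ (i : ℝ) + c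
    rw [hnat]; exact hzi)
  exact ⟨fun h1 => g1 (by exact_mod_cast h1), fun h1 h2 => g2 (by exact_mod_cast h1)
    (by exact_mod_cast h2), fun h1 => g3 (by exact_mod_cast h1)⟩

/-- **(L6)**, for the observation point `X`. -/
theorem pos_poly {T R Rd cd Y X κ : ℝ} (hRd : 0 < Rd) (hcd : 0 < cd) (hY0 : 0 < Y)
    (hY : 8 * R ≤ Y) (hY2 : 64 * T ≤ Y ^ 2) (hT : 0 ≤ T) (hR : 0 ≤ R) (hX0 : 0 < X)
    (hX : 8 * R ≤ X) (hX2 : 64 * T ≤ X ^ 2) (hκ : 0 < κ) :
    ∃ h > 0, ∀ ψ : ℂ → ℂ, HConf Rd cd Y ψ → ∀ (W : ℝ → ℝ) (t : ℝ), Drv T R W t →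
      ∀ (M : ℕ) (q : ZMod M → ℤ × ℤ) (PE : Finset (ℤ × ℤ)) (δ : ℝ) (c : ℂ) (a l : ℕ), 0 < δ →
      IsPolygon q → Encloses q PE → 0 < a → a < M → 0 < l → l < M →
      PD h ψ W t Y ((fun z => z + c) '' D6 δ PE) (δ * pt (q (a : ZMod M)) + c)
        (δ * pt (q 0) + c) →
      ∀ zl ∈ loewnerDomain W t, ψ zl = δ * pt (q (l : ZMod M)) + c →
      Nr h {uX W t X} (Zf W zl t) →
      a < l ∧
      (∀ s ∈ Icc (0 : ℝ) M, ∀ z ∈ loewnerDomain W t, ψ z = PF6 q δ s + c →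
        (s ≤ a → Nr κ (Iic 0) (Zf W z t)) ∧
        (a ≤ s → s ≤ l → Nr κ (Icc 0 (uX W t X)) (Zf W z t)) ∧
        (l ≤ s → Nr κ (Ici (uX W t X)) (Zf W z t))) ∧
      ∀ i : ℕ, i ≤ M → ∀ z ∈ loewnerDomain W t, ψ z = δ * pt (q (i : ZMod M)) + c →
        (i ≤ a → Nr κ (Iic 0) (Zf W z t)) ∧
        (a ≤ i → i ≤ l → Nr κ (Icc 0 (uX W t X)) (Zf W z t)) ∧
        (l ≤ i → Nr κ (Ici (uX W t X)) (Zf W z t)) := by
  obtain ⟨h, hh, H⟩ := pos_poly_u (T := T) (R := R) (U := 2 * X) hRd hcd hY0 hY hY2 hT hR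
    (half_pos hX0) hκ
  refine ⟨h, hh, fun ψ hψ W t hD M q PE δ c a l hδ hq hPE ha haM hl hlM hPD => ?_⟩
  obtain ⟨-, hu1, hu2⟩ := uX_bd hD hX0 hX hX2
  exact H ψ hψ W t hD M q PE δ c a l hδ hq hPE ha haM hl hlM hPD _ hu1 hu2

end Vale.Agent.P167.H446
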