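import Vale.Agent.P167.H446.PosDefs
import Vale.Agent.P167.CL.Sh2

/-!
# P167, block POS: the boundary values of the uniformizer are positions

`bd_close` : if `P` almost fills `D_t = ψ (loewnerDomain W t)` then the boundary point `φ x` of `P`
(`φ` the uniformizer, `x` real) has the position `x`, up to `ε` in the chart of the disc.
-/

set_option autoImplicit false

open Set Topology Metric MeasureTheory Filter Bornology
open scoped ENNReal Real ComplexConjugate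

namespace Vale.Agent.P167.H446

open Vale.Agent.P153.R2.R1 Vale.Agent.P153.R2.OBSV Vale.Agent.P167.H174 Vale.Agent.P167.H756
open Vale.Agent.P153.R2.L1 (HH)
open Vale.Agent.P164 (loewnerDomain Zf)
open Vale.Agent.P167.H947 (flow flow_gf)

/-! ### The chart on the real line -/

theorem sq_norm_add_I (x : ℝ) : ‖(x : ℂ) + Complex.I‖ ^ 2 = 1 + x ^ 2 := by
  rw [Complex.sq_norm, Complex.normSq_apply]
  simp
  ring

theorem dist_mb_sq (x u : ℝ) : dist (mb 1 Complex.I (x : ℂ)) (mb 1 Complex.I (u : ℂ)) ^ 2 =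
    4 * (x - u) ^ 2 / ((1 + x ^ 2) * (1 + u ^ 2)) := by
  have h0 := add_I_ne (z := (x : ℂ)) (by simp)
  have h0' := add_I_ne (z := (u : ℂ)) (by simp)
  have e : mb 1 Complex.I (x : ℂ) - mb 1 Complex.I (u : ℂ) =
      2 * Complex.I * ((x : ℂ) - u) / (((x : ℂ) + Complex.I) * ((u : ℂ) + Complex.I)) := by
    rw [mb, mb, Complex.conj_I, sub_neg_eq_add, sub_neg_eq_add, one_mul, one_mul]
    field_simp
    ring
  rw [dist_eq_norm, e, norm_div, norm_mul, norm_mul, norm_mul, Complex.norm_I, mul_one, div_pow,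
    mul_pow, mul_pow, sq_norm_add_I, sq_norm_add_I, ← Complex.ofReal_sub, Complex.norm_real,
    Real.norm_eq_abs, sq_abs]
  norm_num

theorem chord_le {u x y : ℝ} (h : (x - u) ^ 2 * (1 + y ^ 2) ≤ (y - u) ^ 2 * (1 + x ^ 2)) :
    dist (mb 1 Complex.I (x : ℂ)) (mb 1 Complex.I (u : ℂ)) ≤
      dist (mb 1 Complex.I (y : ℂ)) (mb 1 Complex.I (u : ℂ)) := by
  rw [← sq_le_sq₀ dist_nonneg dist_nonneg, dist_mb_sq, dist_mb_sq,
    div_le_div_iff₀ (by positivity) (by positivity)]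
  have h1 : 0 < 4 * (1 + u ^ 2) := by positivity
  nlinarith [mul_le_mul_of_nonneg_left h h1.le]

theorem chord_mono {u x y : ℝ} (hu : 0 ≤ u) (h1 : u ≤ x) (h2 : x ≤ y) :
    dist (mb 1 Complex.I (x : ℂ)) (mb 1 Complex.I (u : ℂ)) ≤
      dist (mb 1 Complex.I (y : ℂ)) (mb 1 Complex.I (u : ℂ)) := by
  apply chord_le
  have e : (y - u) ^ 2 * (1 + x ^ 2) - (x - u) ^ 2 * (1 + y ^ 2) =
      (y - x) * ((x - u) + (y - u) + u * (x * (y - u) + y * (x - u))) := by ring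
  have h3 : 0 ≤ (y - x) * ((x - u) + (y - u) + u * (x * (y - u) + y * (x - u))) := by
    have a1 : 0 ≤ y - x := by linarith
    have a2 : 0 ≤ x - u := by linarith
    have a3 : 0 ≤ y - u := by linarith
    have a4 : 0 ≤ x := by linarith
    have a5 : 0 ≤ y := by linarith
    positivity
  linarith

theorem chord_mono' {u x y : ℝ} (hy : 0 ≤ y) (h1 : y ≤ x) (h2 : x ≤ u) :
    dist (mb 1 Complex.I (x : ℂ)) (mb 1 Complex.I (u : ℂ)) ≤
      dist (mb 1 Complex.I (y : ℂ)) (mb 1 Complex.I (u : ℂ)) := by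
  apply chord_le
  have a1 : (x - u) ^ 2 ≤ (y - u) ^ 2 := by nlinarith
  have a2 : 1 + y ^ 2 ≤ 1 + x ^ 2 := by nlinarith
  gcongr

theorem chord_sep {u x : ℝ} (hu : 0 < u) (hx : x ≤ 0) :
    2 * min u 1 / (1 + u) ≤ dist (mb 1 Complex.I (x : ℂ)) (mb 1 Complex.I (u : ℂ)) := by
  have hm : 0 < min u 1 := lt_min hu one_pos
  rw [← sq_le_sq₀ (by positivity) dist_nonneg, dist_mb_sq, div_pow, mul_pow,
    div_le_div_iff₀ (by positivity) (by positivity)]
  have h1 : (min u 1) ^ 2 * (1 + x ^ 2) ≤ (x - u) ^ 2 := by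
    have a1 : min u 1 ≤ u := min_le_left _ _
    have a2 : min u 1 ≤ 1 := min_le_right _ _
    have a3 : (min u 1) ^ 2 ≤ u ^ 2 := by gcongr
    have a4 : (min u 1) ^ 2 ≤ 1 ^ 2 := by gcongr
    nlinarith [mul_nonneg hu.le (neg_nonneg.2 hx), sq_nonneg x]
  have h2 : 1 + u ^ 2 ≤ (1 + u) ^ 2 := by nlinarith
  have h3 : 0 ≤ (min u 1) ^ 2 * (1 + x ^ 2) := by positivity
  calc (2 : ℝ) ^ 2 * (min u 1) ^ 2 * ((1 + x ^ 2) * (1 + u ^ 2))
      = 4 * (((min u 1) ^ 2 * (1 + x ^ 2)) * (1 + u ^ 2)) := by ring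
    _ ≤ 4 * ((x - u) ^ 2 * (1 + u) ^ 2) := by gcongr
    _ = 4 * (x - u) ^ 2 * (1 + u) ^ 2 := by ring

/-! ### The point at infinity -/

theorem tendsto_mb_one : Tendsto (fun z : ℂ => mb 1 Complex.I z) (cobounded ℂ ⊓ 𝓟 {z | 0 ≤ z.im})
    (𝓝 1) := by
  rw [Metric.tendsto_nhds]
  intro ε hε
  have h1 : ∀ᶠ z : ℂ in cobounded ℂ ⊓ 𝓟 {z | 0 ≤ z.im}, 2 / ε < ‖z‖ :=
    Filter.Eventually.filter_mono inf_le_left
      ((tendsto_norm_cobounded_atTop (E := ℂ)).eventually_gt_atTop (2 / ε))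
  have h2 : ∀ᶠ z : ℂ in cobounded ℂ ⊓ 𝓟 {z | 0 ≤ z.im}, 0 ≤ z.im :=
    Filter.Eventually.filter_mono inf_le_right (eventually_mem_set.2 (mem_principal_self _))
  filter_upwards [h1, h2] with z hz hz0
  have hn : 0 < ‖z‖ := lt_trans (by positivity) hz
  have h0 := add_I_ne hz0
  have e : mb 1 Complex.I z - 1 = -(2 * Complex.I) / (z + Complex.I) := by
    rw [mb, Complex.conj_I, sub_neg_eq_add, one_mul]
    field_simp
    ring
  rw [dist_eq_norm, e, norm_div, norm_neg, norm_mul, Complex.norm_I, mul_one]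
  have h3 : ‖(2 : ℂ)‖ = 2 := by norm_num
  rw [h3]
  refine (div_le_div_of_nonneg_left (by norm_num) hn (norm_le_add_I hz0)).trans_lt ?_
  rw [div_lt_iff₀ hn]
  rw [div_lt_iff₀ hε] at hz
  linarith

/-- Far real points are close to the target. -/
theorem exists_far_real {ε : ℝ} (hε : 0 < ε) (M : ℝ) : ∃ x : ℝ, M ≤ x ∧
    dist (mb 1 Complex.I (x : ℂ)) 1 ≤ ε ∧ dist (mb 1 Complex.I ((-x : ℝ) : ℂ)) 1 ≤ ε := by
  set x : ℝ := max M (2 / ε) with hx
  have h0 : 0 < x := lt_of_lt_of_le (by positivity) (le_max_right _ _)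
  have key : ∀ y : ℝ, |y| = x → dist (mb 1 Complex.I (y : ℂ)) 1 ≤ ε := by
    intro y hy
    have h0' := add_I_ne (z := (y : ℂ)) (by simp)
    have e : mb 1 Complex.I (y : ℂ) - 1 = -(2 * Complex.I) / ((y : ℂ) + Complex.I) := by
      rw [mb, Complex.conj_I, sub_neg_eq_add, one_mul]
      field_simp
      ring
    rw [dist_eq_norm, e, norm_div, norm_neg, norm_mul, Complex.norm_I, mul_one]
    have h3 : ‖(2 : ℂ)‖ = 2 := by norm_num
    have hn : ‖(y : ℂ)‖ = x := by rw [Complex.norm_real, Real.norm_eq_abs, hy]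
    have hl := norm_le_add_I (z := (y : ℂ)) (by simp)
    rw [hn] at hl
    rw [h3]
    refine (div_le_div_of_nonneg_left (by norm_num) h0 hl).trans ?_
    rw [div_le_iff₀ h0]
    have h4 : 2 / ε ≤ x := le_max_right _ _
    rw [div_le_iff₀ hε] at h4
    linarith
  exact ⟨x, le_max_left _ _, key x (abs_of_pos h0), key (-x) (by rw [abs_neg, abs_of_pos h0])⟩

/-! ### The boundary values -/

/-- **The boundary values of the uniformizer are positions.** -/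
theorem bd_close {T R Rd cd Y ε : ℝ} (hRd : 0 < Rd) (hcd : 0 < cd) (hY0 : 0 < Y) (hY : 8 * R ≤ Y)
    (hY2 : 64 * T ≤ Y ^ 2) (hT : 0 ≤ T) (hR : 0 ≤ R) (hε : 0 < ε) :
    ∃ h > 0, ∀ ψ : ℂ → ℂ, HConf Rd cd Y ψ → ∀ (W : ℝ → ℝ) (t : ℝ), Drv T R W t →
      ∀ (P : Set ℂ) (a p : ℂ), PD h ψ W t Y P a p →
        ∃ φ : ℂ → ℂ, IsU φ P a p ∧ InjOn φ {z | 0 ≤ z.im} ∧
          (∀ x : ℝ, ∀ z ∈ loewnerDomain W t, ψ z = φ x →
            dist (mb 1 Complex.I (Zf W z t)) (mb 1 Complex.I (x : ℂ)) ≤ ε) ∧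
          ∀ z ∈ loewnerDomain W t, ψ z = p → dist (mb 1 Complex.I (Zf W z t)) 1 ≤ ε := by
  obtain ⟨c, hc, ρ₀, hρ₀, hside⟩ := side_of_PD (T := T) (R := R) hRd hcd hY0 hY hY2 hT hR
  obtain ⟨h₁, hh₁, hhp⟩ := halfplane (R := Rd) (c := c) hRd hc hρ₀ hε
  obtain ⟨h₂, hh₂, hS⟩ := hside h₁ hh₁
  refine ⟨h₂, hh₂, fun ψ hψ W t H P a p hP => ?_⟩
  have S := hS ψ hψ W t H P a p hP
  obtain ⟨φ, hφ, hinj, hcl⟩ := hhp _ S.cls _ S.base P S.good S.sub S.inner S.collar a p S.mem_a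
    S.mem_p S.mark_a S.mark_p
  have hconf := S.cls.conf
  -- the preimage of a point of the domain
  have hpre : ∀ z ∈ loewnerDomain W t, ψ z ∈ FD ψ W t '' ball 0 1 ∧
      dinv (FD ψ W t) (ψ z) = mb 1 Complex.I (Zf W z t) := by
    intro z hz
    have hm : mb 1 Complex.I (Zf W z t) ∈ ball (0 : ℂ) 1 := by
      rw [mem_ball_zero_iff]
      exact norm_mb_lt norm_one (by simp) (Vale.Agent.P164.Zf_im_pos H.nn hz)
    rw [← FD_mb H ψ hz]
    exact ⟨mem_image_of_mem _ hm, hconf.dinv_apply hm⟩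
  refine ⟨φ, hφ, hinj, fun x z hz hzx => ?_, fun z hz hzp => ?_⟩
  · obtain ⟨h1, h2⟩ := hpre z hz
    have hne : (𝓝[{w : ℂ | 0 < w.im}] (x : ℂ)).NeBot := by
      have := neBot_up (x := x) (r := 1) (z := (x : ℂ)) (mem_ball_self one_pos) (by simp)
      exact this.mono (nhdsWithin_mono _ inter_subset_right)
    have h3 : Tendsto φ (𝓝[{w : ℂ | 0 < w.im}] (x : ℂ)) (𝓝 (ψ z)) := by
      rw [hzx]
      exact (hφ.cont (x : ℂ) (by simp)).tendsto.mono_left (nhdsWithin_mono _ fun w hw =>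
        le_of_lt (α := ℝ) hw)
    have h4 : Tendsto (fun w => dinv (FD ψ W t) (φ w)) (𝓝[{w : ℂ | 0 < w.im}] (x : ℂ))
        (𝓝 (mb 1 Complex.I (Zf W z t))) := by
      rw [← h2]
      exact (hconf.dinv_continuousAt h1).tendsto.comp h3
    have h5 : Tendsto (fun w => mb 1 Complex.I w) (𝓝[{w : ℂ | 0 < w.im}] (x : ℂ))
        (𝓝 (mb 1 Complex.I (x : ℂ))) :=
      ((mb_differentiableAt (by simp) (by simp)).continuousAt).tendsto.mono_left
        nhdsWithin_le_nhds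
    rw [dist_eq_norm]
    refine le_of_tendsto (h4.sub h5).norm ?_
    filter_upwards [self_mem_nhdsWithin] with w hw using hcl w hw
  · obtain ⟨h1, h2⟩ := hpre z hz
    have hle : cobounded ℂ ⊓ 𝓟 {w : ℂ | 0 < w.im} ≤ cobounded ℂ ⊓ 𝓟 {z | 0 ≤ z.im} :=
      inf_le_inf_left _ (principal_mono.2 fun w hw => le_of_lt (α := ℝ) hw)
    have hne : (cobounded ℂ ⊓ 𝓟 {w : ℂ | 0 < w.im}).NeBot := by
      rw [inf_principal_neBot_iff]
      intro U hU
      obtain ⟨r, -, hr⟩ := (hasBasis_cobounded_norm (E := ℂ)).mem_iff.1 hU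
      refine ⟨((|r| + 1 : ℝ) : ℂ) * Complex.I, hr ?_, ?_⟩
      · show r ≤ ‖((|r| + 1 : ℝ) : ℂ) * Complex.I‖
        rw [norm_mul, Complex.norm_I, mul_one, Complex.norm_real,
          Real.norm_of_nonneg (by positivity)]
        linarith [le_abs_self r]
      · show 0 < (((|r| + 1 : ℝ) : ℂ) * Complex.I).im
        rw [Complex.im_ofReal_mul, Complex.I_im, mul_one]
        positivity
    have h3 : Tendsto φ (cobounded ℂ ⊓ 𝓟 {w : ℂ | 0 < w.im}) (𝓝 (ψ z)) := by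
      rw [hzp]
      exact hφ.infty.mono_left hle
    have h4 : Tendsto (fun w => dinv (FD ψ W t) (φ w)) (cobounded ℂ ⊓ 𝓟 {w : ℂ | 0 < w.im})
        (𝓝 (mb 1 Complex.I (Zf W z t))) := by
      rw [← h2]
      exact (hconf.dinv_continuousAt h1).tendsto.comp h3
    have h5 : Tendsto (fun w => mb 1 Complex.I w) (cobounded ℂ ⊓ 𝓟 {w : ℂ | 0 < w.im})
        (𝓝 1) := tendsto_mb_one.mono_left hle
    rw [dist_eq_norm]
    refine le_of_tendsto (h4.sub h5).norm ?_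
    have h6 : ∀ᶠ w in cobounded ℂ ⊓ 𝓟 {w : ℂ | 0 < w.im}, 0 < w.im :=
      Filter.Eventually.filter_mono inf_le_right (eventually_mem_set.2 (mem_principal_self _))
    filter_upwards [h6] with w hw using hcl w hw

end Vale.Agent.P167.H446
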