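import Vale.Agent.P167.H446.PosQ2
import Vale.Agent.P167.H446.PosP

/-!
# P167, block POS: the structure `H531.PosP` for the polygon `pE` of a stage

* `pos_stg`: positions of the sites of the polygon;
* `posP_stg`: the structure `PosP`.
-/

set_option autoImplicit false

open Set Topology Metric MeasureTheory Filter Bornology
open scoped ENNReal Real ComplexConjugate

namespace Vale.Agent.P167.H446

open Vale.Agent.P153.R2.R1 Vale.Agent.P167.H756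
open Vale.Agent.P153.R2.L1 (HH)
open Vale.Agent.P164 (loewnerDomain Zf)
open Vale.Agent.P167.H947 (flow flow_gf)
open Vale.Agent.P167.E6 Vale.Agent.P167.E2
open Vale.Agent.P167.H161 (zp)
open Vale.Agent.P167.H450 (sqr reg)
open Vale.Agent.P167.H531 (Pos Dsq PosP)

section

variable {s : CL.Stg} {T R Rd cd δ : ℝ} {N : ℕ} {v₀ u' : ℤ × ℤ} {ψ : ℂ → ℂ}

/-- The two marks are different. -/
theorem vn_ne (H : s.Ok T R Rd cd) (hε : s.ε < 1) : s.vn false ≠ s.vn true := by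
  intro hcon
  have hℓ := CL.Stg.Ok.hℓ H
  have hρ := H.hρm
  have hm := H.mesh
  have h1 := CL.Stg.vn_near H false
  have h2 := CL.Stg.vn_near H true
  have hq1 := (H.sysE.ntc false).q_ge
  have hq2 := (H.sysE.ntc true).q_ge
  have hk : s.k false = s.k true := congrArg Prod.snd hcon
  rw [hcon] at h1
  -- a point above both lines
  set z : ℂ := ⟨s.ℓ * (s.vn true).1, s.ℓ * s.k true + s.ℓ⟩ with hz
  have hz1 : z ∈ Cut.up (s.x false) (s.ℓ * s.k false) (s.q false) := by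
    rw [hk]
    refine ⟨?_, ?_, ?_⟩
    · simp only [hz]; linarith
    · simp only [hz]; linarith
    · simp only [hz]; linarith
  have hz2 : z ∈ Cut.up (s.x true) (s.ℓ * s.k true) (s.q true) := by
    refine ⟨?_, ?_, ?_⟩
    · simp only [hz]; linarith
    · simp only [hz]; linarith
    · simp only [hz]; linarith
  obtain ⟨v, hv, hvz⟩ := (H.sysE.ntc false).upp hz1
  have h3 := (H.sysE.ntc false).preU v hv (by rw [hvz]; exact hz1)
  have h4 := (H.sysE.ntc true).preU v hv (by rw [hvz]; exact hz2)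
  have h5 := dist_triangle_left (xi false) (xi true) v
  have h6 : dist (xi false) (xi true) = 2 := by
    simp only [xi, dist_eq_norm]
    norm_num
  linarith

/-- Joining a site and the same site of the translated polygon. -/
theorem seg_site (H : s.Ok T R Rd cd) (hN : 0 < N) (hm : 13 * s.ℓ ≤ N * s.ρm) (hu1 : |u'.1| ≤ 1)
    (hu2 : |u'.2| ≤ 1) {y : ℂ} (hy : y ∈ frontier (D6 s.ℓ s.SE)) :
    segment ℝ y (y + ((s.ℓ / N : ℝ) : ℂ) * pt u') ⊆ s.ψ '' loewnerDomain s.W s.t ∧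
      ∀ x ∈ segment ℝ y (y + ((s.ℓ / N : ℝ) : ℂ) * pt u'),
        ∀ x' ∈ segment ℝ y (y + ((s.ℓ / N : ℝ) : ℂ) * pt u'), dist x x' ≤ 17 / 12 * (s.ℓ / N) := by
  have hℓ := CL.Stg.Ok.hℓ H
  have hτn := norm_shift (u := u') hℓ hN hu1 hu2
  have key : ∀ x ∈ segment ℝ y (y + ((s.ℓ / N : ℝ) : ℂ) * pt u'), ∃ b ∈ Icc (0 : ℝ) 1,
      x = y + (b : ℂ) * (((s.ℓ / N : ℝ) : ℂ) * pt u') := by
    rintro x ⟨a, b, ha, hb, hab, rfl⟩
    refine ⟨b, ⟨hb, by linarith⟩, ?_⟩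
    simp only [Complex.real_smul]
    have : (a : ℂ) = 1 - b := by
      have h : a = 1 - b := by linarith
      rw [h]; push_cast; ring
    rw [this]; ring
  constructor
  · intro x hx
    obtain ⟨b, hb, rfl⟩ := key x hx
    rw [← SG.D_eq H]
    refine near_site H hN hm hy ?_
    rw [dist_eq_norm, add_sub_cancel_left, norm_mul, Complex.norm_real, Real.norm_of_nonneg hb.1]
    exact (mul_le_of_le_one_left (norm_nonneg _) hb.2).trans hτn
  · intro x hx x' hx'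
    obtain ⟨b, hb, rfl⟩ := key x hx
    obtain ⟨b', hb', rfl⟩ := key x' hx'
    have e : y + (b : ℂ) * (((s.ℓ / N : ℝ) : ℂ) * pt u') -
        (y + (b' : ℂ) * (((s.ℓ / N : ℝ) : ℂ) * pt u')) =
        ((b - b' : ℝ) : ℂ) * (((s.ℓ / N : ℝ) : ℂ) * pt u') := by
      push_cast; ring
    rw [dist_eq_norm, e, norm_mul, Complex.norm_real]
    have h1 : ‖b - b'‖ ≤ 1 := by
      rw [Real.norm_eq_abs, abs_le]
      constructor <;> linarith [hb.1, hb.2, hb'.1, hb'.2]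
    exact (mul_le_of_le_one_left (norm_nonneg _) h1).trans hτn

end

/-- **Positions of the sites of the polygon `pE`.** `q 0` = target, `q a` = tip, `q l` = foot. -/
theorem pos_stg {T R Rd cd Y u₀ U ε : ℝ} (hRd : 0 < Rd) (hcd : 0 < cd) (hY0 : 0 < Y)
    (hY : 8 * R ≤ Y) (hY2 : 64 * T ≤ Y ^ 2) (hT : 0 ≤ T) (hR : 0 ≤ R) (hu₀ : 0 < u₀)
    (hε : 0 < ε) :
    ∃ h₀ > 0, ∀ s : CL.Stg, s.Ok T R Rd cd → s.Y = Y → 0 < s.ε → s.ε ≤ h₀ →
      s.ρm + 3 * s.ℓ ≤ h₀ → IsPathConnected s.g → (∃ w ∈ s.g, w ∉ s.D) →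
      (∀ u ∈ s.g, ∀ z ∈ s.g, dist u z ≤ h₀) →
      ∀ (N : ℕ) (v₀ u' : ℤ × ℤ) (δ : ℝ) (ψ : ℂ → ℂ), 0 < δ → s.ψ = CL.Psi δ s.ℓ N v₀ ψ →
      0 < N → 2 ∣ N → 13 * s.ℓ ≤ N * s.ρm → |u'.1| ≤ 1 → |u'.2| ≤ 1 →
      ∀ ip ia : ZMod s.mE, s.pE ip = s.vn true → s.pE (ip + 1) = s.vn true + (1, 0) →
      s.pE ia = s.vn false → ∀ (l : ℕ) (u : ℝ), 0 < l → l < N * s.mE → u₀ ≤ u → u ≤ U →
      Pos ψ s.W s.t h₀ {u} (zp δ (CL.qE s.pE ip N (v₀ + u') l)) →
      0 < N * (ia - ip).val - N / 2 ∧ N * (ia - ip).val - N / 2 < l ∧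
      ∀ i : ℕ, i ≤ N * s.mE →
        (i ≤ N * (ia - ip).val - N / 2 →
          Pos ψ s.W s.t ε (Iic 0) (zp δ (CL.qE s.pE ip N (v₀ + u') i))) ∧
        (N * (ia - ip).val - N / 2 ≤ i → i ≤ l →
          Pos ψ s.W s.t ε (Icc 0 u) (zp δ (CL.qE s.pE ip N (v₀ + u') i))) ∧
        (l ≤ i → Pos ψ s.W s.t ε (Ici u) (zp δ (CL.qE s.pE ip N (v₀ + u') i))) := by
  obtain ⟨h₁, hh₁, H1⟩ := pos_poly_u (T := T) (R := R) (U := U) (κ := ε / 2) hRd hcd hY0 hY hY2 hT hR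
    hu₀ (half_pos hε)
  obtain ⟨ε₂, hε₂, H2⟩ := SG.pdE (T := T) (R := R) (Y := Y) hT hR hY0 hY hY2 hh₁
  obtain ⟨η₃, hη₃, H3⟩ := pos_small (T := T) (R := R) hRd hcd hY0 hY hY2
    (show 0 < min (ε / 2) (h₁ / 2) by positivity)
  refine ⟨min (min ε₂ (h₁ / 2)) (min (η₃ / 2) (1 / 2)), by positivity, ?_⟩
  intro s H sY hε0 hεs hρs hgp hgw hgd N v₀ u' δ ψ hδ hψ hN hN2 hm hu1 hu2 ip ia hip hip1 hia l u
    hl0 hlM hu₀u huU hpl
  have hℓ := CL.Stg.Ok.hℓ H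
  have hρ := H.hρm
  have hNr : (0 : ℝ) < N := by exact_mod_cast hN
  set m₀ := min (min ε₂ (h₁ / 2)) (min (η₃ / 2) (1 / 2)) with hm₀
  have b1 : m₀ ≤ ε₂ := (min_le_left _ _).trans (min_le_left _ _)
  have b2 : m₀ ≤ h₁ / 2 := (min_le_left _ _).trans (min_le_right _ _)
  have b3 : m₀ ≤ η₃ / 2 := (min_le_right _ _).trans (min_le_left _ _)
  have b4 : m₀ ≤ 1 / 2 := (min_le_right _ _).trans (min_le_right _ _)
  subst sY
  have hPD := H2 s Rd cd H rfl hε0 (hεs.trans b1) (hρs.trans b2) hgp hgw fun u hu z hz =>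
    (hgd u hu z hz).trans b2
  -- the indices
  have hmE : 0 < s.mE := by have := H.polyE.1; omega
  have : NeZero s.mE := ⟨hmE.ne'⟩
  obtain ⟨N', rfl⟩ := hN2
  have hdiv : 2 * N' / 2 = N' := by omega
  have hval : 0 < (ia - ip).val := by
    rw [Nat.pos_iff_ne_zero]
    intro h0
    rw [ZMod.val_eq_zero, sub_eq_zero] at h0
    rw [h0, hip] at hia
    exact vn_ne H (by linarith) hia.symm
  have hvlt : (ia - ip).val < s.mE := ZMod.val_lt _
  rw [hdiv]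
  have ha0 : 0 < 2 * N' * (ia - ip).val - N' := by
    have h1 : 2 * N' ≤ 2 * N' * (ia - ip).val := Nat.le_mul_of_pos_right _ hval
    omega
  have haM : 2 * N' * (ia - ip).val - N' < 2 * N' * s.mE := by
    have h1 : 2 * N' * (ia - ip).val < 2 * N' * s.mE := Nat.mul_lt_mul_of_pos_left hvlt hN
    omega
  set N := 2 * N' with hNdef
  set q' : ZMod (N * s.mE) → ℤ × ℤ := CL.qE s.pE ip N 0 with hq'
  set δ' : ℝ := s.ℓ / N with hδ'
  have hδ'0 : 0 < δ' := by positivity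
  have hδ'N : δ' * N = s.ℓ := by rw [hδ']; field_simp
  have hq0 : q' 0 = (N : ℤ) • s.vn true + (N' : ℤ) • (1, 0) := by
    have h1 := CL.qE_nat (p := s.pE) (ip := ip) (v₀ := 0) hN 0
    rw [hdiv, zero_add, add_zero] at h1
    have h2 : CL.pe (fun i => s.pE (i + ip)) N N' = (N : ℤ) • s.vn true + (N' : ℤ) • (1, 0) := by
      have h3 := CL.pe_mul_add (q := fun i => s.pE (i + ip)) hN 0 (j := N') (by omega)
      rw [mul_zero, zero_add] at h3
      rw [h3]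
      simp only [Nat.cast_zero, zero_add]
      rw [add_comm 1 ip, hip, hip1]
      simp
    rw [h2, Nat.cast_zero] at h1
    exact h1
  have hqa : q' ((N * (ia - ip).val - N' : ℕ) : ZMod (N * s.mE)) = (N : ℤ) • s.vn false := by
    have h1 := CL.qE_nat (p := s.pE) (ip := ip) (v₀ := 0) hN (N * (ia - ip).val - N')
    have h2 : N * (ia - ip).val - N' + N / 2 = N * (ia - ip).val := by
      have h1 : N ≤ N * (ia - ip).val := Nat.le_mul_of_pos_right _ hval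
      omega
    rw [h2, add_zero, CL.pe_mul hN, ZMod.natCast_zmod_val, sub_add_cancel, hia] at h1
    exact h1
  have hdom : D6 δ' (CL.sE s.SE N 0) = D6 s.ℓ s.SE := by
    have e : pt (0 : ℤ × ℤ) = 0 := by apply Complex.ext <;> simp [pt]
    rw [hδ', D6_enl hℓ hN, e, mul_zero]
    simp
  have hPD' : PD h₁ s.ψ s.W s.t s.Y ((fun z => z + 0) '' D6 δ' (CL.sE s.SE N 0))
      (δ' * pt (q' ((N * (ia - ip).val - N' : ℕ) : ZMod (N * s.mE))) + 0)
      (δ' * pt (q' 0) + 0) := by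
    have e1 : (fun z : ℂ => z + 0) '' D6 δ' (CL.sE s.SE N 0) = D6 s.ℓ s.SE := by
      rw [hdom]; simp
    have hc : (δ' : ℂ) * (N : ℂ) = s.ℓ := by exact_mod_cast hδ'N
    have hsm : ∀ v : ℤ × ℤ, pt ((N : ℤ) • v) = (N : ℂ) * pt v := by
      intro v
      apply Complex.ext <;> simp [pt]
    have e2 : (δ' : ℂ) * pt (q' ((N * (ia - ip).val - N' : ℕ) : ZMod (N * s.mE))) + 0 =
        s.ℓ * pt (s.vn false) := by
      rw [hqa, hsm, ← mul_assoc, hc, add_zero]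
    have e3 : (δ' : ℂ) * pt (q' 0) + 0 = s.ℓ * (pt (s.vn true) + 1 / 2) := by
      have h1 : pt (q' 0) = (N : ℂ) * (pt (s.vn true) + 1 / 2) := by
        have h2 : pt ((N : ℤ) • s.vn true + (N' : ℤ) • (1, 0)) =
            pt ((N : ℤ) • s.vn true) + (N' : ℂ) := by
          apply Complex.ext <;> simp [pt]
        rw [hq0, h2, hsm, hNdef]
        push_cast
        ring
      rw [h1, ← mul_assoc, hc, add_zero]
    rw [e1, e2, e3]
    exact hPD
  -- the segment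
  have hsmall : 17 / 12 * δ' ≤ η₃ := by
    have h1 : δ' ≤ s.ℓ := by
      rw [hδ']
      exact div_le_self hℓ.le (by exact_mod_cast hN)
    linarith
  have hsite : ∀ i : ZMod (N * s.mE), (δ' : ℂ) * pt (q' i) ∈ frontier (D6 s.ℓ s.SE) :=
    fun i => site_frontier H hN i
  have hTm : ∀ i : ZMod (N * s.mE), Tm δ s.ℓ N v₀ (zp δ (CL.qE s.pE ip N (v₀ + u') i)) =
      (δ' : ℂ) * pt (q' i) + (δ' : ℂ) * pt u' := fun i => Tm_site hδ hN ip i
  have hto : ∀ (i : ZMod (N * s.mE)) (κ : ℝ) (I : Set ℝ), Pos s.ψ s.W s.t κ I (δ' * pt (q' i)) →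
      Pos ψ s.W s.t (min (ε / 2) (h₁ / 2) + κ) I (zp δ (CL.qE s.pE ip N (v₀ + u') i)) := by
    intro i κ I hp
    obtain ⟨g1, g2⟩ := seg_site H hN hm hu1 hu2 (hsite i)
    rw [← pos_Tm H hδ hN hψ, hTm]
    exact H3 s.ψ H.conf s.W s.t H.drv _ g1 (convex_segment _ _).isPreconnected
      (fun x hx y hy => (g2 x hx y hy).trans hsmall) _ (left_mem_segment ℝ _ _) _
      (right_mem_segment ℝ _ _) κ I hp
  have hfrom : Pos s.ψ s.W s.t h₁ {u} (δ' * pt (q' (l : ZMod (N * s.mE)))) := by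
    obtain ⟨g1, g2⟩ := seg_site H hN hm hu1 hu2 (hsite (l : ZMod (N * s.mE)))
    have h1 := hpl
    rw [← pos_Tm H hδ hN hψ, hTm] at h1
    have h2 := H3 s.ψ H.conf s.W s.t H.drv _ g1 (convex_segment _ _).isPreconnected
      (fun x hx y hy => (g2 x hx y hy).trans hsmall) _ (right_mem_segment ℝ _ _) _
      (left_mem_segment ℝ _ _) _ _ h1
    refine pos_mono h2 ?_ Subset.rfl
    have := min_le_right (ε / 2) (h₁ / 2)
    linarith
  obtain ⟨zl, hzl, hzle, hnl⟩ := pos_iff.1 hfrom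
  obtain ⟨k1, -, k3⟩ := H1 s.ψ H.conf s.W s.t H.drv (N * s.mE) q' (CL.sE s.SE N 0) δ' 0
    (N * (ia - ip).val - N') l hδ'0 (CL.qE_poly H.polyE hN) (CL.qE_encl H.polyE H.enclE hN) ha0 haM
    hl0 hlM hPD' u hu₀u huU zl hzl (by rw [hzle, add_zero]) hnl
  refine ⟨ha0, k1, fun i hi => ?_⟩
  -- the untranslated site
  obtain ⟨z, hz, hze⟩ : (δ' : ℂ) * pt (q' (i : ZMod (N * s.mE))) ∈ s.ψ '' loewnerDomain s.W s.t := by
    rw [← SG.D_eq H]
    exact near_site H hN hm (hsite _) (by rw [dist_self]; positivity)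
  obtain ⟨g1, g2, g3⟩ := k3 i hi z hz (by rw [hze, add_zero])
  have hfin : ∀ I : Set ℝ, Nr (ε / 2) I (Zf s.W z s.t) →
      Pos ψ s.W s.t ε I (zp δ (CL.qE s.pE ip N (v₀ + u') (i : ZMod (N * s.mE)))) := by
    intro I hn
    refine pos_mono (hto i (ε / 2) I (pos_iff.2 ⟨z, hz, hze, hn⟩)) ?_ Subset.rfl
    have := min_le_left (ε / 2) (h₁ / 2)
    linarith
  exact ⟨fun h => hfin _ (g1 h), fun h h' => hfin _ (g2 h h'), fun h => hfin _ (g3 h)⟩

/-- A point of the closure of the remaining domain, outside of the remaining domain. -/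
theorem near_of_closure {n : ℕ} {p : ZMod n → ℤ × ℤ} {k : ℕ} {S : Finset (ℤ × ℤ)}
    {A : Finset (Sym2 (ℤ × ℤ))} {j : ℕ} {X C : Set ℂ} {δ : ℝ} (hδ : 0 < δ)
    (hX : X = Om δ S \ pl p k δ A '' Icc 0 j) (hC : C ⊆ X) {e : ℂ} (he : e ∈ closure C)
    (heX : e ∉ X) : ∃ z ∈ C, H634.Near p k S A δ (j - 1) z := by
  have hmem : e ∈ pl p k δ A '' Icc 0 (((j - 1 : ℕ) : ℝ) + 1) ∪ frontier (Om δ S) := by
    by_cases h : e ∈ Om δ S
    · left
      rw [hX] at heX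
      have h1 : e ∈ pl p k δ A '' Icc 0 (j : ℝ) := by
        by_contra hcon
        exact heX ⟨h, hcon⟩
      obtain ⟨x, hx, rfl⟩ := h1
      refine ⟨x, ⟨hx.1, hx.2.trans ?_⟩, rfl⟩
      have : j ≤ j - 1 + 1 := by omega
      exact_mod_cast this
    · right
      have h1 : e ∈ closure (Om δ S) := closure_mono (hC.trans (by rw [hX]; exact sdiff_subset)) he
      exact ⟨h1, fun h2 => h (interior_subset h2)⟩
  obtain ⟨z, hz, hd⟩ := Metric.mem_closure_iff.1 he (δ / 16) (by positivity)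
  rw [dist_comm, dist_eq_norm] at hd
  refine ⟨z, hz, e, hmem, ?_, ?_⟩
  · exact lt_of_le_of_lt (by simpa using Complex.abs_re_le_norm (z - e)) hd
  · exact lt_of_le_of_lt (by simpa using Complex.abs_im_le_norm (z - e)) hd

/-- **The structure `PosP`.** -/
theorem posP_stg {T R Rd cd Y u₀ U ε h : ℝ} (hRd : 0 < Rd) (hcd : 0 < cd) (hY0 : 0 < Y)
    (hY : 8 * R ≤ Y) (hY2 : 64 * T ≤ Y ^ 2) (hT : 0 ≤ T) (hR : 0 ≤ R) (hu₀ : 0 < u₀)
    (hε : 0 < ε) (hh : 0 < h) :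
    ∃ h₀ > 0, ∀ s : CL.Stg, s.Ok T R Rd cd → s.Y = Y → 0 < s.ε → s.ε ≤ h₀ →
      s.ρm + 3 * s.ℓ ≤ h₀ → IsPathConnected s.g → (∃ w ∈ s.g, w ∉ s.D) →
      (∀ u ∈ s.g, ∀ z ∈ s.g, dist u z ≤ h₀) →
      ∀ (N : ℕ) (v₀ u' : ℤ × ℤ) (δ : ℝ) (ψ : ℂ → ℂ), 0 < δ → s.ψ = CL.Psi δ s.ℓ N v₀ ψ →
      ∀ (n : ℕ) (p : ZMod n → ℤ × ℤ) (k : ℕ) (S : Finset (ℤ × ℤ)) (A : Finset (Sym2 (ℤ × ℤ)))
        (j : ℕ), ψ '' loewnerDomain s.W s.t = Om δ S \ pl p k δ A '' Icc 0 j →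
      0 < N → 2 ∣ N → 13 * s.ℓ ≤ N * s.ρm → N * δ ≤ 2 * s.ℓ → |u'.1| ≤ 1 → |u'.2| ≤ 1 →
      ∀ ip ia : ZMod s.mE, s.pE ip = s.vn true → s.pE (ip + 1) = s.vn true + (1, 0) →
      s.pE ia = s.vn false → ∀ (l : ℕ) (u : ℝ), 0 < l → l < N * s.mE →
      ((CL.qE s.pE ip N (v₀ + u') l).1 + (CL.qE s.pE ip N (v₀ + u') l).2) % 2 = 0 →
      u₀ ≤ u → u ≤ U → Pos ψ s.W s.t h₀ {u} (zp δ (CL.qE s.pE ip N (v₀ + u') l)) →
      PosP δ p k S A j ψ s.W s.t (CL.qE s.pE ip N (v₀ + u')) (CL.sE s.SE N (v₀ + u'))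
        (N * (ia - ip).val - N / 2) l ε h u := by
  obtain ⟨h₁, hh₁, H1⟩ := pos_stg (T := T) (R := R) (U := U) hRd hcd hY0 hY hY2 hT hR hu₀ hε
  refine ⟨min h₁ (min ε (h / 32)), by positivity, ?_⟩
  intro s H sY hε0 hεs hρs hgp hgw hgd N v₀ u' δ ψ hδ hψ n p k S A j hdom hN hN2 hm hNδ hu1 hu2 ip ia
    hip hip1 hia l u hl0 hlM hpar hu₀u huU hpl
  have b1 : min h₁ (min ε (h / 32)) ≤ h₁ := min_le_left _ _
  have b2 : min h₁ (min ε (h / 32)) ≤ ε := (min_le_right _ _).trans (min_le_left _ _)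
  have b3 : min h₁ (min ε (h / 32)) ≤ h / 32 := (min_le_right _ _).trans (min_le_right _ _)
  obtain ⟨-, k1, k2⟩ := H1 s H sY hε0 (hεs.trans b1) (hρs.trans b1) hgp hgw
    (fun u hu z hz => (hgd u hu z hz).trans b1) N v₀ u' δ ψ hδ hψ hN hN2 hm hu1 hu2 ip ia hip hip1 hia
    l u hl0 hlM hu₀u huU (pos_mono hpl b1 Subset.rfl)
  exact
    { hq := CL.qE_poly H.polyE hN
      hPE := CL.qE_encl H.polyE H.enclE hN
      hal := k1.le
      hlm := hlM.le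
      hy := hpar
      mar := fun v hv z hz => mar_stg H hδ hN hψ hm hu1 hu2 hv hz
      col := by
        intro i
        obtain ⟨C, c1, c2, c3, c4, c5, e, he, heD⟩ := col_stg (u' := u') (h' := h / 32) H hδ hN hψ hm
          hu1 hu2 hNδ hε0.le (hεs.trans b3) (fun z hz => by
            obtain ⟨w, hw, hwD⟩ := hgw
            exact ⟨w, hw, hwD, hgp.joinedIn z hz w hw, fun u hu => (hgd u hu z hz).trans b3⟩) ip i
        refine ⟨C, c1, c2, c3, fun z hz z' hz' => (c4 z hz z' hz').trans ?_, c5,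
          near_of_closure hδ hdom c1 he heD⟩
        have := hρs.trans b3
        linarith
      pos1 := fun i hi => (k2 i (hi.trans (k1.le.trans hlM.le))).1 hi
      pos2 := fun i hi hil => (k2 i (hil.trans hlM.le)).2.1 hi hil
      pos4 := fun i hi him => (k2 i him).2.2 hi
      posl := pos_mono hpl b2 Subset.rfl }

end Vale.Agent.P167.H446
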