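import Vale.Agent.P153.R2.EXAP.Main
import Vale.Agent.P167.E6.Defs

/-!
# P167: there is a marked Jordan domain with an approximation on the square lattice

The square `(-1,1)²`, marked at `(1,0)` and `(-1,0)`, is approximated by the lattice squares
`[-m,m]²` of mesh `1/m`.
-/

namespace Vale.Agent.P167.H446.Exap

open Set Filter Topology
open Vale.Agent.P153.R2.Final (dom circ toC)
open Vale.Agent.P153.R2.EXAP (q q_step q_inj q_zero q_last q_half q_add p p_cast val_succ p_succ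
  val_bd sE sE_apply sE_sq disc_eq sE_continuous isOpen_disc bdd_disc sE_circ cr arg_lt polar
  circ_comb circ_add_pi circ_ne_zero q_snd_nonneg q_max)

/-! ### The polygon -/

theorem isPolygon {m : ℕ} (hm : 0 < m) : E6.IsPolygon (p m) := by
  refine ⟨by omega, ?_, ?_⟩
  · have : NeZero (8 * m) := ⟨by omega⟩
    intro i j hij
    have h := q_inj (m := m) (Int.natCast_nonneg _) (val_bd hm i) (Int.natCast_nonneg _)
      (val_bd hm j) hij
    exact ZMod.val_injective _ (by exact_mod_cast h)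
  · intro i
    rw [p_succ hm, p]
    rcases q_step (m := m) (by exact_mod_cast hm) (Int.natCast_nonneg i.val) (val_bd hm i) with
      ⟨h, -⟩ | ⟨h, -⟩ | ⟨h, -⟩ | ⟨h, -⟩ <;> rw [h]
    · exact ⟨1, by simp [E6.dir]⟩
    · exact ⟨2, by simp [E6.dir, sub_eq_add_neg]⟩
    · exact ⟨3, by simp [E6.dir, sub_eq_add_neg]⟩
    · exact ⟨0, by simp [E6.dir]⟩

/-- The faces of the square. -/
noncomputable def sq (m : ℕ) : Finset (ℤ × ℤ) :=
  Finset.Ico (-(m : ℤ)) m ×ˢ Finset.Ico (-(m : ℤ)) m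

lemma mem_sq {m : ℕ} {x y : ℤ} :
    (x, y) ∈ sq m ↔ (-(m : ℤ) ≤ x ∧ x < m) ∧ (-(m : ℤ) ≤ y ∧ y < m) := by
  simp [sq]

lemma edge_iff {m : ℕ} (hm : 0 < m) (v w : ℤ × ℤ) :
    (∃ i, p m i = v ∧ p m (i + 1) = w) ↔
      ∃ a : ℤ, 0 ≤ a ∧ a < 8 * m ∧ q m a = v ∧ q m (a + 1) = w := by
  constructor
  · rintro ⟨i, h1, h2⟩
    rw [p_succ hm] at h2
    exact ⟨i.val, Int.natCast_nonneg _, val_bd hm i, h1, h2⟩
  · rintro ⟨a, h0, h1, h2, h3⟩
    obtain ⟨b, rfl⟩ := Int.eq_ofNat_of_zero_le h0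
    have hv : (((b : ℕ) : ZMod (8 * m)).val : ℤ) = b := by
      rw [ZMod.val_cast_of_lt (by omega)]
    refine ⟨(b : ZMod (8 * m)), ?_, ?_⟩
    · rw [p, hv]
      exact h2
    · rw [p_succ hm, hv]
      exact h3

theorem encloses {m : ℕ} (hm : 0 < m) : E6.Encloses (p m) (sq m) := by
  have hm' : (0 : ℤ) < m := by exact_mod_cast hm
  rintro ⟨x, y⟩ r
  rw [edge_iff hm]
  constructor
  · rintro ⟨a, h0, h1, h2, h3⟩
    have hst := q_step hm' h0 h1
    rw [h3, h2] at hst
    unfold q at h2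
    fin_cases r <;>
    · simp only [E6.dir, E6.face, Fin.mk_zero, Fin.mk_one, Fin.reduceFinMk, Fin.isValue,
        Matrix.cons_val_zero, Matrix.cons_val_one, Matrix.cons_val, Prod.mk_add_mk,
        Prod.ext_iff, Prod.fst_sub, Prod.snd_sub, mem_sq,
        Fin.reduceSub, sub_self] at hst ⊢
      split_ifs at h2 <;> simp only [Prod.mk.injEq] at h2 <;> omega
  · intro h
    fin_cases r <;>
    simp only [E6.dir, E6.face, Fin.mk_zero, Fin.mk_one, Fin.reduceFinMk, Fin.isValue,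
        Matrix.cons_val_zero, Matrix.cons_val_one, Matrix.cons_val, Prod.mk_add_mk,
        mem_sq, Fin.reduceSub, sub_self] at h ⊢
    · refine ⟨x + 6 * m, by omega, by omega, ?_, ?_⟩ <;> unfold q <;> split_ifs <;>
        simp only [Prod.mk.injEq] <;> omega
    · rcases le_or_gt 0 y with hy | hy
      · refine ⟨y, by omega, by omega, ?_, ?_⟩ <;> unfold q <;> split_ifs <;>
          simp only [Prod.mk.injEq, and_true] <;> omega
      · refine ⟨y + 8 * m, by omega, by omega, ?_, ?_⟩ <;> unfold q <;> split_ifs <;>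
          simp only [Prod.mk.injEq] <;> omega
    · refine ⟨2 * m - x, by omega, by omega, ?_, ?_⟩ <;> unfold q <;> split_ifs <;>
        simp only [Prod.mk.injEq] <;> omega
    · refine ⟨4 * m - y, by omega, by omega, ?_, ?_⟩ <;> unfold q <;> split_ifs <;>
        simp only [Prod.mk.injEq] <;> omega

/-! ### The homeomorphism -/

lemma bdd_sq : Bornology.IsVonNBounded ℝ (Metric.ball (0 : ℝ × ℝ) 1) :=
  NormedSpace.isVonNBounded_ball ℝ (ℝ × ℝ) 1

/-- The homeomorphism of the plane which maps the disc onto the square. -/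
noncomputable def Phi : (ℝ × ℝ) ≃ₜ (ℝ × ℝ) :=
  gaugeRescaleHomeomorph (sE.ball 0 1) (Metric.ball 0 1) (sE.convex_ball 0 1)
    (isOpen_disc.mem_nhds (by simp)) bdd_disc (convex_ball 0 1)
    (Metric.ball_mem_nhds 0 zero_lt_one) bdd_sq

lemma Phi_apply (w : ℝ × ℝ) : Phi w = (sE w / ‖w‖) • w := by
  change gaugeRescale _ _ w = _
  rw [gaugeRescale, Seminorm.gauge_ball, gauge_ball zero_le_one, div_one]

lemma Phi_circ (t : ℝ) : Phi (circ t) = (1 / ‖circ t‖) • circ t := by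
  rw [Phi_apply, sE_circ]

lemma Phi_neg (w : ℝ × ℝ) : Phi (-w) = -Phi w := by
  rw [Phi_apply, Phi_apply, map_neg_eq_map, norm_neg, smul_neg]

/-! ### Angles -/

/-- The lattice point as a pair. -/
def pr (v : ℤ × ℤ) : ℝ × ℝ := (v.1, v.2)

/-- The image of an arc between the directions of `u` and `v`, which lie on the same side of the
square of size `m`, is the segment from `u / m` to `v / m`. -/
lemma dist_seg {m : ℝ} (hm : 0 < m) {u v : ℝ × ℝ} (hu : 0 ≤ u.2) (hv : 0 ≤ v.2) (h : 0 < cr u v)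
    (hface : ∀ α β : ℝ, 0 ≤ α → 0 ≤ β → ‖α • u + β • v‖ = (α + β) * m)
    (huv : ‖u - v‖ ≤ 1) {t : ℝ}
    (ht : t ∈ Icc (Complex.arg (toC u)) (Complex.arg (toC v))) :
    dist ((1 / m) • u) (Phi (circ t)) ≤ 1 / m := by
  have hu0 : u ≠ 0 := by
    rintro rfl
    simp [cr] at h
  have hv0 : v ≠ 0 := by
    rintro rfl
    simp [cr] at h
  have pu := polar hu0
  have pv := polar hv0
  have nu : 0 < ‖toC u‖ := norm_pos_iff.2 (Vale.Agent.P153.R2.EXAP.toC_ne hu0)
  have nv : 0 < ‖toC v‖ := norm_pos_iff.2 (Vale.Agent.P153.R2.EXAP.toC_ne hv0)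
  obtain ⟨h1, h2⟩ := arg_lt hu hv h
  set a := Complex.arg (toC u) with ha
  set b := Complex.arg (toC v) with hb
  have hs : 0 < Real.sin (b - a) := Real.sin_pos_of_pos_of_lt_pi h1 h2
  have hs1 : 0 ≤ Real.sin (b - t) :=
    Real.sin_nonneg_of_nonneg_of_le_pi (by linarith [ht.2]) (by linarith [ht.1])
  have hs2 : 0 ≤ Real.sin (t - a) :=
    Real.sin_nonneg_of_nonneg_of_le_pi (by linarith [ht.1]) (by linarith [ht.2])
  set α : ℝ := Real.sin (b - t) / Real.sin (b - a) / ‖toC u‖ with hα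
  set β : ℝ := Real.sin (t - a) / Real.sin (b - a) / ‖toC v‖ with hβ
  have hα0 : 0 ≤ α := by positivity
  have hβ0 : 0 ≤ β := by positivity
  have hc : circ t = α • u + β • v := by
    rw [circ_comb (a := a) (b := b) hs.ne']
    conv_rhs => rw [pu, pv]
    rw [smul_smul, smul_smul, hα, hβ, div_mul_cancel₀ _ nu.ne', div_mul_cancel₀ _ nv.ne']
  have hαβ : 0 < α + β := by
    rcases (add_nonneg hα0 hβ0).eq_or_lt with h3 | h3
    · exfalso
      have e1 : α = 0 := by linarith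
      have e2 : β = 0 := by linarith
      apply circ_ne_zero t
      rw [hc, e1, e2]
      simp
    · exact h3
  have hR : ‖circ t‖ = (α + β) * m := by
    rw [hc]
    exact hface α β hα0 hβ0
  have hP : (1 / m) • u - Phi (circ t) = (1 / m * (β / (α + β))) • (u - v) := by
    rw [Phi_circ, hR, hc]
    ext
    · simp only [Prod.fst_sub, Prod.smul_fst, Prod.fst_add, smul_eq_mul]
      field_simp
      ring
    · simp only [Prod.snd_sub, Prod.smul_snd, Prod.snd_add, smul_eq_mul]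
      field_simp
      ring
  rw [dist_eq_norm, hP, norm_smul, Real.norm_eq_abs, abs_of_nonneg (by positivity)]
  have h3 : β / (α + β) ≤ 1 := by
    rw [div_le_one hαβ]
    linarith
  calc 1 / m * (β / (α + β)) * ‖u - v‖ ≤ 1 / m * 1 * 1 := by gcongr
    _ = 1 / m := by ring

lemma cr_pr (v w : ℤ × ℤ) : cr (pr v) (pr w) = ((v.1 * w.2 - v.2 * w.1 : ℤ) : ℝ) := by
  simp only [cr, pr]
  push_cast
  ring

lemma cr_q {m i : ℤ} (hm : 0 < m) (h0 : 0 ≤ i) (h1 : i < 8 * m) :
    0 < cr (pr (q m i)) (pr (q m (i + 1))) := by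
  rw [cr_pr]
  have key : (q m i).1 * (q m (i + 1)).2 - (q m i).2 * (q m (i + 1)).1 = m := by
    rcases q_step hm h0 h1 with ⟨h, h2, -⟩ | ⟨h, h2, -⟩ | ⟨h, h2, -⟩ | ⟨h, h2, -⟩ <;> rw [h] <;>
      simp only [Prod.fst_add, Prod.snd_add, Prod.fst_sub, Prod.snd_sub] <;>
      rw [h2] <;> ring
  rw [key]
  exact_mod_cast hm

lemma pr_snd_nonneg {v : ℤ × ℤ} (h : 0 ≤ v.2) : 0 ≤ (pr v).2 := by
  have : (0 : ℝ) ≤ v.2 := by exact_mod_cast h
  exact this

lemma abs_comb {α β a b m : ℝ} (hα : 0 ≤ α) (hβ : 0 ≤ β) (ha : |a| ≤ m) (hb : |b| ≤ m) :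
    |α * a + β * b| ≤ (α + β) * m := by
  calc |α * a + β * b| ≤ |α * a| + |β * b| := abs_add_le _ _
    _ = α * |a| + β * |b| := by rw [abs_mul, abs_mul, abs_of_nonneg hα, abs_of_nonneg hβ]
    _ ≤ α * m + β * m := add_le_add (mul_le_mul_of_nonneg_left ha hα) (mul_le_mul_of_nonneg_left hb hβ)
    _ = _ := by ring

/-- Two consecutive vertices are on a common side of the square. -/
lemma face {m i : ℤ} (hm : 0 < m) (h0 : 0 ≤ i) (h1 : i < 8 * m) {α β : ℝ} (hα : 0 ≤ α)
    (hβ : 0 ≤ β) : ‖α • pr (q m i) + β • pr (q m (i + 1))‖ = (α + β) * m := by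
  have hm' : (0 : ℝ) < m := by exact_mod_cast hm
  rw [Prod.norm_def]
  simp only [Prod.fst_add, Prod.snd_add, Prod.smul_fst, Prod.smul_snd, smul_eq_mul,
    Real.norm_eq_abs, pr]
  obtain ⟨a1, a2⟩ := q_max h0 h1.le
  obtain ⟨b1, b2⟩ := q_max (m := m) (i := i + 1) (by omega) (by omega)
  have a1' : |((q m i).1 : ℝ)| ≤ m := by exact_mod_cast a1
  have a2' : |((q m i).2 : ℝ)| ≤ m := by exact_mod_cast a2
  have b1' : |((q m (i + 1)).1 : ℝ)| ≤ m := by exact_mod_cast b1
  have b2' : |((q m (i + 1)).2 : ℝ)| ≤ m := by exact_mod_cast b2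
  have c1 := abs_comb hα hβ a1' b1'
  have c2 := abs_comb hα hβ a2' b2'
  have hαβ : 0 ≤ (α + β) * m := by positivity
  rcases q_step hm h0 h1 with ⟨h, h2, -⟩ | ⟨h, h2, -⟩ | ⟨h, h2, -⟩ | ⟨h, h2, -⟩
  · have e : α * ((q m i).1 : ℝ) + β * ((q m (i + 1)).1 : ℝ) = (α + β) * m := by
      rw [h, Prod.fst_add, h2]
      push_cast
      ring
    rw [e, abs_of_nonneg hαβ]
    exact max_eq_left c2
  · have e : α * ((q m i).2 : ℝ) + β * ((q m (i + 1)).2 : ℝ) = (α + β) * m := by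
      rw [h, Prod.snd_sub, h2]
      push_cast
      ring
    rw [e, abs_of_nonneg hαβ]
    exact max_eq_right c1
  · have e : α * ((q m i).1 : ℝ) + β * ((q m (i + 1)).1 : ℝ) = -((α + β) * m) := by
      rw [h, Prod.fst_sub, h2]
      push_cast
      ring
    rw [e, abs_neg, abs_of_nonneg hαβ]
    exact max_eq_left c2
  · have e : α * ((q m i).2 : ℝ) + β * ((q m (i + 1)).2 : ℝ) = -((α + β) * m) := by
      rw [h, Prod.snd_add, h2]
      push_cast
      ring
    rw [e, abs_neg, abs_of_nonneg hαβ]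
    exact max_eq_right c1

lemma norm_step {m i : ℤ} (hm : 0 < m) (h0 : 0 ≤ i) (h1 : i < 8 * m) :
    ‖pr (q m i) - pr (q m (i + 1))‖ ≤ 1 := by
  rcases q_step hm h0 h1 with ⟨h, -⟩ | ⟨h, -⟩ | ⟨h, -⟩ | ⟨h, -⟩ <;> rw [h, Prod.norm_def] <;>
    apply max_le <;> rw [Real.norm_eq_abs, abs_le] <;> simp only [pr, Prod.fst_sub, Prod.snd_sub,
      Prod.fst_add, Prod.snd_add] <;> push_cast <;> constructor <;> linarith

/-- The angle of a boundary vertex of the upper half of the square. -/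
noncomputable def th (m i : ℤ) : ℝ := Complex.arg (toC (pr (q m i)))

lemma dist_q {m i : ℤ} (hm : 0 < m) (h0 : 0 ≤ i) (h1 : i < 4 * m) {t : ℝ}
    (ht : t ∈ Icc (th m i) (th m (i + 1))) :
    dist ((1 / (m : ℝ)) • pr (q m i)) (Phi (circ t)) ≤ 1 / m :=
  dist_seg (by exact_mod_cast hm) (pr_snd_nonneg (q_snd_nonneg h0 h1.le))
    (pr_snd_nonneg (q_snd_nonneg (by omega) (by omega))) (cr_q hm h0 (by omega))
    (fun _ _ hα hβ => face hm h0 (by omega) hα hβ) (norm_step hm h0 (by omega)) ht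

lemma th_lt {m i : ℤ} (hm : 0 < m) (h0 : 0 ≤ i) (h1 : i < 4 * m) : th m i < th m (i + 1) := by
  have := (arg_lt (pr_snd_nonneg (q_snd_nonneg h0 h1.le))
    (pr_snd_nonneg (q_snd_nonneg (by omega) (by omega))) (cr_q hm h0 (by omega))).1
  exact sub_pos.1 this

lemma th_zero {m : ℤ} (hm : 0 < m) : th m 0 = 0 := by
  have hm' : (0 : ℝ) < m := by exact_mod_cast hm
  have : toC (pr (q m 0)) = ((m : ℝ) : ℂ) := by
    rw [q_zero hm]
    apply Complex.ext <;> simp [toC, pr]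
  rw [th, this]
  exact Complex.arg_ofReal_of_nonneg hm'.le

lemma th_half {m : ℤ} (hm : 0 < m) : th m (4 * m) = Real.pi := by
  have hm' : (0 : ℝ) < m := by exact_mod_cast hm
  have : toC (pr (q m (4 * m))) = ((-(m : ℝ) : ℝ) : ℂ) := by
    rw [q_half hm]
    apply Complex.ext <;> simp [toC, pr]
  rw [th, this]
  exact Complex.arg_ofReal_of_neg (by linarith)

/-! ### The parametrization -/

/-- The angle, constant after the half turn. -/
noncomputable def tc (m : ℕ) (i : ℕ) : ℝ := th m (min i (4 * m) : ℕ)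

lemma tc_mono {m : ℕ} (hm : 0 < m) : Monotone (tc m) := by
  refine monotone_nat_of_le_succ fun i => ?_
  rcases lt_or_ge i (4 * m) with h | h
  · rw [tc, tc, min_eq_left h.le, min_eq_left h]
    have := th_lt (m := m) (i := i) (by exact_mod_cast hm) (by omega) (by exact_mod_cast h)
    push_cast
    exact this.le
  · rw [tc, tc, min_eq_right h, min_eq_right (by omega)]

lemma tc_of_le {m i : ℕ} (h : i ≤ 4 * m) : tc m i = th m i := by
  rw [tc, min_eq_left h]

lemma tc_of_ge {m i : ℕ} (hm : 0 < m) (h : 4 * m ≤ i) : tc m i = Real.pi := by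
  rw [tc, min_eq_right h]
  push_cast
  exact th_half (by exact_mod_cast hm)

lemma tc_zero {m : ℕ} (hm : 0 < m) : tc m 0 = 0 := by
  rw [tc_of_le (by omega)]
  exact th_zero (by exact_mod_cast hm)

/-- The parameters of the vertices. -/
noncomputable def ss (m : ℕ) (i : ℕ) : ℝ := tc m i + tc m (i - 4 * m)

lemma ss_mono {m : ℕ} (hm : 0 < m) : Monotone (ss m) := fun _ _ h =>
  add_le_add (tc_mono hm h) (tc_mono hm (Nat.sub_le_sub_right h _))

lemma pr_neg (v : ℤ × ℤ) : pr (-v) = -pr v := by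
  simp only [pr, Prod.fst_neg, Prod.snd_neg, Prod.neg_mk]
  push_cast
  rfl

lemma dist_p {m : ℕ} (hm : 0 < m) {i : ℕ} (hi : i < 8 * m) {t : ℝ}
    (ht : t ∈ Icc (ss m i) (ss m (i + 1))) :
    dist ((1 / (m : ℝ)) • pr (p m (i : ZMod (8 * m)))) (Phi (circ t)) ≤ 1 / m := by
  rw [p_cast hi]
  have hmz : (0 : ℤ) < m := by exact_mod_cast hm
  rcases lt_or_ge i (4 * m) with h | h
  · have e1 : ss m i = th m i := by
      rw [ss, Nat.sub_eq_zero_of_le h.le, tc_zero hm, add_zero, tc_of_le h.le]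
    have e2 : ss m (i + 1) = th m ((i : ℤ) + 1) := by
      rw [ss, Nat.sub_eq_zero_of_le h, tc_zero hm, add_zero, tc_of_le h]
      push_cast
      rfl
    rw [e1, e2] at ht
    have := dist_q hmz (Int.natCast_nonneg i) (by exact_mod_cast h) ht
    rwa [Int.cast_natCast] at this
  · obtain ⟨j, rfl⟩ := Nat.exists_eq_add_of_le h
    have hj : j < 4 * m := by omega
    have e1 : ss m (4 * m + j) = Real.pi + th m j := by
      rw [ss, tc_of_ge hm (by omega), Nat.add_sub_cancel_left, tc_of_le hj.le]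
    have e2 : ss m (4 * m + j + 1) = Real.pi + th m ((j : ℤ) + 1) := by
      have : 4 * m + j + 1 - 4 * m = j + 1 := by omega
      rw [ss, tc_of_ge hm (by omega), this, tc_of_le hj]
      push_cast
      rfl
    rw [e1, e2] at ht
    have h2 : t - Real.pi ∈ Icc (th m j) (th m ((j : ℤ) + 1)) :=
      ⟨by linarith [ht.1], by linarith [ht.2]⟩
    have h3 := dist_q hmz (Int.natCast_nonneg j) (by exact_mod_cast hj) h2
    have h4 : circ t = -circ (t - Real.pi) := by
      rw [← circ_add_pi]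
      congr 1
      ring
    have h5 : q m ((4 * m + j : ℕ) : ℤ) = -q m j := by
      push_cast
      exact q_add hmz (Int.natCast_nonneg j) (by exact_mod_cast hj.le)
    rw [h4, Phi_neg, h5, pr_neg, smul_neg, dist_neg_neg]
    rwa [Int.cast_natCast] at h3

lemma dist_toC (u v : ℝ × ℝ) : dist (toC u) (toC v) ≤ 2 * dist u v := by
  have h1 : |u.1 - v.1| ≤ dist u v := by
    rw [Prod.dist_eq]
    exact le_max_left _ _
  have h2 : |u.2 - v.2| ≤ dist u v := by
    rw [Prod.dist_eq]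
    exact le_max_right _ _
  rw [dist_eq_norm]
  refine (Complex.norm_le_abs_re_add_abs_im _).trans ?_
  simp only [toC, Complex.sub_re, Complex.sub_im]
  linarith

lemma pt_eq (m : ℕ) (v : ℤ × ℤ) :
    ((1 / (m : ℝ) : ℝ) : ℂ) * E6.pt v = toC ((1 / (m : ℝ)) • pr v) := by
  apply Complex.ext <;> simp [E6.pt, toC, pr]

/-- **The square `(-1,1)²` is approximated by the lattice squares.** -/
theorem approx : E6.Approx Phi (fun n => 1 / ((n + 1 : ℕ) : ℝ)) (fun n => 8 * (n + 1))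
    (fun n => 4 * (n + 1)) (fun n => p (n + 1)) (fun n => sq (n + 1)) := by
  refine ⟨fun n => ⟨by positivity, show 0 < 4 * (n + 1) by omega,
    show 4 * (n + 1) < 8 * (n + 1) by omega, isPolygon (by omega), encloses (by omega)⟩,
    ?_, fun ε hε => ?_⟩
  · have := tendsto_one_div_add_atTop_nhds_zero_nat (𝕜 := ℝ)
    refine this.congr fun n => ?_
    push_cast
    rfl
  · have h1 : Tendsto (fun n : ℕ => 1 / ((n : ℝ) + 1)) atTop (𝓝 0) :=
      tendsto_one_div_add_atTop_nhds_zero_nat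
    filter_upwards [h1.eventually (gt_mem_nhds (half_pos hε))] with n hn
    have hm : 0 < n + 1 := by omega
    refine ⟨ss (n + 1), ss_mono hm, ?_, ?_, ?_, fun i hi t ht => ?_⟩
    · rw [ss, Nat.zero_sub, tc_zero hm, add_zero]
    · rw [ss, Nat.sub_self, tc_zero hm, add_zero, tc_of_ge hm le_rfl]
    · have : 8 * (n + 1) - 4 * (n + 1) = 4 * (n + 1) := by omega
      rw [ss, this, tc_of_ge hm (by omega), tc_of_ge hm le_rfl]
      ring
    · have h2 := dist_p hm hi ht

      rw [pt_eq]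
      refine (dist_toC _ _).trans_lt ?_
      push_cast at h2 ⊢
      linarith

theorem s_exap : ∃ (Φ : (ℝ × ℝ) ≃ₜ (ℝ × ℝ)) (δ : ℕ → ℝ) (N k : ℕ → ℕ)
    (p : ∀ n, ZMod (N n) → ℤ × ℤ) (S : ℕ → Finset (ℤ × ℤ)), E6.Approx Φ δ N k p S :=
  ⟨Phi, _, _, _, _, _, approx⟩

end Vale.Agent.P167.H446.Exap
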