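import Vale.Agent.P167.H450.Brick2

/-!
# Flat cuts

`D ⊆ E` are as in `Data` (`D` bounded, with connected complement; `E = D` is allowed). We remove small
connected sets `K j` which meet the complement of `D` and contain the box below the line
`im = ℓ k j`; the box above this line is in the remaining domain. The brick polygon of
`D1 = D \ ⋃ K j` (with the enlarged set `E1` = `E \ ⋃ K j` and the boxes below the lines) is, near the
point `(x j, ℓ k j)`, the half-plane above the line.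
-/

namespace Vale.Agent.P167.H446.Cut

open Set Metric Vale.Agent.P167.E6 Vale.Agent.P167.H450

/-- The box below the line. -/
def lo (x y q : ℝ) : Set ℂ := {z | |z.re - x| ≤ q ∧ y - 2 * q ≤ z.im ∧ z.im ≤ y}

/-- The box above the line. -/
def up (x y q : ℝ) : Set ℂ := {z | |z.re - x| ≤ q ∧ y < z.im ∧ z.im ≤ y + 2 * q}

/-- The half-open box below the line. -/
def lo' (x y q : ℝ) : Set ℂ := {z | |z.re - x| < q ∧ y - 2 * q < z.im ∧ z.im ≤ y}

/-- A family of flat cuts of `D`. -/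
structure Cuts (ℓ : ℝ) (D E : Set ℂ) {ι : Type} (x : ι → ℝ) (k : ι → ℤ) (q : ι → ℝ)
    (K : ι → Set ℂ) : Prop where
  bdd : Bornology.IsBounded D
  pc : IsPreconnected Dᶜ
  hDE : D ⊆ E
  flat0 : ∀ z ∈ E, z ∉ D → ∃ F, z ∈ sqr ℓ F ∧ ¬ (obk ℓ (br F) ⊆ D)
  conn : ∀ j, IsPreconnected (K j)
  meet : ∀ j, (K j ∩ Dᶜ).Nonempty
  low : ∀ j, lo (x j) (ℓ * k j) (q j) ⊆ K j
  upp : ∀ j, up (x j) (ℓ * k j) (q j) ⊆ D
  dis : ∀ i j, Disjoint (K i) (up (x j) (ℓ * k j) (q j))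

variable {ℓ ρ : ℝ} {D E : Set ℂ} {ι : Type} {x : ι → ℝ} {k : ι → ℤ} {q : ι → ℝ} {K : ι → Set ℂ}
  {F F' F₀ : ℤ × ℤ}

/-- The domain minus the cuts. -/
def D1 (D : Set ℂ) (K : ι → Set ℂ) : Set ℂ := D \ ⋃ j, K j

/-- The enlarged domain. -/
def E1 (ℓ : ℝ) (E : Set ℂ) (x : ι → ℝ) (k : ι → ℤ) (q : ι → ℝ) (K : ι → Set ℂ) : Set ℂ :=
  D1 E K ∪ ⋃ j, lo' (x j) (ℓ * k j) (q j)

/-- For `E = D` the condition on `E \ D` is empty. -/
theorem flat0_self (ℓ : ℝ) (D : Set ℂ) :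
    ∀ z ∈ D, z ∉ D → ∃ F, z ∈ sqr ℓ F ∧ ¬ (obk ℓ (br F) ⊆ D) := fun _ h h' => absurd h h'

theorem isPreconnected_cut (H : Cuts ℓ D E x k q K) : IsPreconnected (D1 D K)ᶜ := by
  have e : (D1 D K)ᶜ = Dᶜ ∪ ⋃ j, (Dᶜ ∪ K j) := by
    ext z
    simp only [D1, mem_compl_iff, mem_sdiff, mem_iUnion, not_and, not_not, mem_union]
    constructor
    · intro h
      by_cases hz : z ∈ D
      · obtain ⟨j, hj⟩ := h hz
        exact Or.inr ⟨j, Or.inr hj⟩
      · exact Or.inl hz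
    · rintro (h | ⟨j, h | h⟩) hz
      · exact absurd hz h
      · exact absurd hz h
      · exact ⟨j, h⟩
  obtain ⟨w, hw⟩ : (Dᶜ).Nonempty := by
    rw [nonempty_compl]
    rintro rfl
    exact NormedSpace.unbounded_univ ℝ ℂ H.bdd
  have e2 : Dᶜ ∪ ⋃ j, (Dᶜ ∪ K j) = ⋃₀ (insert Dᶜ (range fun j => Dᶜ ∪ K j)) := by
    rw [sUnion_insert, sUnion_range]
  rw [e, e2]
  apply isPreconnected_sUnion w
  · rintro s (rfl | ⟨j, rfl⟩)
    · exact hw
    · exact Or.inl hw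
  · rintro s (rfl | ⟨j, rfl⟩)
    · exact H.pc
    · obtain ⟨u, hu1, hu2⟩ := H.meet j
      exact IsPreconnected.union u hu2 hu1 H.pc (H.conn j)

/-- The data of the brick polygon. -/
theorem data (H : Cuts ℓ D E x k q K) (hℓ : 0 < ℓ) (hρ : 0 < ρ)
    (hF₀ : F₀ ∈ GF ℓ ρ (D1 D K) (E1 ℓ E x k q K)) : Data ℓ ρ (D1 D K) (E1 ℓ E x k q K) F₀ where
  hℓ := hℓ
  hρ := hρ
  bdd := H.bdd.subset sdiff_subset
  pc := isPreconnected_cut H
  hDE := (sdiff_subset_sdiff_left H.hDE).trans subset_union_left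
  good := hF₀
  flat z hz hzD := by
    rcases hz with hz | hz
    · obtain ⟨F, h1, h2⟩ := H.flat0 z hz.1 fun h => hzD ⟨h, hz.2⟩
      exact ⟨F, h1, fun h => h2 (h.trans sdiff_subset)⟩
    obtain ⟨j, h1, h2, h3⟩ := mem_iUnion.1 hz
    -- the face just below
    have hc1 := Int.ceil_lt_add_one (z.im / ℓ)
    have hc2 := Int.le_ceil (z.im / ℓ)
    have hf1 := Int.floor_le (z.re / ℓ)
    have hf2 := Int.lt_floor_add_one (z.re / ℓ)
    rw [div_lt_iff₀ hℓ] at hf2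
    rw [le_div_iff₀ hℓ] at hf1
    rw [div_le_iff₀ hℓ] at hc2
    rw [← sub_lt_iff_lt_add, lt_div_iff₀ hℓ] at hc1
    set F : ℤ × ℤ := (⌊z.re / ℓ⌋, ⌈z.im / ℓ⌉ - 1) with hF
    have hzF : z ∈ sqr ℓ F := by
      refine ⟨?_, ?_, ?_, ?_⟩
      · simp only [hF]; linarith
      · simp only [hF]; linarith
      · simp only [hF]; push_cast; linarith
      · simp only [hF]; push_cast; linarith
    refine ⟨F, hzF, fun hsub => ?_⟩
    have hk : ⌈z.im / ℓ⌉ ≤ k j := by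
      rw [Int.ceil_le, div_le_iff₀ hℓ]
      linarith
    have hk' : (⌈z.im / ℓ⌉ : ℝ) ≤ k j := by exact_mod_cast hk
    -- a point of the open brick in the box below
    have hzb := sqr_subset_bk hℓ hzF
    set c : ℂ := ⟨ℓ * (F.1 + 1 / 2), ℓ * (F.2 + 1 / 2)⟩ with hcdef
    have hcb : c ∈ obk ℓ (br F) := center_mem hℓ F
    have hF2 : ((br F).2 : ℝ) = ⌈z.im / ℓ⌉ - 1 := by simp [br, hF]
    obtain ⟨t, ht0, ht1, ht⟩ : ∃ t : ℝ, 0 < t ∧ t ≤ 1 ∧
        t * (dist c z + 1) < min (q j - |z.re - x j|) (z.im - (ℓ * k j - 2 * q j)) := by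
      have hpos : 0 < min (q j - |z.re - x j|) (z.im - (ℓ * k j - 2 * q j)) :=
        lt_min (by linarith) (by linarith)
      set m := min (q j - |z.re - x j|) (z.im - (ℓ * k j - 2 * q j))
      refine ⟨min 1 (m / (2 * (dist c z + 1))), lt_min one_pos (by positivity), min_le_left _ _, ?_⟩
      calc min 1 (m / (2 * (dist c z + 1))) * (dist c z + 1)
          ≤ m / (2 * (dist c z + 1)) * (dist c z + 1) := by gcongr; exact min_le_right _ _
        _ = m / 2 := by field_simp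
        _ < m := by linarith
    set w : ℂ := z + t * (c - z) with hw
    have e1 : w.re = z.re + t * (c.re - z.re) := by simp [hw]
    have e2 : w.im = z.im + t * (c.im - z.im) := by simp [hw]
    have hwo : w ∈ obk ℓ (br F) := by
      obtain ⟨a1, a2, a3, a4⟩ := hzb
      obtain ⟨b1, b2, b3, b4⟩ := hcb
      refine ⟨?_, ?_, ?_, ?_⟩
      · rw [e1]; nlinarith
      · rw [e1]; nlinarith
      · rw [e2]; nlinarith
      · rw [e2]; nlinarith
    have hd1 : |c.re - z.re| ≤ dist c z := by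
      rw [dist_eq_norm, ← Complex.sub_re]; exact Complex.abs_re_le_norm _
    have hd2 : |c.im - z.im| ≤ dist c z := by
      rw [dist_eq_norm, ← Complex.sub_im]; exact Complex.abs_im_le_norm _
    have m1 : t * |c.re - z.re| < q j - |z.re - x j| := by
      have := min_le_left (q j - |z.re - x j|) (z.im - (ℓ * k j - 2 * q j))
      nlinarith
    have m2 : t * |c.im - z.im| < z.im - (ℓ * k j - 2 * q j) := by
      have := min_le_right (q j - |z.re - x j|) (z.im - (ℓ * k j - 2 * q j))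
      nlinarith
    have hwK : w ∈ K j := by
      apply H.low j
      refine ⟨?_, ?_, ?_⟩
      · rw [e1]
        have h5 : |t * (c.re - z.re)| = t * |c.re - z.re| := by rw [abs_mul, abs_of_pos ht0]
        have h6 := abs_add_le (z.re - x j) (t * (c.re - z.re))
        have h7 : z.re + t * (c.re - z.re) - x j = z.re - x j + t * (c.re - z.re) := by ring
        rw [h7]
        linarith
      · rw [e2]
        have h5 : -(t * |c.im - z.im|) ≤ t * (c.im - z.im) := by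
          have := neg_abs_le (c.im - z.im)
          nlinarith
        linarith
      · have h5 := hwo.2.2.2
        rw [hF2] at h5
        have h6 : ℓ * (⌈z.im / ℓ⌉ - 1 + 1) ≤ ℓ * (k j : ℝ) := by
          apply mul_le_mul_of_nonneg_left _ hℓ.le
          linarith
        linarith
    exact (hsub hwo).2 (mem_iUnion.2 ⟨j, hwK⟩)

/-- The face `F` is near the marked point of the cut. -/
def Near (ℓ ρ x : ℝ) (k : ℤ) (q : ℝ) (F : ℤ × ℤ) : Prop :=
  |ℓ * F.1 - x| + ρ + 3 * ℓ ≤ q ∧ |ℓ * F.2 - ℓ * k| + ρ + 3 * ℓ ≤ q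

theorem not_good_of_below (H : Cuts ℓ D E x k q K) (hℓ : 0 < ℓ) (hρ : 0 < ρ) {j : ι}
    (hF : Near ℓ ρ (x j) (k j) (q j) F) (hk : F.2 < k j) :
    F ∉ GF ℓ ρ (D1 D K) (E1 ℓ E x k q K) := by
  intro h
  have h1 : (⟨ℓ * (F.1 + 1 / 2), ℓ * (F.2 + 1 / 2)⟩ : ℂ) ∈ D1 D K := h.2 (center_mem hℓ F)
  apply h1.2
  refine mem_iUnion.2 ⟨j, H.low j ?_⟩
  obtain ⟨a1, a2⟩ := hF
  have hk' : (F.2 : ℝ) + 1 ≤ k j := by exact_mod_cast hk
  have b1 := abs_le.1 (le_refl |ℓ * F.1 - x j|)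
  have b2 := abs_le.1 (le_refl |ℓ * F.2 - ℓ * k j|)
  refine ⟨?_, ?_, ?_⟩
  · simp only
    rw [abs_le]
    constructor <;> nlinarith
  · simp only
    nlinarith
  · simp only
    nlinarith

theorem good_of_above (H : Cuts ℓ D E x k q K) (hℓ : 0 < ℓ) (hρ : 0 < ρ) {j : ι}
    (hF : Near ℓ ρ (x j) (k j) (q j) F) (hk : k j ≤ F.2) :
    F ∈ GF ℓ ρ (D1 D K) (E1 ℓ E x k q K) := by
  obtain ⟨a1, a2⟩ := hF
  have b1 := abs_le.1 (le_refl |ℓ * F.1 - x j|)
  have b2 := abs_le.1 (le_refl |ℓ * F.2 - ℓ * k j|)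
  have hk' : (k j : ℝ) ≤ F.2 := by exact_mod_cast hk
  have hkl : ℓ * (k j : ℝ) ≤ ℓ * F.2 := mul_le_mul_of_nonneg_left hk' hℓ.le
  have hup : up (x j) (ℓ * k j) (q j) ⊆ D1 D K := by
    intro z hz
    refine ⟨H.upp j hz, fun h => ?_⟩
    obtain ⟨i, hi⟩ := mem_iUnion.1 h
    exact disjoint_left.1 (H.dis i j) hi hz
  -- the coordinates of the brick
  have hbr : ∀ z ∈ bk ℓ (br F), |z.re - ℓ * F.1| ≤ 2 * ℓ ∧ ℓ * F.2 ≤ z.im ∧ z.im ≤ ℓ * F.2 + ℓ := by
    rintro z ⟨h1, h2, h3, h4⟩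
    obtain ⟨g1, g2⟩ := (br_eq_iff (F := F) (b := br F)).1 rfl
    have e2 : (F.2 : ℝ) = (br F).2 := by rw [g2]
    refine ⟨?_, by rw [e2]; exact h3, by rw [e2]; linarith⟩
    rcases g1 with g | g
    · have : (F.1 : ℝ) = 2 * (br F).1 - (br F).2 := by rw [g]; push_cast; ring
      rw [abs_le]
      constructor <;> nlinarith
    · have : (F.1 : ℝ) = 2 * (br F).1 - (br F).2 + 1 := by rw [g]; push_cast; ring
      rw [abs_le]
      constructor <;> nlinarith
  constructor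
  · intro z hz w hw
    obtain ⟨c1, c2, c3⟩ := hbr z hz
    rw [abs_le] at c1
    rw [mem_ball, dist_eq_norm] at hw
    have d1 := lt_of_le_of_lt (Complex.abs_re_le_norm _) hw
    have d2 := lt_of_le_of_lt (Complex.abs_im_le_norm _) hw
    rw [Complex.sub_re, abs_lt] at d1
    rw [Complex.sub_im, abs_lt] at d2
    have f1 : |w.re - x j| < q j := by
      rw [abs_lt]; constructor <;> linarith [c1.1, c1.2, d1.1, d1.2, b1.1, b1.2]
    have f2 : ℓ * k j - 2 * q j < w.im := by linarith [d2.1, b2.1]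
    have f3 : w.im ≤ ℓ * k j + 2 * q j := by linarith [d2.2, b2.2]
    rcases le_or_gt w.im (ℓ * k j) with h | h
    · exact Or.inr (mem_iUnion.2 ⟨j, f1, f2, h⟩)
    · have := hup ⟨f1.le, h, f3⟩
      exact Or.inl ⟨H.hDE this.1, this.2⟩
  · intro w hw
    obtain ⟨c1, c2, c3⟩ := hbr w (obk_subset_bk hw)
    rw [abs_le] at c1
    have h3 := hw.2.2.1
    have e2 : ((br F).2 : ℝ) = F.2 := rfl
    rw [e2] at h3
    refine hup ⟨?_, by linarith, by linarith [b2.2]⟩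
    rw [abs_le]; constructor <;> linarith [c1.1, c1.2, b1.1, b1.2]

/-- The faces of a rectangle in `A` are connected. -/
theorem row_conn {A : Set (ℤ × ℤ)} {i j m : ℤ} (h : ∀ a, min i j ≤ a → a ≤ max i j → (a, m) ∈ A) :
    Relation.ReflTransGen (Adj A) (i, m) (j, m) := by
  obtain ⟨n, hn⟩ : ∃ n : ℕ, |i - j| = n := ⟨(i - j).natAbs, by simp⟩
  induction n generalizing j with
  | zero =>
    have : i = j := by
      have := abs_eq_zero.1 (by simpa using hn : |i - j| = 0)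
      omega
    rw [this]
  | succ n ih =>
    have hne : i ≠ j := by
      rintro rfl
      simp at hn
      omega
    rcases lt_or_gt_of_ne hne with hij | hij
    · have e : (j, m) = (j - 1, m) + dir 0 := by simp [dir]
      refine Relation.ReflTransGen.tail (ih (j := j - 1) (fun a h1 h2 => h a ?_ ?_) ?_) ⟨h j ?_ ?_, 0, e⟩
      · omega
      · omega
      · push_cast at hn ⊢
        rw [abs_of_neg (by omega)] at hn
        rcases eq_or_lt_of_le (show i ≤ j - 1 by omega) with h' | h'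
        · rw [abs_of_nonneg (by omega)]; omega
        · rw [abs_of_neg (by omega)]; omega
      · omega
      · omega
    · have e : (j, m) = (j + 1, m) + dir 2 := by simp [dir]
      refine Relation.ReflTransGen.tail (ih (j := j + 1) (fun a h1 h2 => h a ?_ ?_) ?_) ⟨h j ?_ ?_, 2, e⟩
      · omega
      · omega
      · push_cast at hn ⊢
        rw [abs_of_pos (by omega)] at hn
        rw [abs_of_nonneg (by omega)]; omega
      · omega
      · omega

theorem col_conn {A : Set (ℤ × ℤ)} {i j m : ℤ} (h : ∀ a, min i j ≤ a → a ≤ max i j → (m, a) ∈ A) :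
    Relation.ReflTransGen (Adj A) (m, i) (m, j) := by
  obtain ⟨n, hn⟩ : ∃ n : ℕ, |i - j| = n := ⟨(i - j).natAbs, by simp⟩
  induction n generalizing j with
  | zero =>
    have : i = j := by
      have := abs_eq_zero.1 (by simpa using hn : |i - j| = 0)
      omega
    rw [this]
  | succ n ih =>
    have hne : i ≠ j := by
      rintro rfl
      simp at hn
      omega
    rcases lt_or_gt_of_ne hne with hij | hij
    · have e : (m, j) = (m, j - 1) + dir 1 := by simp [dir]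
      refine Relation.ReflTransGen.tail (ih (j := j - 1) (fun a h1 h2 => h a ?_ ?_) ?_) ⟨h j ?_ ?_, 1, e⟩
      · omega
      · omega
      · push_cast at hn ⊢
        rw [abs_of_neg (by omega)] at hn
        rcases eq_or_lt_of_le (show i ≤ j - 1 by omega) with h' | h'
        · rw [abs_of_nonneg (by omega)]; omega
        · rw [abs_of_neg (by omega)]; omega
      · omega
      · omega
    · have e : (m, j) = (m, j + 1) + dir 3 := by simp [dir]
      refine Relation.ReflTransGen.tail (ih (j := j + 1) (fun a h1 h2 => h a ?_ ?_) ?_) ⟨h j ?_ ?_, 3, e⟩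
      · omega
      · omega
      · push_cast at hn ⊢
        rw [abs_of_pos (by omega)] at hn
        rw [abs_of_nonneg (by omega)]; omega
      · omega
      · omega

/-- Two near faces above the line are connected. -/
theorem above_conn (H : Cuts ℓ D E x k q K) (hℓ : 0 < ℓ) (hρ : 0 < ρ) {j : ι}
    (hF : Near ℓ ρ (x j) (k j) (q j) F) (hk : k j ≤ F.2)
    (hF' : Near ℓ ρ (x j) (k j) (q j) F') (hk' : k j ≤ F'.2) :
    Relation.ReflTransGen (Adj (GF ℓ ρ (D1 D K) (E1 ℓ E x k q K))) F F' := by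
  have key : ∀ {a b c : ℤ} {y : ℝ}, |ℓ * a - y| + ρ + 3 * ℓ ≤ q j → |ℓ * b - y| + ρ + 3 * ℓ ≤ q j →
      min a b ≤ c → c ≤ max a b → |ℓ * c - y| + ρ + 3 * ℓ ≤ q j := by
    intro a b c y h1 h2 h3 h4
    have g1 : |ℓ * a - y| ≤ q j - ρ - 3 * ℓ := by linarith
    have g2 : |ℓ * b - y| ≤ q j - ρ - 3 * ℓ := by linarith
    rw [abs_le] at g1 g2
    have g3 : |ℓ * c - y| ≤ q j - ρ - 3 * ℓ := by
      rcases le_total a b with hab | hab
      · rw [min_eq_left hab] at h3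
        rw [max_eq_right hab] at h4
        have h3' : (a : ℝ) ≤ c := by exact_mod_cast h3
        have h4' : (c : ℝ) ≤ b := by exact_mod_cast h4
        rw [abs_le]; constructor <;> nlinarith
      · rw [min_eq_right hab] at h3
        rw [max_eq_left hab] at h4
        have h3' : (b : ℝ) ≤ c := by exact_mod_cast h3
        have h4' : (c : ℝ) ≤ a := by exact_mod_cast h4
        rw [abs_le]; constructor <;> nlinarith
    linarith
  have h1 : Relation.ReflTransGen (Adj (GF ℓ ρ (D1 D K) (E1 ℓ E x k q K))) (F.1, F.2)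
      (F'.1, F.2) := by
    apply row_conn
    intro a h1 h2
    exact good_of_above H hℓ hρ (j := j) ⟨key hF.1 hF'.1 h1 h2, hF.2⟩ hk
  have h2 : Relation.ReflTransGen (Adj (GF ℓ ρ (D1 D K) (E1 ℓ E x k q K))) (F'.1, F.2)
      (F'.1, F'.2) := by
    apply col_conn
    intro a h1 h2
    refine good_of_above H hℓ hρ (j := j) ⟨hF'.1, key hF.2 hF'.2 h1 h2⟩ ?_
    exact le_trans (le_min hk hk') h1
  exact h1.trans h2

/-- **Flatness.** -/
theorem flat (H : Cuts ℓ D E x k q K) (hℓ : 0 < ℓ) (hρ : 0 < ρ)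
    (hF₀ : F₀ ∈ GF ℓ ρ (D1 D K) (E1 ℓ E x k q K)) {j : ι}
    (hF : Near ℓ ρ (x j) (k j) (q j) F) (hk : k j ≤ F.2)
    (hFc : F ∈ Cmp (GF ℓ ρ (D1 D K) (E1 ℓ E x k q K)) F₀)
    (hF' : Near ℓ ρ (x j) (k j) (q j) F') :
    F' ∈ Cmp (GF ℓ ρ (D1 D K) (E1 ℓ E x k q K)) F₀ ↔ k j ≤ F'.2 := by
  constructor
  · intro h
    by_contra hcon
    push Not at hcon
    exact not_good_of_below H hℓ hρ hF' hcon (cmp_subset hF₀ h)
  · intro h
    exact cmp_trans hFc (above_conn H hℓ hρ hF hk hF' h)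

/-- The faces near the vertex `(m, k j)` are near the cut. -/
theorem near_of_box {R m : ℤ} {x₀ q₀ : ℝ} {k₀ : ℤ} (hℓ : 0 < ℓ) (hm : |ℓ * m - x₀| ≤ ℓ)
    (hR : ℓ * R + ρ + 4 * ℓ ≤ q₀) {v : ℤ × ℤ} (h1 : m - R ≤ v.1) (h2 : v.1 ≤ m + R)
    (h3 : k₀ - R ≤ v.2) (h4 : v.2 ≤ k₀ + R) : Near ℓ ρ x₀ k₀ q₀ v := by
  have h1' : (m : ℝ) - R ≤ v.1 := by exact_mod_cast h1
  have h2' : (v.1 : ℝ) ≤ m + R := by exact_mod_cast h2
  have h3' : (k₀ : ℝ) - R ≤ v.2 := by exact_mod_cast h3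
  have h4' : (v.2 : ℝ) ≤ k₀ + R := by exact_mod_cast h4
  rw [abs_le] at hm
  constructor
  · have : |ℓ * v.1 - x₀| ≤ ℓ * R + ℓ := by
      rw [abs_le]; constructor <;> nlinarith
    linarith
  · have : |ℓ * v.2 - ℓ * k₀| ≤ ℓ * R := by
      rw [abs_le]; constructor <;> nlinarith
    linarith

/-- Flatness of the set of faces near the vertex `(m, k j)`. -/
theorem flat_box (H : Cuts ℓ D E x k q K) (hℓ : 0 < ℓ) (hρ : 0 < ρ)
    (hF₀ : F₀ ∈ GF ℓ ρ (D1 D K) (E1 ℓ E x k q K)) {j : ι}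
    (hF : Near ℓ ρ (x j) (k j) (q j) F) (hk : k j ≤ F.2)
    (hFc : F ∈ Cmp (GF ℓ ρ (D1 D K) (E1 ℓ E x k q K)) F₀) {S : Finset (ℤ × ℤ)}
    (hS : (S : Set (ℤ × ℤ)) = Cmp (GF ℓ ρ (D1 D K) (E1 ℓ E x k q K)) F₀) {R m : ℤ}
    (hm : |ℓ * m - x j| ≤ ℓ) (hR : ℓ * R + ρ + 4 * ℓ ≤ q j) (v : ℤ × ℤ) (h1 : m - R ≤ v.1)
    (h2 : v.1 ≤ m + R) (h3 : k j - R ≤ v.2) (h4 : v.2 ≤ k j + R) : v ∈ S ↔ k j ≤ v.2 := by
  rw [← Finset.mem_coe, hS]
  exact flat H hℓ hρ hF₀ hF hk hFc (near_of_box hℓ hm hR h1 h2 h3 h4)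

/-- The boundary polygon runs along the line near the cut. -/
theorem exists_vertex {n : ℕ} {p : ZMod n → ℤ × ℤ} {S : Finset (ℤ × ℤ)} (hE : Encloses p S)
    {m k₀ R : ℤ} (hR : 1 ≤ R) (hS : ∀ v : ℤ × ℤ, m - R ≤ v.1 → v.1 ≤ m + R → k₀ - R ≤ v.2 →
      v.2 ≤ k₀ + R → (v ∈ S ↔ k₀ ≤ v.2)) {a : ℤ} (h1 : m - R ≤ a) (h2 : a ≤ m + R) :
    ∃ i, p i = (a, k₀) ∧ p (i + 1) = (a + 1, k₀) := by
  have h := (hE (a, k₀) 0).2 ?_
  · simpa [dir] using h
  · constructor
    · have : face (a, k₀) 0 = (a, k₀) := by simp [face]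
      rw [this, hS _ h1 h2 (by simp; omega) (by simp; omega)]
    · have : face (a, k₀) (0 - 1) = (a, k₀ - 1) := by
        simp [face]
        ring
      rw [this, hS _ h1 h2 (by simp; omega) (by simp; omega)]
      simp

/-- Near the cut the domain of the polygon is the half-plane above the line. -/
theorem mem_dom (H : Cuts ℓ D E x k q K) (hℓ : 0 < ℓ) (hρ : 0 < ρ)
    (hF₀ : F₀ ∈ GF ℓ ρ (D1 D K) (E1 ℓ E x k q K)) {j : ι}
    (hF : Near ℓ ρ (x j) (k j) (q j) F) (hk : k j ≤ F.2)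
    (hFc : F ∈ Cmp (GF ℓ ρ (D1 D K) (E1 ℓ E x k q K)) F₀) {z : ℂ}
    (h1 : |z.re - x j| + ρ + 4 * ℓ ≤ q j) (h2 : |z.im - ℓ * k j| + ρ + 4 * ℓ ≤ q j) :
    z ∈ interior (reg ℓ (Cmp (GF ℓ ρ (D1 D K) (E1 ℓ E x k q K)) F₀)) ↔ ℓ * k j < z.im := by
  have hnear : ∀ G, z ∈ sqr ℓ G → Near ℓ ρ (x j) (k j) (q j) G := by
    rintro G ⟨g1, g2, g3, g4⟩
    have b1 := abs_le.1 (le_refl |z.re - x j|)
    have b2 := abs_le.1 (le_refl |z.im - ℓ * k j|)
    constructor
    · have : |ℓ * G.1 - x j| ≤ |z.re - x j| + ℓ := by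
        rw [abs_le]; constructor <;> nlinarith
      linarith
    · have : |ℓ * G.2 - ℓ * k j| ≤ |z.im - ℓ * k j| + ℓ := by
        rw [abs_le]; constructor <;> nlinarith
      linarith
  constructor
  · intro h
    by_contra hcon
    push Not at hcon
    -- a face below
    have hc1 := Int.ceil_lt_add_one (z.im / ℓ)
    have hc2 := Int.le_ceil (z.im / ℓ)
    have hf1 := Int.floor_le (z.re / ℓ)
    have hf2 := Int.lt_floor_add_one (z.re / ℓ)
    rw [div_lt_iff₀ hℓ] at hf2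
    rw [le_div_iff₀ hℓ] at hf1
    rw [div_le_iff₀ hℓ] at hc2
    rw [← sub_lt_iff_lt_add, lt_div_iff₀ hℓ] at hc1
    set G : ℤ × ℤ := (⌊z.re / ℓ⌋, ⌈z.im / ℓ⌉ - 1) with hG
    have hzG : z ∈ sqr ℓ G := by
      refine ⟨?_, ?_, ?_, ?_⟩
      · simp only [hG]; linarith
      · simp only [hG]; linarith
      · simp only [hG]; push_cast; linarith
      · simp only [hG]; push_cast; linarith
    have h3 := mem_of_interior hℓ h hzG
    rw [flat H hℓ hρ hF₀ hF hk hFc (hnear G hzG)] at h3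
    have h4 : ⌈z.im / ℓ⌉ ≤ k j := by
      rw [Int.ceil_le, div_le_iff₀ hℓ]
      linarith
    simp only [hG] at h3
    omega
  · intro h
    apply mem_interior_reg hℓ
    intro G hG
    rw [flat H hℓ hρ hF₀ hF hk hFc (hnear G hG)]
    have h3 : ℓ * (k j : ℝ) < ℓ * (G.2 + 1) := lt_of_lt_of_le h hG.2.2.2
    have h4 := lt_of_mul_lt_mul_left h3 hℓ.le
    have h5 : k j < G.2 + 1 := by exact_mod_cast h4
    omega

/-- The points of the line near the cut are boundary points. -/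
theorem mem_frontier (H : Cuts ℓ D E x k q K) (hℓ : 0 < ℓ) (hρ : 0 < ρ)
    (hF₀ : F₀ ∈ GF ℓ ρ (D1 D K) (E1 ℓ E x k q K)) {j : ι}
    (hF : Near ℓ ρ (x j) (k j) (q j) F) (hk : k j ≤ F.2)
    (hFc : F ∈ Cmp (GF ℓ ρ (D1 D K) (E1 ℓ E x k q K)) F₀) {z : ℂ}
    (h1 : |z.re - x j| + ρ + 4 * ℓ < q j) (h2 : z.im = ℓ * k j) :
    z ∈ frontier (interior (reg ℓ (Cmp (GF ℓ ρ (D1 D K) (E1 ℓ E x k q K)) F₀))) := by
  rw [frontier, interior_interior]
  constructor
  · rw [Metric.mem_closure_iff]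
    intro ε hε
    set s : ℝ := min (ε / 2) (q j - ρ - 4 * ℓ - |z.re - x j|) with hs
    have hs0 : 0 < s := lt_min (by linarith) (by linarith)
    have hs1 : s ≤ ε / 2 := min_le_left _ _
    have hs2 : s ≤ q j - ρ - 4 * ℓ - |z.re - x j| := min_le_right _ _
    refine ⟨z + s * Complex.I, ?_, ?_⟩
    · rw [mem_dom H hℓ hρ hF₀ hF hk hFc]
      · simp only [Complex.add_im, Complex.mul_im, Complex.ofReal_re, Complex.I_im, mul_one,
          Complex.ofReal_im, Complex.I_re, mul_zero, add_zero]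
        linarith
      · simp only [Complex.add_re, Complex.mul_re, Complex.ofReal_re, Complex.I_re, mul_zero,
          Complex.ofReal_im, Complex.I_im, mul_one, sub_self, add_zero]
        linarith
      · simp only [Complex.add_im, Complex.mul_im, Complex.ofReal_re, Complex.I_im, mul_one,
          Complex.ofReal_im, Complex.I_re, mul_zero, add_zero]
        rw [h2, add_sub_cancel_left, abs_of_pos hs0]
        have := abs_nonneg (z.re - x j)
        linarith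
    · rw [dist_comm, dist_eq_norm, add_sub_cancel_left, norm_mul, Complex.norm_I, mul_one,
        Complex.norm_real, Real.norm_eq_abs, abs_of_pos hs0]
      linarith
  · rw [mem_dom H hℓ hρ hF₀ hF hk hFc h1.le]
    · rw [h2]; exact lt_irrefl _
    · rw [h2, sub_self, abs_zero]
      have := abs_nonneg (z.re - x j)
      linarith

/-- Inner sets: sets at distance `ρ + 3 ℓ + h` from the complement of `D`. -/
theorem inner (H : Cuts ℓ D E x k q K) (hℓ : 0 < ℓ) (hρ : 0 < ρ)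
    (hF₀ : F₀ ∈ GF ℓ ρ (D1 D K) (E1 ℓ E x k q K)) {h : ℝ} (hh : 0 ≤ h)
    (hK : ∀ j, ∀ z ∈ K j, ∃ w ∈ K j, w ∉ D ∧ dist z w ≤ h) {z₀ : ℂ} (hz₀ : z₀ ∈ sqr ℓ F₀)
    {C : Set ℂ} (hC : IsPreconnected C) (hz : z₀ ∈ C)
    (hb : ∀ z ∈ C, ball z (ρ + 3 * ℓ + h) ⊆ D) :
    C ⊆ interior (reg ℓ (Cmp (GF ℓ ρ (D1 D K) (E1 ℓ E x k q K)) F₀)) := by
  apply (data H hℓ hρ hF₀).inner hC hz hz₀
  intro z hzC w hw
  refine ⟨hb z hzC (ball_subset_ball (by linarith) hw), fun hwK => ?_⟩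
  · obtain ⟨j, hj⟩ := mem_iUnion.1 hwK
    obtain ⟨w', -, h2, h3⟩ := hK j w hj
    apply h2
    apply hb z hzC
    rw [mem_ball] at hw ⊢
    have := dist_triangle w' w z
    rw [dist_comm w' w] at this
    linarith

/-- The collar of the polygon. -/
theorem collar (H : Cuts ℓ D E x k q K) (hℓ : 0 < ℓ) (hρ : 0 < ρ)
    (hF₀ : F₀ ∈ GF ℓ ρ (D1 D K) (E1 ℓ E x k q K)) {h : ℝ} (hh : 0 ≤ h)
    (hK : ∀ j, ∀ z ∈ K j, ∃ w ∈ K j, w ∉ D ∧ JoinedIn (K j) z w ∧ ∀ u ∈ K j, dist u z ≤ h) {y : ℂ}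
    (hy : y ∈ frontier (interior (reg ℓ (Cmp (GF ℓ ρ (D1 D K) (E1 ℓ E x k q K)) F₀)))) :
    ∃ g : ℝ → ℂ, ContinuousOn g (Icc 0 1) ∧ g 0 = y ∧ g 1 ∉ D ∧ ∀ t ∈ Icc (0 : ℝ) 1,
      g t ∉ interior (reg ℓ (Cmp (GF ℓ ρ (D1 D K) (E1 ℓ E x k q K)) F₀)) ∧
        dist (g t) y ≤ ρ + 3 * ℓ + h := by
  obtain ⟨g, hg, hg0, hg1, hg2⟩ := (data H hℓ hρ hF₀).collar hy
  by_cases hD : g 1 ∈ D
  · have hgK : g 1 ∈ ⋃ j, K j := by
      by_contra hcon
      exact hg1 ⟨hD, hcon⟩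
    obtain ⟨j, hj⟩ := mem_iUnion.1 hgK
    obtain ⟨w, -, hwD, ⟨c, hc⟩, hd⟩ := hK j _ hj
    have hcr : ∀ t : ℝ, c.extend t ∈ K j := fun t => by
      have : c.extend t ∈ range c := by
        rw [← Path.extend_range]
        exact mem_range_self t
      obtain ⟨s, hs⟩ := this
      rw [← hs]
      exact hc s
    refine ⟨fun t => if t ≤ 1 / 2 then g (2 * t) else c.extend (2 * t - 1), ?_, ?_, ?_, ?_⟩
    · apply Continuous.continuousOn
      apply Continuous.if_le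
      · exact hg.comp (continuous_const.mul continuous_id)
      · exact c.continuous_extend.comp ((continuous_const.mul continuous_id).sub continuous_const)
      · exact continuous_id
      · exact continuous_const
      · rintro t rfl
        norm_num
    · norm_num
      exact hg0
    · norm_num
      exact hwD
    · intro t ht
      simp only
      split_ifs with h1
      · obtain ⟨h2, h3⟩ := hg2 (2 * t) ⟨by linarith [ht.1], by linarith⟩
        exact ⟨h2, by linarith⟩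
      · refine ⟨fun h2 => ?_, ?_⟩
        · exact ((data H hℓ hρ hF₀).subset_dom h2).2 (mem_iUnion.2 ⟨j, hcr _⟩)
        · have h3 := hd _ (hcr (2 * t - 1))
          have h4 := (hg2 1 ⟨zero_le_one, le_refl 1⟩).2
          have h5 := dist_triangle (c.extend (2 * t - 1)) (g 1) y
          linarith
  · refine ⟨g, hg.continuousOn, hg0, hD, fun t ht => ⟨(hg2 t ht).1, ?_⟩⟩
    have := (hg2 t ht).2
    linarith

end Vale.Agent.P167.H446.Cut
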