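import Vale.Agent.P167.H446.NotchA

/-!
# Families of flat cuts in the presence of a larger removed set

`exists_ntcs'` : as `exists_ntcs`, but the set `B` (the cut at the observation point) may be
conformally larger (`r`) than the flat cuts (`ε`). `exists_syss` : the structures `Sys` for the removed
sets `g` and `B`, with the same flat cuts.
-/

namespace Vale.Agent.P167.H446.Cut

open Set Metric Vale.Agent.P167.H756 Vale.Agent.P153.R2.R1 Vale.Agent.P167.E6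
open Vale.Agent.P167.H450

variable {R c : ℝ} {F : ℂ → ℂ}

/-- Sets which are conformally near another boundary point are far from the access. -/
theorem exists_far' (hR : 0 < R) (hc : 0 < c) {ε : ℝ} (hε : 0 < ε) :
    ∃ η > 0, ∀ F : ℂ → ℂ, Cls R c F → ∀ η', 0 < η' → η' ≤ η → ∀ (A B : Set ℂ) (b : ℂ) (r : ℝ),
      (∀ u ∈ A, ball u η' ⊆ F '' ball 0 1) →
      ∀ p : Set ℂ, (∀ v ∈ ball (0 : ℂ) 1, F v ∈ A → ∃ u ∈ p, dist v u ≤ ε) →
      (∀ v ∈ ball (0 : ℂ) 1, F v ∈ B → dist v b ≤ r) → (∀ u ∈ p, 2 * ε + r < dist u b) →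
      ∀ u ∈ A, ∀ u' ∈ B, η' ≤ dist u u' := by
  obtain ⟨η, hη, hsm⟩ := small_pre (R := R) (c := c) hR hc hε
  refine ⟨η, hη, fun F hF η' hη' hηη A B b r hA p hpA hpB hsep u hu u' hu' => ?_⟩
  by_contra hlt
  push Not at hlt
  have hconf := hF.conf
  have hseg : segment ℝ u u' ⊆ F '' ball 0 1 := by
    refine Subset.trans ?_ (hA u hu)
    exact (convex_ball u η').segment_subset (mem_ball_self hη') (by
      rw [mem_ball, dist_comm]; exact hlt)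
  have huD := hseg (left_mem_segment ℝ u u')
  have huD' := hseg (right_mem_segment ℝ u u')
  have h1 := hsm F hF (dinv F '' segment ℝ u u') (by
      rintro _ ⟨x, hx, rfl⟩
      exact hconf.dinv_mem (hseg hx))
    ((convex_segment u u').isPreconnected.image _ fun x hx =>
      (hconf.dinv_continuousAt (hseg hx)).continuousWithinAt) (by
      rintro _ ⟨x, hx, rfl⟩ _ ⟨x', hx', rfl⟩
      rw [hconf.apply_dinv (hseg hx), hconf.apply_dinv (hseg hx')]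
      refine le_trans ?_ (hlt.le.trans hηη)
      obtain ⟨a, b, ha, hb, hab, rfl⟩ := hx
      obtain ⟨a', b', ha', hb', hab', rfl⟩ := hx'
      have e : a • u + b • u' - (a' • u + b' • u') = (a - a') • (u - u') := by
        have h1 : b = 1 - a := by linarith
        have h2 : b' = 1 - a' := by linarith
        rw [h1, h2]; simp only [sub_smul, one_smul, smul_sub]; abel
      rw [dist_eq_norm (a • u + b • u'), e, norm_smul, ← dist_eq_norm u u', Real.norm_eq_abs]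
      have : |a - a'| ≤ 1 := by rw [abs_le]; constructor <;> linarith
      nlinarith [dist_nonneg (x := u) (y := u')])
    _ ⟨u, left_mem_segment ℝ u u', rfl⟩ _ ⟨u', right_mem_segment ℝ u u', rfl⟩
  obtain ⟨x, hx, hxd⟩ := hpA _ (hconf.dinv_mem huD) (by rw [hconf.apply_dinv huD]; exact hu)
  have h2 := hpB _ (hconf.dinv_mem huD') (by rw [hconf.apply_dinv huD']; exact hu')
  have h3 := hsep x hx
  have h4 := dist_triangle4 x (dinv F u) (dinv F u') b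
  rw [dist_comm x (dinv F u)] at h4
  linarith

/-- **Families of flat cuts, with a larger removed set.** -/
theorem exists_ntcs' (hR : 0 < R) (hc : 0 < c) {ρ₀ : ℝ} (hρ₀ : ρ₀ < 1) {ε s₀ : ℝ} (hε : 0 < ε)
    (hs₀ : 9 * ε < s₀ * (1 - ρ₀)) :
    ∃ η > 0, ∀ F : ℂ → ℂ, Cls R c F → ∀ w₀ ∈ closedBall (0 : ℂ) ρ₀, ∀ (ι : Type) (ξ : ι → ℂ),
      (∀ j, ‖ξ j‖ = 1) → (∀ i j, i ≠ j → s₀ ≤ dist (ξ i) (ξ j)) →
      ∀ ℓ : ℝ, 0 < ℓ → ℓ ≤ η → ∃ (x : ι → ℝ) (k : ι → ℤ) (q : ι → ℝ) (K C : ι → Set ℂ),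
        (∀ j, Ntc F w₀ (ξ j) ε η ℓ (x j) (k j) (q j) (K j) (C j)) ∧
        (∀ i j, ∀ u ∈ C j, ∀ u' ∈ K i, η ≤ dist u u') ∧
        (∀ i j, Disjoint (K i) (up (x j) (ℓ * k j) (q j))) ∧
        ∀ (ζ : ℂ) (B : Set ℂ) (r s : ℝ), 0 ≤ r → ‖ζ‖ = 1 → (∀ j, s ≤ dist (ξ j) ζ) →
          6 * ε + 3 * r < s * (1 - ρ₀) →
          (∀ v ∈ ball (0 : ℂ) 1, F v ∈ B → dist v ζ ≤ r) →
          (∀ j, ∀ u ∈ C j, ∀ u' ∈ B, η ≤ dist u u') ∧
          ∀ j, Disjoint B (up (x j) (ℓ * k j) (q j)) := by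
  obtain ⟨η₁, hη₁, h1⟩ := exists_ntc (R := R) (c := c) hR hc hρ₀ hε
  obtain ⟨η₂, hη₂, h2⟩ := exists_far' (R := R) (c := c) hR hc hε
  obtain ⟨η, hη⟩ : ∃ η, η = min η₁ η₂ := ⟨_, rfl⟩
  have hη0 : 0 < η := by rw [hη]; exact lt_min hη₁ hη₂
  have hηa : η ≤ η₁ := by rw [hη]; exact min_le_left _ _
  have hηb : η ≤ η₂ := by rw [hη]; exact min_le_right _ _
  refine ⟨η, hη0, fun F hF w₀ hw₀ ι ξ hξ hsep ℓ hℓ hℓη => ?_⟩
  choose x k q K C hN using fun j => h1 F hF w₀ hw₀ (ξ j) (hξ j) ℓ hℓ (hℓη.trans hηa)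
  have hw₀' := mem_closedBall_zero_iff.1 hw₀
  have hρ0 : 0 ≤ ρ₀ := (norm_nonneg w₀).trans hw₀'
  have hρ1 : 1 - ρ₀ ≤ 1 := by linarith
  have main : ∀ (ζ : ℂ) (B : Set ℂ) (r s : ℝ) (j : ι), 0 ≤ r → ‖ζ‖ = 1 → s ≤ dist (ξ j) ζ →
      6 * ε + 3 * r < s * (1 - ρ₀) → (∀ v ∈ ball (0 : ℂ) 1, F v ∈ B → dist v ζ ≤ r) →
      (∀ u ∈ C j, ∀ u' ∈ B, η ≤ dist u u') ∧ Disjoint B (up (x j) (ℓ * k j) (q j)) := by
    intro ζ B r s j hr hζ hζj hrs hB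
    have hs0 : 0 < s := by
      by_contra hlt
      push Not at hlt
      nlinarith
    have hs2 : 6 * ε + 3 * r < s := by nlinarith
    constructor
    · have hd : ∀ u ∈ segment ℝ w₀ (ξ j), 2 * ε + r < dist u ζ := by
        intro u hu
        have := dist_segment hρ₀ hw₀' (hξ j) hζ hζj hu
        linarith
      exact h2 F hF η hη0 hηb (C j) B ζ r
        (fun u hu => (ball_subset_ball hηa).trans ((hN j).Cfar u hu))
        (segment ℝ w₀ (ξ j)) (hN j).preC hB hd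
    · rw [disjoint_left]
      intro u hu hu'
      obtain ⟨v, hv, hvu⟩ := (hN j).upp hu'
      have h3 := hB v hv (by rw [hvu]; exact hu)
      have h4 := (hN j).preU v hv (by rw [hvu]; exact hu')
      have h5 := dist_triangle_left (ξ j) ζ v
      linarith
  have hεε : 6 * ε + 3 * ε < s₀ * (1 - ρ₀) := by linarith
  refine ⟨x, k, q, K, C, fun j => (hN j).mono hηa, fun i j => ?_, fun i j => ?_,
    fun ζ B r s hr hζ hζj hrs hB => ⟨fun j => (main ζ B r s j hr hζ (hζj j) hrs hB).1,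
      fun j => (main ζ B r s j hr hζ (hζj j) hrs hB).2⟩⟩
  · by_cases hij : i = j
    · subst hij
      exact fun u hu u' hu' => hηa.trans ((hN i).CK u hu u' hu')
    · exact (main (ξ i) (K i) ε s₀ j hε.le (hξ i) (hsep j i (Ne.symm hij)) hεε (hN i).preK).1
  · by_cases hij : i = j
    · subst hij
      exact (hN i).dis
    · exact (main (ξ i) (K i) ε s₀ j hε.le (hξ i) (hsep j i (Ne.symm hij)) hεε (hN i).preK).2

/-- **The structures `Sys`** for two removed sets `g` and `B`, with the same flat cuts. -/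
theorem exists_syss (hR : 0 < R) (hc : 0 < c) {ρ₀ : ℝ} (hρ₀ : ρ₀ < 1) {ε s₀ : ℝ} (hε : 0 < ε)
    (hs₀ : 9 * ε < s₀ * (1 - ρ₀)) :
    ∃ η > 0, ∀ F : ℂ → ℂ, Cls R c F → ∀ w₀ ∈ closedBall (0 : ℂ) ρ₀, ∀ (ι : Type) (ξ : ι → ℂ),
      (∀ j, ‖ξ j‖ = 1) → (∀ i j, i ≠ j → s₀ ≤ dist (ξ i) (ξ j)) →
      ∀ ℓ : ℝ, 0 < ℓ → ℓ ≤ η → ∀ (ζ : ℂ) (g B : Set ℂ) (r s : ℝ), 0 ≤ r → ‖ζ‖ = 1 →
        (∀ j, s ≤ dist (ξ j) ζ) → 6 * ε + 3 * r < s * (1 - ρ₀) →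
        (∀ v ∈ ball (0 : ℂ) 1, F v ∈ B → dist v ζ ≤ r) → g ⊆ B →
        IsPreconnected (F '' ball 0 1 \ g)ᶜ → IsPreconnected (F '' ball 0 1 \ B)ᶜ →
        (∀ z ∈ F '' ball 0 1, z ∉ g → z ∈ B →
          ∃ G, z ∈ sqr ℓ G ∧ ¬ (obk ℓ (br G) ⊆ F '' ball 0 1 \ B)) →
        ∃ (x : ι → ℝ) (k : ι → ℤ) (q : ι → ℝ) (K C : ι → Set ℂ),
          Sys F w₀ ξ ε η ℓ x k q K C g (F '' ball 0 1 \ g) ∧
          Sys F w₀ ξ ε η ℓ x k q K C B (F '' ball 0 1 \ g) := by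
  obtain ⟨η, hη, h⟩ := exists_ntcs' (R := R) (c := c) hR hc hρ₀ hε hs₀
  refine ⟨η, hη, fun F hF w₀ hw₀ ι ξ hξ hsep ℓ hℓ hℓη ζ g B r s hr hζ hζj hrs hB hgB hpg hpB
    hfl => ?_⟩
  obtain ⟨x, k, q, K, C, hN, hfar, hdis, hlast⟩ := h F hF w₀ hw₀ ι ξ hξ hsep ℓ hℓ hℓη
  obtain ⟨a1, a2⟩ := hlast ζ B r s hr hζ hζj hrs hB
  obtain ⟨b1, b2⟩ := hlast ζ g r s hr hζ hζj hrs fun v hv hvg => hB v hv (hgB hvg)
  refine ⟨x, k, q, K, C, ⟨hℓ, hN, hfar, hdis, b1, b2, isBounded_im hF, hpg, Subset.rfl, ?_⟩,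
    ⟨hℓ, hN, hfar, hdis, a1, a2, isBounded_im hF, hpB, sdiff_subset_sdiff_right hgB, ?_⟩⟩
  · exact fun z hz hz' => absurd hz hz'
  · rintro z ⟨hz1, hz2⟩ hz3
    refine hfl z hz1 hz2 ?_
    by_contra hcon
    exact hz3 ⟨hz1, hcon⟩

end Vale.Agent.P167.H446.Cut
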