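import Vale.Agent.P167.H446.NotchG
import Vale.Agent.P167.H756.Class
import Vale.Agent.P153.R2.R1.Equi

/-!
# Existence of flat cuts, uniformly in the class of bounded conformal maps
-/

namespace Vale.Agent.P167.H446.Cut

open Set Metric MeasureTheory Vale.Agent.P167.H756 Vale.Agent.P153.R2.R1 Vale.Agent.P167.E6
open Vale.Agent.P167.H450
open scoped Real

variable {R c : ℝ} {F : ℂ → ℂ}

theorem isBounded_im (hF : Cls R c F) : Bornology.IsBounded (F '' ball 0 1) := by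
  refine (isBounded_closedBall (x := F 0) (r := R)).subset ?_
  rintro _ ⟨w, hw, rfl⟩
  rw [mem_closedBall, dist_eq_norm]
  exact hF.bdd w hw

/-- Points near `ξ` with a small distance to the complement. -/
theorem exists_near (hR : 0 < R) (hc : 0 < c) {ε lam : ℝ} (hε : 0 < ε) (hlam : 0 < lam) :
    ∃ δ > 0, ∃ ρ < 1, ∀ F : ℂ → ℂ, Cls R c F → ∀ ξ : ℂ, ‖ξ‖ = 1 → ∃ v : ℂ, ‖v‖ ≤ ρ ∧
      dist v ξ ≤ ε ∧
      ∃ d : ℝ, δ ≤ d ∧ d ≤ lam ∧ ball (F v) d ⊆ F '' ball 0 1 ∧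
        ∃ w, w ∉ F '' ball 0 1 ∧ dist w (F v) = d := by
  set b : ℝ := min ε (1 / 2) with hb
  have hb0 : 0 < b := lt_min hε (by norm_num)
  have hb1 : b ≤ 1 / 2 := min_le_right _ _
  have hbε : b ≤ ε := min_le_left _ _
  obtain ⟨A, hA⟩ : ∃ A : ℝ, A = π * R ^ 2 := ⟨_, rfl⟩
  have hA0 : 0 ≤ A := by rw [hA]; positivity
  set L : ℝ := (2 * π * A + 1) / lam ^ 2 with hL
  have hL0 : 0 < L := by positivity
  set a : ℝ := b * Real.exp (-L) with ha
  have ha0 : 0 < a := by positivity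
  have hab : a < b := by
    have : Real.exp (-L) < 1 := by
      rw [← Real.exp_zero]; exact Real.exp_lt_exp.2 (by linarith)
    calc a = b * Real.exp (-L) := rfl
      _ < b * 1 := by gcongr
      _ = b := mul_one b
  have hlog : Real.log (b / a) = L := by
    rw [ha, div_mul_eq_div_div, div_self hb0.ne', one_div, Real.exp_neg, inv_inv, Real.log_exp]
  obtain ⟨δ, hδ, hin⟩ := Cls.inside (R := R) (c := c) hR hc (ρ := 1 - a) (by linarith)
  refine ⟨δ, hδ, 1 - a, by linarith, fun F hF ξ hξ => ?_⟩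
  have hconf := hF.conf
  have hvol : volume (F '' ball 0 1) ≤ ENNReal.ofReal A := by
    refine (measure_mono (t := closedBall (F 0) R) ?_).trans (le_of_eq ?_)
    · rintro _ ⟨w, hw, rfl⟩
      rw [mem_closedBall, dist_eq_norm]
      exact hF.bdd w hw
    · rw [Complex.volume_closedBall, hA, ENNReal.ofReal_mul Real.pi_pos.le,
        ENNReal.ofReal_pow hR.le, mul_comm]
      congr 1
      rw [ENNReal.ofReal, Real.toNNReal_of_nonneg Real.pi_pos.le]
      rfl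
  obtain ⟨s, hs, hsm⟩ := hconf.exists_crosscut hA0 hvol hξ (K := lam ^ 2) ha0 hab (by
    rw [hlog, hL, mul_div_cancel₀ _ (by positivity)]; linarith)
  have hs0 : 0 < s := ha0.trans hs.1
  have hs1 : s < 1 := by linarith [hs.2]
  obtain ⟨p, hp, hpc⟩ := hconf.exists_end (isBounded_im hF) hξ hs0 hs1
  set v : ℂ := ((1 - s : ℝ) : ℂ) * ξ with hv
  have hvn : ‖v‖ = 1 - s := by
    rw [hv, norm_mul, hξ, mul_one, Complex.norm_real, Real.norm_of_nonneg (by linarith)]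
  have hvξ : dist v ξ = s := by
    have e : v - ξ = ((-s : ℝ) : ℂ) * ξ := by rw [hv]; push_cast; ring
    rw [dist_eq_norm, e, norm_mul, hξ, mul_one, Complex.norm_real, Real.norm_eq_abs, abs_neg,
      abs_of_pos hs0]
  have hvb : v ∈ ball (0 : ℂ) 1 := by rw [mem_ball_zero_iff, hvn]; linarith
  have hvcc : v ∈ cc ξ s := ⟨hvb, hvξ⟩
  have hpD : p ∉ F '' ball 0 1 := by
    have := hconf.isOpen.frontier_eq ▸ hp
    exact this.2
  have hpd : dist p (F v) ≤ lam := by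
    have hcl : closure (F '' cc ξ s) ⊆ closedBall (F v) lam := by
      apply closure_minimal _ isClosed_closedBall
      rintro _ ⟨u, hu, rfl⟩
      rw [mem_closedBall, dist_eq_norm]
      exact abs_le_of_sq_le_sq' (hsm u hu v hvcc) hlam.le |>.2
    exact hcl hpc
  have hne : (F '' ball 0 1)ᶜ.Nonempty := ⟨p, hpD⟩
  obtain ⟨w, hw, hwd⟩ := hconf.isOpen.isClosed_compl.exists_infDist_eq_dist hne (F v)
  refine ⟨v, by rw [hvn]; linarith [hs.1], by rw [hvξ]; linarith [hs.2],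
    infDist (F v) (F '' ball 0 1)ᶜ, ?_, ?_, ?_, w, hw, ?_⟩
  · rw [le_infDist hne]
    intro y hy
    by_contra hlt
    push Not at hlt
    apply hy
    apply hin F hF v
    · rw [mem_closedBall_zero_iff, hvn]; linarith [hs.1]
    · rw [mem_ball, dist_comm]; exact hlt
  · refine (infDist_le_dist_of_mem hpD).trans ?_
    rw [dist_comm]; exact hpd
  · intro y hy
    by_contra hyn
    have := infDist_le_dist_of_mem (x := F v) (show y ∈ (F '' ball 0 1)ᶜ from hyn)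
    rw [mem_ball, dist_comm] at hy
    linarith
  · rw [hwd, dist_comm]

/-- Connected sets with a small image are small, uniformly. -/
theorem small_pre (hR : 0 < R) (hc : 0 < c) {s : ℝ} (hs : 0 < s) :
    ∃ η > 0, ∀ F : ℂ → ℂ, Cls R c F → ∀ T ⊆ ball (0 : ℂ) 1, IsPreconnected T →
      (∀ w ∈ T, ∀ w' ∈ T, dist (F w) (F w') ≤ η) → ∀ w ∈ T, ∀ w' ∈ T, dist w w' ≤ s := by
  obtain ⟨η₁, hη₁, h1⟩ := Cls.small (R := R) (c := c) hR hc hs
  obtain ⟨δ, hδ, h2⟩ := Cls.sep (R := R) (c := c) hR hc (ρ := 1 - η₁) (s := s) (by linarith) hs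
  refine ⟨min η₁ (δ / 2), lt_min hη₁ (by positivity), fun F hF T hT hTc hsm w hw w' hw' => ?_⟩
  by_cases h : ∃ w ∈ T, 1 - η₁ < ‖w‖
  · exact h1 F hF T hT hTc (fun a ha b hb => (hsm a ha b hb).trans (min_le_left _ _)) h w hw w' hw'
  · push Not at h
    by_contra hlt
    push Not at hlt
    have h3 := h2 F hF w (mem_closedBall_zero_iff.2 (h w hw)) w'
      (mem_closedBall_zero_iff.2 (h w' hw')) hlt.le
    have h4 := (hsm w hw w' hw').trans (min_le_right _ _)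
    linarith

/-- A flat cut of `F '' ball 0 1` near the boundary point `ξ`, for the mesh `ℓ`, with an access from
`F w₀`. -/
structure Ntc (F : ℂ → ℂ) (w₀ ξ : ℂ) (ε η ℓ x : ℝ) (k : ℤ) (q : ℝ) (K C : Set ℂ) : Prop where
  q_ge : η ≤ q
  pathc : IsPathConnected K
  meet : ∃ w ∈ K, w ∉ F '' ball 0 1
  diam : ∀ u ∈ K, ∀ u' ∈ K, dist u u' ≤ ε
  low : lo x (ℓ * k) q ⊆ K
  loD : lo x (ℓ * k) q ⊆ F '' ball 0 1
  upp : up x (ℓ * k) q ⊆ F '' ball 0 1
  dis : Disjoint K (up x (ℓ * k) q)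
  preK : ∀ v ∈ ball (0 : ℂ) 1, F v ∈ K → dist v ξ ≤ ε
  preU : ∀ v ∈ ball (0 : ℂ) 1, F v ∈ up x (ℓ * k) q → dist v ξ ≤ ε
  Cconn : IsPreconnected C
  Cw : F w₀ ∈ C
  Cc : (⟨x, ℓ * k + q⟩ : ℂ) ∈ C
  Cfar : ∀ u ∈ C, ball u η ⊆ F '' ball 0 1
  CK : ∀ u ∈ C, ∀ u' ∈ K, η ≤ dist u u'
  preC : ∀ v ∈ ball (0 : ℂ) 1, F v ∈ C → ∃ u ∈ segment ℝ w₀ ξ, dist v u ≤ ε

/-- **Existence of flat cuts.** -/
theorem exists_ntc (hR : 0 < R) (hc : 0 < c) {ρ₀ : ℝ} (hρ₀ : ρ₀ < 1) {ε : ℝ} (hε : 0 < ε) :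
    ∃ η > 0, ∀ F : ℂ → ℂ, Cls R c F → ∀ w₀ ∈ closedBall (0 : ℂ) ρ₀, ∀ ξ : ℂ, ‖ξ‖ = 1 →
      ∀ ℓ : ℝ, 0 < ℓ → ℓ ≤ η → ∃ (x : ℝ) (k : ℤ) (q : ℝ) (K C : Set ℂ),
        Ntc F w₀ ξ ε η ℓ x k q K C := by
  obtain ⟨δ₀, hδ₀, hin₀⟩ := Cls.inside (R := R) (c := c) hR hc hρ₀
  obtain ⟨η₁, hη₁, hsmall⟩ := small_pre (R := R) (c := c) hR hc (s := ε / 4) (by positivity)
  set lam : ℝ := min (ε / 2) (min (η₁ / 2) (δ₀ / 4)) with hlam
  have hlam0 : 0 < lam := lt_min (by positivity) (lt_min (by positivity) (by positivity))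
  have hlam1 : lam ≤ ε / 2 := min_le_left _ _
  have hlam2 : lam ≤ η₁ / 2 := (min_le_right _ _).trans (min_le_left _ _)
  have hlam3 : lam ≤ δ₀ / 4 := (min_le_right _ _).trans (min_le_right _ _)
  obtain ⟨δ, hδ, ρ, hρ, hnear⟩ := exists_near (R := R) (c := c) hR hc (ε := ε / 2) (lam := lam)
    (by positivity) hlam0
  obtain ⟨m₀, hm₀, hin⟩ := Cls.inside (R := R) (c := c) hR hc (ρ := max ρ₀ ρ) (max_lt hρ₀ hρ)
  obtain ⟨m, hm⟩ : ∃ m, m = min m₀ δ := ⟨_, rfl⟩
  have hm0 : 0 < m := by rw [hm]; exact lt_min hm₀ hδ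
  have hmm : m ≤ m₀ := by rw [hm]; exact min_le_left _ _
  have hmδ : m ≤ δ := by rw [hm]; exact min_le_right _ _
  obtain ⟨η, hη⟩ : ∃ η, η = min (m / 8) (min (m ^ 2 / (64 * lam)) (δ / 256)) := ⟨_, rfl⟩
  have hη0 : 0 < η := by rw [hη]; exact lt_min (by positivity) (lt_min (by positivity) (by positivity))
  have hη1 : η ≤ m / 8 := by rw [hη]; exact min_le_left _ _
  have hη2 : η ≤ m ^ 2 / (64 * lam) := by rw [hη]; exact (min_le_right _ _).trans (min_le_left _ _)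
  have hη3 : η ≤ δ / 256 := by rw [hη]; exact (min_le_right _ _).trans (min_le_right _ _)
  refine ⟨η, hη0, fun F hF w₀ hw₀ ξ hξ ℓ hℓ hℓη => ?_⟩
  have hconf := hF.conf
  obtain ⟨v, hvρ, hvξ, d, hδd, hdl, hball, w, hwD, hwd⟩ := hnear F hF ξ hξ
  have hd0 : 0 < d := hδ.trans_le hδd
  have hmd : m ≤ d := hmδ.trans hδd
  have hvb : v ∈ ball (0 : ℂ) 1 := by rw [mem_ball_zero_iff]; linarith
  have hw₀b : w₀ ∈ ball (0 : ℂ) 1 := by
    rw [mem_closedBall_zero_iff] at hw₀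
    rw [mem_ball_zero_iff]; linarith
  obtain ⟨z, hz⟩ : ∃ z, z = F v := ⟨_, rfl⟩
  rw [← hz] at hball hwd
  obtain ⟨e, he⟩ : ∃ e : ℂ, e = (w - z) / d := ⟨_, rfl⟩
  have hdc : (d : ℂ) ≠ 0 := by exact_mod_cast hd0.ne'
  have hde : (d : ℂ) * e = w - z := by rw [he]; field_simp
  have hen : ‖e‖ = 1 := by
    rw [he, norm_div, ← dist_eq_norm, hwd, Complex.norm_real, Real.norm_of_nonneg hd0.le,
      div_self hd0.ne']
  obtain ⟨σ, hσ1, hσ2⟩ : ∃ σ : ℝ, (σ = 1 ∨ σ = -1) ∧ 0 ≤ σ * e.re := by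
    rcases le_total 0 e.re with h | h
    · exact ⟨1, Or.inl rfl, by linarith⟩
    · exact ⟨-1, Or.inr rfl, by linarith⟩
  obtain ⟨q, hq⟩ : ∃ q, q = d / 64 := ⟨_, rfl⟩
  have hq0 : 0 < q := by rw [hq]; positivity
  have hℓq : ℓ ≤ q / 4 := by rw [hq]; linarith
  obtain ⟨k, hk⟩ : ∃ k : ℤ, k = ⌊z.im / ℓ⌋ := ⟨_, rfl⟩
  obtain ⟨y, hy⟩ : ∃ y : ℝ, y = ℓ * k - z.im := ⟨_, rfl⟩
  have hf1 : ℓ * (k : ℝ) ≤ z.im := by
    have := Int.floor_le (z.im / ℓ)
    rw [le_div_iff₀ hℓ] at this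
    rw [hk]; linarith
  have hf2 : z.im < ℓ * (k : ℝ) + ℓ := by
    have := Int.lt_floor_add_one (z.im / ℓ)
    rw [div_lt_iff₀ hℓ] at this
    rw [hk]; linarith
  have P : Par e σ d q y := ⟨hen, hσ1, hσ2, hq0, by rw [hq]; ring, by linarith, by linarith⟩
  -- the preimage of the ball
  have hT : ∀ v' ∈ ball (0 : ℂ) 1, F v' ∈ ball z d → dist v' ξ ≤ ε := by
    intro v' hv' hv'2
    have hTc : IsPreconnected (dinv F '' ball z d) := by
      refine (convex_ball z d).isPreconnected.image _ fun u hu => ?_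
      exact (hconf.dinv_continuousAt (hball hu)).continuousWithinAt
    have hTs : dinv F '' ball z d ⊆ ball 0 1 := by
      rintro _ ⟨u, hu, rfl⟩
      exact hconf.dinv_mem (hball hu)
    have h1 := hsmall F hF _ hTs hTc (by
      rintro _ ⟨u, hu, rfl⟩ _ ⟨u', hu', rfl⟩
      rw [hconf.apply_dinv (hball hu), hconf.apply_dinv (hball hu')]
      rw [mem_ball] at hu hu'
      have := dist_triangle_right u u' z
      linarith) v' ⟨F v', hv'2, hconf.dinv_apply hv'⟩ v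
      ⟨F v, by rw [← hz]; exact mem_ball_self hd0, hconf.dinv_apply hvb⟩
    have := dist_triangle v' v ξ
    linarith
  -- the path
  obtain ⟨γ, hγ⟩ : ∃ γ : ℝ → ℂ, γ = fun t => F (AffineMap.lineMap w₀ v t) := ⟨_, rfl⟩
  have hseg : ∀ t ∈ Icc (0 : ℝ) 1, AffineMap.lineMap w₀ v t ∈ closedBall (0 : ℂ) (max ρ₀ ρ) := by
    intro t ht
    apply (convex_closedBall (0 : ℂ) (max ρ₀ ρ)).segment_subset
      (closedBall_subset_closedBall (le_max_left _ _) hw₀)
      (mem_closedBall_zero_iff.2 (hvρ.trans (le_max_right _ _)))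
    rw [segment_eq_image_lineMap]
    exact ⟨t, ht, rfl⟩
  have hsegb : ∀ t ∈ Icc (0 : ℝ) 1, AffineMap.lineMap w₀ v t ∈ ball (0 : ℂ) 1 := fun t ht =>
    closedBall_subset_ball (max_lt hρ₀ hρ) (hseg t ht)
  have hγc : ContinuousOn γ (Icc 0 1) := by
    rw [hγ]
    exact hF.diff.continuousOn.comp AffineMap.lineMap_continuous.continuousOn hsegb
  have hγm : ∀ t ∈ Icc (0 : ℝ) 1, ball (γ t) m ⊆ F '' ball 0 1 := by
    intro t ht
    rw [hγ]
    exact (ball_subset_ball hmm).trans (hin F hF _ (hseg t ht))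
  have hγ0 : γ 0 = F w₀ := by rw [hγ]; simp
  have hγ1 : γ 1 = z := by rw [hγ, hz]; simp
  have hfar0 : δ₀ ≤ dist w (F w₀) := by
    by_contra hlt
    push Not at hlt
    exact hwD (hin₀ F hF w₀ hw₀ hlt)
  obtain ⟨t₁, ht₁, hd₁, hd₂⟩ := Vale.Agent.P167.H174.exists_first (u := fun t => -dist (γ t) z)
    (a := 0) (b := 1) (q := -(d - m / 8)) zero_le_one
    ((continuous_dist.comp_continuousOn (hγc.prodMk continuousOn_const)).neg) (by
      simp only [hγ0]
      have := dist_triangle w z (F w₀)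
      rw [dist_comm z] at this
      linarith) (by
      simp only [hγ1, dist_self]
      linarith)
  have hd₁' : dist (γ t₁) z = d - m / 8 := by linarith
  have hd₂' : ∀ t ∈ Icc 0 t₁, d - m / 8 ≤ dist (γ t) z := fun t ht => by
    have := hd₂ t ht
    linarith
  have hsub : Icc 0 t₁ ⊆ Icc (0 : ℝ) 1 := Icc_subset_Icc_right ht₁.2
  have hγw : ∀ t ∈ Icc (0 : ℝ) 1, m ≤ dist (γ t) w := by
    intro t ht
    by_contra hlt
    push Not at hlt
    exact hwD (hγm t ht (by rw [mem_ball, dist_comm]; exact hlt))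
  -- the sets
  set K : Set ℂ := (fun u => z + u) '' Ks e σ d q y with hK
  set S : Set ℂ := (fun u => z + u) '' Sa e d q m with hS
  set H : Set ℂ := (fun u => z + u) '' Ha σ q y with hH
  have hct : Continuous fun u : ℂ => z + u := continuous_const.add continuous_id
  have hp₁ : γ t₁ ∈ S := by
    refine ⟨γ t₁ - z, mem_Sa P hm0 hmd ?_ ?_, by ring⟩
    · rw [← dist_eq_norm]; exact hd₁'
    · rw [hde, dist_sub_right]
      have := hγw t₁ ht₁
      linarith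
  have hdist : ∀ a b : ℂ, dist (z + a) (z + b) = dist a b := fun a b => dist_add_left z a b
  have hlo : lo z.re (ℓ * k) q ⊆ K := by
    intro u hu
    refine ⟨u - z, lo_subset_Ks ?_, by ring⟩
    obtain ⟨h1, h2, h3⟩ := hu
    refine ⟨?_, ?_, ?_⟩
    · rw [Complex.sub_re, sub_zero]; exact h1
    · rw [Complex.sub_im]; linarith
    · rw [Complex.sub_im]; linarith
  have hup : ∀ u ∈ up z.re (ℓ * k) q, u - z ∈ up 0 y q := by
    intro u hu
    obtain ⟨h1, h2, h3⟩ := hu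
    refine ⟨?_, ?_, ?_⟩
    · rw [Complex.sub_re, sub_zero]; exact h1
    · rw [Complex.sub_im]; linarith
    · rw [Complex.sub_im]; linarith
  have hupb : up z.re (ℓ * k) q ⊆ ball z d := by
    intro u hu
    have := norm_up_le P (hup u hu)
    rw [mem_ball, dist_eq_norm]
    linarith
  have hKb : K ⊆ closedBall z d := by
    rintro _ ⟨u, hu, rfl⟩
    rw [mem_closedBall, dist_eq_norm, add_sub_cancel_left]
    exact norm_le_of_Ks P hu
  have hSb : S ⊆ closedBall z (d - m / 8) := by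
    rintro _ ⟨u, hu, rfl⟩
    rw [mem_closedBall, dist_eq_norm, add_sub_cancel_left]
    exact hu.2.1
  have hHb : H ⊆ closedBall z (20 * q) := by
    rintro _ ⟨u, hu, rfl⟩
    rw [mem_closedBall, dist_eq_norm, add_sub_cancel_left]
    exact norm_Ha P hu
  have hlob : lo z.re (ℓ * k) q ⊆ ball z d := by
    intro u hu
    have h0 : u - z ∈ lo 0 y q := by
      obtain ⟨h1, h2, h3⟩ := hu
      refine ⟨?_, ?_, ?_⟩
      · rw [Complex.sub_re, sub_zero]; exact h1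
      · rw [Complex.sub_im]; linarith
      · rw [Complex.sub_im]; linarith
    have := norm_lo_le P h0
    rw [mem_ball, dist_eq_norm]
    linarith
  refine ⟨z.re, k, q, K, γ '' Icc 0 t₁ ∪ S ∪ H, ?_, ?_, ?_, ?_, hlo, hlob.trans hball,
    hupb.trans hball, ?_, ?_, ?_, ?_, ?_, ?_, ?_, ?_, ?_⟩
  · rw [hq]; linarith
  · exact (isPathConnected_Ks P).image hct
  · exact ⟨w, ⟨d * e, v4_mem_Ks, by rw [hde]; ring⟩, hwD⟩
  · intro u hu u' hu'
    have h1 := mem_closedBall.1 (hKb hu)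
    have h2 := mem_closedBall.1 (hKb hu')
    have := dist_triangle_right u u' z
    linarith
  · rw [disjoint_left]
    rintro _ ⟨u, hu, rfl⟩ hu'
    have := hup _ hu'
    rw [add_sub_cancel_left] at this
    exact disjoint_left.1 (disjoint_up P) hu this
  · rintro v' hv' ⟨u, hu, huv⟩
    apply hT v' hv'
    rw [← huv, mem_ball, dist_eq_norm, add_sub_cancel_left]
    by_contra hlt
    push Not at hlt
    have := eq_of_Ks P hu hlt
    apply hwD
    refine ⟨v', hv', ?_⟩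
    rw [← huv, this, hde]; ring
  · exact fun v' hv' h => hT v' hv' (hupb h)
  · refine (IsPreconnected.union (γ t₁) (mem_image_of_mem _ (right_mem_Icc.2 ht₁.1)) hp₁ ?_ ?_).union
      (z + ⟨-(18 * q * σ), y + q⟩) ?_ ?_ ?_
    · exact isPreconnected_Icc.image _ (hγc.mono hsub)
    · exact (isPreconnected_Sa P hm0 hmd).image _ hct.continuousOn
    · exact Or.inr ⟨_, c1_mem_Sa P hm0 hmd, rfl⟩
    · exact ⟨_, right_mem_segment ℝ _ _, rfl⟩
    · exact isPreconnected_Ha.image _ hct.continuousOn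
  · exact Or.inl (Or.inl ⟨0, left_mem_Icc.2 ht₁.1, hγ0⟩)
  · refine Or.inr ⟨_, left_mem_segment ℝ _ _, ?_⟩
    apply Complex.ext
    · simp
    · simp only [Complex.add_im]
      rw [hy]; ring
  · rintro u ((⟨t, ht, rfl⟩ | hu) | hu)
    · exact (ball_subset_ball (by linarith)).trans (hγm t (hsub ht))
    · refine (ball_subset_ball' ?_).trans hball
      have := mem_closedBall.1 (hSb hu)
      linarith
    · refine (ball_subset_ball' ?_).trans hball
      have := mem_closedBall.1 (hHb hu)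
      rw [hq] at this
      linarith
  · rintro u hu _ ⟨u', hu', rfl⟩
    rcases hu with (⟨t, ht, rfl⟩ | ⟨a, ha, rfl⟩) | ⟨a, ha, rfl⟩
    · rcases le_or_gt (d - m / 4) ‖u'‖ with h | h
      · have h1 := near_v4 P hm0 hmd hu' h
        rw [hde] at h1
        have h2 := hγw t (hsub ht)
        have h3 : dist (z + u') w ≤ m / 4 := by
          have : dist (z + u') w = dist u' (w - z) := by
            rw [dist_eq_norm, dist_eq_norm]; congr 1; ring
          rw [this]; exact h1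
        have h4 := dist_triangle (γ t) (z + u') w
        linarith
      · have h1 := hd₂' t ht
        have h2 := dist_triangle (γ t) (z + u') z
        have h3 : dist (z + u') z = ‖u'‖ := by rw [dist_eq_norm, add_sub_cancel_left]
        linarith
    · rw [hdist]
      have h1 := dist_Sa P hm0 hmd ha hu'
      have h2 : m ^ 2 / (64 * lam) ≤ m ^ 2 / (64 * d) := by gcongr
      linarith
    · rw [hdist]
      have h1 := dist_Ha P ha hu'
      have h2 : η ≤ q := by rw [hq]; linarith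
      linarith
  · intro v' hv' h
    have hin2 : F v' ∈ ball z d → ∃ u ∈ segment ℝ w₀ ξ, dist v' u ≤ ε := fun h' =>
      ⟨ξ, right_mem_segment ℝ _ _, hT v' hv' h'⟩
    rcases h with (⟨t, ht, hte⟩ | hu) | hu
    · rw [hγ] at hte
      have h1 := hF.inj (hsegb t (hsub ht)) hv' hte
      refine ⟨AffineMap.lineMap w₀ ξ t, ?_, ?_⟩
      · rw [segment_eq_image_lineMap]
        exact ⟨t, hsub ht, rfl⟩
      · have e1 : AffineMap.lineMap w₀ v t - AffineMap.lineMap w₀ ξ t = (t : ℂ) * (v - ξ) := by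
          simp only [AffineMap.lineMap_apply, vsub_eq_sub, vadd_eq_add, Complex.real_smul]
          ring
        have ht' := hsub ht
        rw [← h1, dist_eq_norm, e1, norm_mul, ← dist_eq_norm, Complex.norm_real,
          Real.norm_of_nonneg ht'.1]
        have := dist_nonneg (x := v) (y := ξ)
        nlinarith [ht'.2]
    · apply hin2
      have := mem_closedBall.1 (hSb hu)
      rw [mem_ball]; linarith
    · apply hin2
      have := mem_closedBall.1 (hHb hu)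
      rw [mem_ball]
      rw [hq] at this
      linarith

theorem Ntc.mono {F : ℂ → ℂ} {w₀ ξ : ℂ} {ε η η' ℓ x : ℝ} {k : ℤ} {q : ℝ} {K C : Set ℂ}
    (h : Ntc F w₀ ξ ε η ℓ x k q K C) (hη : η' ≤ η) : Ntc F w₀ ξ ε η' ℓ x k q K C where
  q_ge := hη.trans h.q_ge
  pathc := h.pathc
  meet := h.meet
  diam := h.diam
  low := h.low
  loD := h.loD
  upp := h.upp
  dis := h.dis
  preK := h.preK
  preU := h.preU
  Cconn := h.Cconn
  Cw := h.Cw
  Cc := h.Cc
  Cfar u hu := (ball_subset_ball hη).trans (h.Cfar u hu)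
  CK u hu u' hu' := hη.trans (h.CK u hu u' hu')
  preC := h.preC

/-- The distance of `ξ'` to the segment from `w₀` to `ξ`. -/
theorem dist_segment {ρ₀ s₀ : ℝ} (hρ₀ : ρ₀ < 1) {w₀ ξ ξ' u : ℂ} (hw₀ : ‖w₀‖ ≤ ρ₀)
    (hξ : ‖ξ‖ = 1) (hξ' : ‖ξ'‖ = 1) (hd : s₀ ≤ dist ξ ξ') (hu : u ∈ segment ℝ w₀ ξ) :
    s₀ * (1 - ρ₀) ≤ 3 * dist u ξ' := by
  obtain ⟨a, b, ha, hb, hab, rfl⟩ := hu
  have hρ0 : 0 ≤ ρ₀ := (norm_nonneg _).trans hw₀
  have h1 : a * (1 - ρ₀) ≤ dist (a • w₀ + b • ξ) ξ' := by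
    have h2 : ‖a • w₀ + b • ξ‖ ≤ a * ρ₀ + b := by
      refine (norm_add_le _ _).trans ?_
      rw [norm_smul, norm_smul, Real.norm_of_nonneg ha, Real.norm_of_nonneg hb, hξ, mul_one]
      nlinarith
    have h3 := norm_sub_norm_le ξ' (a • w₀ + b • ξ)
    rw [← dist_eq_norm, hξ', dist_comm] at h3
    nlinarith
  have h2 : s₀ - 2 * a ≤ dist (a • w₀ + b • ξ) ξ' := by
    have h3 : dist ξ (a • w₀ + b • ξ) ≤ 2 * a := by
      have e : ξ - (a • w₀ + b • ξ) = a • (ξ - w₀) := by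
        have : b = 1 - a := by linarith
        rw [this]; simp only [sub_smul, one_smul, smul_sub]; abel
      rw [dist_eq_norm, e, norm_smul, Real.norm_of_nonneg ha]
      have h4 := norm_sub_le ξ w₀
      rw [hξ] at h4
      nlinarith
    have h4 := dist_triangle ξ (a • w₀ + b • ξ) ξ'
    linarith
  nlinarith [dist_nonneg (x := a • w₀ + b • ξ) (y := ξ')]

/-- Sets which are conformally near another boundary point are far from the access. -/
theorem exists_far (hR : 0 < R) (hc : 0 < c) {ε : ℝ} (hε : 0 < ε) :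
    ∃ η > 0, ∀ F : ℂ → ℂ, Cls R c F → ∀ η', 0 < η' → η' ≤ η → ∀ (A B : Set ℂ) (b : ℂ),
      (∀ u ∈ A, ball u η' ⊆ F '' ball 0 1) →
      ∀ p : Set ℂ, (∀ v ∈ ball (0 : ℂ) 1, F v ∈ A → ∃ u ∈ p, dist v u ≤ ε) →
      (∀ v ∈ ball (0 : ℂ) 1, F v ∈ B → dist v b ≤ ε) → (∀ u ∈ p, 3 * ε < dist u b) →
      ∀ u ∈ A, ∀ u' ∈ B, η' ≤ dist u u' := by
  obtain ⟨η, hη, hsm⟩ := small_pre (R := R) (c := c) hR hc hε
  refine ⟨η, hη, fun F hF η' hη' hηη A B b hA p hpA hpB hsep u hu u' hu' => ?_⟩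
  by_contra hlt
  push Not at hlt
  have hconf := hF.conf
  have hseg : segment ℝ u u' ⊆ F '' ball 0 1 := by
    refine Subset.trans ?_ (hA u hu)
    exact (convex_ball u η').segment_subset (mem_ball_self hη') (by
      rw [mem_ball, dist_comm]; exact hlt)
  have huD := hseg (left_mem_segment ℝ u u')
  have huD' := hseg (right_mem_segment ℝ u u')
  have h1 := hsm F hF (dinv F '' segment ℝ u u') (by
      rintro _ ⟨x, hx, rfl⟩
      exact hconf.dinv_mem (hseg hx))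
    ((convex_segment u u').isPreconnected.image _ fun x hx =>
      (hconf.dinv_continuousAt (hseg hx)).continuousWithinAt) (by
      rintro _ ⟨x, hx, rfl⟩ _ ⟨x', hx', rfl⟩
      rw [hconf.apply_dinv (hseg hx), hconf.apply_dinv (hseg hx')]
      refine le_trans ?_ (hlt.le.trans hηη)
      obtain ⟨a, b, ha, hb, hab, rfl⟩ := hx
      obtain ⟨a', b', ha', hb', hab', rfl⟩ := hx'
      have e : a • u + b • u' - (a' • u + b' • u') = (a - a') • (u - u') := by
        have h1 : b = 1 - a := by linarith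
        have h2 : b' = 1 - a' := by linarith
        rw [h1, h2]; simp only [sub_smul, one_smul, smul_sub]; abel
      rw [dist_eq_norm (a • u + b • u'), e, norm_smul, ← dist_eq_norm u u', Real.norm_eq_abs]
      have : |a - a'| ≤ 1 := by rw [abs_le]; constructor <;> linarith
      nlinarith [dist_nonneg (x := u) (y := u')])
    _ ⟨u, left_mem_segment ℝ u u', rfl⟩ _ ⟨u', right_mem_segment ℝ u u', rfl⟩
  obtain ⟨x, hx, hxd⟩ := hpA _ (hconf.dinv_mem huD) (by rw [hconf.apply_dinv huD]; exact hu)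
  have h2 := hpB _ (hconf.dinv_mem huD') (by rw [hconf.apply_dinv huD']; exact hu')
  have h3 := hsep x hx
  have h4 := dist_triangle4 x (dinv F u) (dinv F u') b
  rw [dist_comm x (dinv F u)] at h4
  linarith

/-- **Existence of families of flat cuts.** The last clause: a set `B` which is conformally near a
boundary point `ζ` far from the marks is far from the accesses and does not meet the boxes. -/
theorem exists_ntcs (hR : 0 < R) (hc : 0 < c) {ρ₀ : ℝ} (hρ₀ : ρ₀ < 1) {ε s₀ : ℝ} (hε : 0 < ε)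
    (hs₀ : 9 * ε < s₀ * (1 - ρ₀)) :
    ∃ η > 0, ∀ F : ℂ → ℂ, Cls R c F → ∀ w₀ ∈ closedBall (0 : ℂ) ρ₀, ∀ (ι : Type) (ξ : ι → ℂ),
      (∀ j, ‖ξ j‖ = 1) → (∀ i j, i ≠ j → s₀ ≤ dist (ξ i) (ξ j)) →
      ∀ ℓ : ℝ, 0 < ℓ → ℓ ≤ η → ∃ (x : ι → ℝ) (k : ι → ℤ) (q : ι → ℝ) (K C : ι → Set ℂ),
        (∀ j, Ntc F w₀ (ξ j) ε η ℓ (x j) (k j) (q j) (K j) (C j)) ∧
        (∀ i j, ∀ u ∈ C j, ∀ u' ∈ K i, η ≤ dist u u') ∧
        (∀ i j, Disjoint (K i) (up (x j) (ℓ * k j) (q j))) ∧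
        ∀ (ζ : ℂ) (B : Set ℂ), ‖ζ‖ = 1 → (∀ j, s₀ ≤ dist (ξ j) ζ) →
          (∀ v ∈ ball (0 : ℂ) 1, F v ∈ B → dist v ζ ≤ ε) →
          (∀ j, ∀ u ∈ C j, ∀ u' ∈ B, η ≤ dist u u') ∧
          ∀ j, Disjoint B (up (x j) (ℓ * k j) (q j)) := by
  obtain ⟨η₁, hη₁, h1⟩ := exists_ntc (R := R) (c := c) hR hc hρ₀ hε
  obtain ⟨η₂, hη₂, h2⟩ := exists_far (R := R) (c := c) hR hc hε
  obtain ⟨η, hη⟩ : ∃ η, η = min η₁ η₂ := ⟨_, rfl⟩
  have hη0 : 0 < η := by rw [hη]; exact lt_min hη₁ hη₂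
  have hηa : η ≤ η₁ := by rw [hη]; exact min_le_left _ _
  have hηb : η ≤ η₂ := by rw [hη]; exact min_le_right _ _
  refine ⟨η, hη0, fun F hF w₀ hw₀ ι ξ hξ hsep ℓ hℓ hℓη => ?_⟩
  choose x k q K C hN using fun j => h1 F hF w₀ hw₀ (ξ j) (hξ j) ℓ hℓ (hℓη.trans hηa)
  have hw₀' := mem_closedBall_zero_iff.1 hw₀
  have hρ1 : 1 - ρ₀ ≤ 1 := by linarith [(norm_nonneg w₀).trans hw₀']
  have hs₀0 : 0 < s₀ := by
    by_contra hlt
    push Not at hlt
    nlinarith
  have hs₀2 : 2 * ε < s₀ := by nlinarith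
  have main : ∀ (ζ : ℂ) (B : Set ℂ) (j : ι), ‖ζ‖ = 1 → s₀ ≤ dist (ξ j) ζ →
      (∀ v ∈ ball (0 : ℂ) 1, F v ∈ B → dist v ζ ≤ ε) →
      (∀ u ∈ C j, ∀ u' ∈ B, η ≤ dist u u') ∧ Disjoint B (up (x j) (ℓ * k j) (q j)) := by
    intro ζ B j hζ hζj hB
    constructor
    · have hd : ∀ u ∈ segment ℝ w₀ (ξ j), 3 * ε < dist u ζ := by
        intro u hu
        have := dist_segment hρ₀ hw₀' (hξ j) hζ hζj hu
        linarith
      exact h2 F hF η hη0 hηb (C j) B ζ
        (fun u hu => (ball_subset_ball hηa).trans ((hN j).Cfar u hu))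
        (segment ℝ w₀ (ξ j)) (hN j).preC hB hd
    · rw [disjoint_left]
      intro u hu hu'
      obtain ⟨v, hv, hvu⟩ := (hN j).upp hu'
      have h3 := hB v hv (by rw [hvu]; exact hu)
      have h4 := (hN j).preU v hv (by rw [hvu]; exact hu')
      have h5 := dist_triangle_left (ξ j) ζ v
      linarith
  refine ⟨x, k, q, K, C, fun j => (hN j).mono hηa, fun i j => ?_, fun i j => ?_,
    fun ζ B hζ hζj hB => ⟨fun j => (main ζ B j hζ (hζj j) hB).1,
      fun j => (main ζ B j hζ (hζj j) hB).2⟩⟩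
  · by_cases hij : i = j
    · subst hij
      exact fun u hu u' hu' => hηa.trans ((hN i).CK u hu u' hu')
    · exact (main (ξ i) (K i) j (hξ i) (hsep j i (Ne.symm hij)) (hN i).preK).1
  · by_cases hij : i = j
    · subst hij
      exact (hN i).dis
    · exact (main (ξ i) (K i) j (hξ i) (hsep j i (Ne.symm hij)) (hN i).preK).2

end Vale.Agent.P167.H446.Cut
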