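import Vale.Agent.P167.H446.Cut

/-!
# Existence of flat cuts: plane geometry

`ball z d` is in the domain, `z + d e` is a boundary point. The cut consists of the box below the line
and of four segments which lead to the boundary point. The box above the line is joined to the circle
of radius `d - m / 8` far from the cut.
-/

namespace Vale.Agent.P167.H446.Cut

open Set Metric ComplexConjugate

/-- A sector of an annulus. -/
def sec (e : ℂ) (r₂ r₁ κ : ℝ) : Set ℂ := {u | r₂ ≤ ‖u‖ ∧ ‖u‖ ≤ r₁ ∧ (u * conj e).re ≤ κ * ‖u‖}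

theorem exists_angle {c : ℂ} (hc : ‖c‖ = 1) {α : ℝ} (_hα : 0 ≤ α) (hαπ : α ≤ Real.pi)
    (h : c.re ≤ Real.cos α) : ∃ θ ∈ Icc α (2 * Real.pi - α), c = Complex.exp (θ * Complex.I) := by
  have hcos : Real.cos c.arg = c.re := by
    have := Complex.norm_mul_cos_arg c
    rwa [hc, one_mul] at this
  have hexp : c = Complex.exp (c.arg * Complex.I) := by
    have := Complex.norm_mul_exp_arg_mul_I c
    rw [hc, Complex.ofReal_one, one_mul] at this
    exact this.symm
  have hpi := Real.pi_pos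
  rcases le_or_gt 0 c.arg with h0 | h0
  · refine ⟨c.arg, ⟨?_, ?_⟩, hexp⟩
    · by_contra hlt
      push Not at hlt
      have := Real.cos_lt_cos_of_nonneg_of_le_pi h0 hαπ hlt
      linarith
    · linarith [Complex.arg_le_pi c]
  · refine ⟨2 * Real.pi + c.arg, ⟨by linarith [Complex.neg_pi_lt_arg c], ?_⟩, ?_⟩
    · by_contra hlt
      push Not at hlt
      have h1 : -c.arg < α := by linarith
      have := Real.cos_lt_cos_of_nonneg_of_le_pi (by linarith : 0 ≤ -c.arg) hαπ h1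
      rw [Real.cos_neg] at this
      linarith
    · push_cast
      rw [add_mul, Complex.exp_add, Complex.exp_two_pi_mul_I, one_mul]
      exact hexp

theorem isPreconnected_sec {e : ℂ} (he : ‖e‖ = 1) {r₂ r₁ κ : ℝ} (hr : 0 < r₂) (h1 : -1 ≤ κ)
    (h2 : κ ≤ 1) : IsPreconnected (sec e r₂ r₁ κ) := by
  set α := Real.arccos κ with hα
  have hα0 : 0 ≤ α := Real.arccos_nonneg κ
  have hαπ : α ≤ Real.pi := Real.arccos_le_pi κ
  have hcos : Real.cos α = κ := Real.cos_arccos h1 h2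
  have hee : e * conj e = 1 := by
    rw [Complex.mul_conj, Complex.normSq_eq_norm_sq, he]; norm_num
  have heq : sec e r₂ r₁ κ = (fun p : ℝ × ℝ => (p.1 : ℂ) * Complex.exp (p.2 * Complex.I) * e) ''
      (Icc r₂ r₁ ×ˢ Icc α (2 * Real.pi - α)) := by
    ext u
    constructor
    · rintro ⟨g1, g2, g3⟩
      have hu : 0 < ‖u‖ := hr.trans_le g1
      have hu' : (‖u‖ : ℂ) ≠ 0 := by exact_mod_cast hu.ne'
      have hc : ‖u * conj e / ‖u‖‖ = 1 := by
        rw [norm_div, norm_mul, Complex.norm_conj, he, mul_one, Complex.norm_real, norm_norm,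
          div_self hu.ne']
      have hre : (u * conj e / ‖u‖).re ≤ Real.cos α := by
        rw [hcos]
        have : (u * conj e / ‖u‖).re = (u * conj e).re / ‖u‖ := Complex.div_ofReal_re _ _
        rw [this, div_le_iff₀ hu]
        exact g3
      obtain ⟨θ, hθ, h⟩ := exists_angle hc hα0 hαπ hre
      refine ⟨(‖u‖, θ), ⟨⟨g1, g2⟩, hθ⟩, ?_⟩
      simp only
      rw [← h]
      field_simp
      rw [mul_assoc, mul_comm (conj e), hee, mul_one]
    · rintro ⟨⟨ρ, θ⟩, ⟨⟨g1, g2⟩, g3, g4⟩, rfl⟩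
      simp only at g1 g2 g3 g4 ⊢
      have hρ : 0 < ρ := hr.trans_le g1
      have hn : ‖(ρ : ℂ) * Complex.exp (θ * Complex.I) * e‖ = ρ := by
        rw [norm_mul, norm_mul, Complex.norm_exp_ofReal_mul_I, he, mul_one, mul_one,
          Complex.norm_real, Real.norm_of_nonneg hρ.le]
      refine ⟨by rw [hn]; exact g1, by rw [hn]; exact g2, ?_⟩
      rw [hn, mul_assoc, hee, mul_one, Complex.re_ofReal_mul, Complex.exp_ofReal_mul_I_re,
        mul_comm κ]
      apply mul_le_mul_of_nonneg_left _ hρ.le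
      rw [← hcos]
      rcases le_total θ Real.pi with h | h
      · exact Real.cos_le_cos_of_nonneg_of_le_pi hα0 h g3
      · rw [← Real.cos_two_pi_sub θ]
        exact Real.cos_le_cos_of_nonneg_of_le_pi hα0 (by linarith) (by linarith)
  rw [heq]
  apply IsPreconnected.image
  · exact isPreconnected_Icc.prod isPreconnected_Icc
  · apply Continuous.continuousOn
    fun_prop

/-- The parameters of a cut at the origin. -/
structure Par (e : ℂ) (σ d q y : ℝ) : Prop where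
  he : ‖e‖ = 1
  hσ : σ = 1 ∨ σ = -1
  hσe : 0 ≤ σ * e.re
  hq : 0 < q
  hd : d = 64 * q
  hy1 : -(q / 4) ≤ y
  hy2 : y ≤ 0

/-- The vertices of the cut. -/
def v0 (q y : ℝ) : ℂ := ⟨0, y - q⟩
/-- The vertices of the cut. -/
def v1 (q : ℝ) : ℂ := ⟨0, -(8 * q)⟩
/-- The vertices of the cut. -/
def v2 (σ q : ℝ) : ℂ := ⟨8 * q * σ, 0⟩
/-- The vertices of the cut. -/
def v3 (e : ℂ) (q : ℝ) : ℂ := ((8 * q : ℝ) : ℂ) * e
/-- The vertices of the cut. -/
def v4 (e : ℂ) (d : ℝ) : ℂ := (d : ℂ) * e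

/-- The cut at the origin. -/
def Ks (e : ℂ) (σ d q y : ℝ) : Set ℂ :=
  (((lo 0 y q ∪ segment ℝ (v0 q y) (v1 q)) ∪ segment ℝ (v1 q) (v2 σ q)) ∪
    segment ℝ (v2 σ q) (v3 e q)) ∪ segment ℝ (v3 e q) (v4 e d)

variable {e : ℂ} {σ d q y m : ℝ} {u : ℂ}

theorem convex_lo (x y q : ℝ) : Convex ℝ (lo x y q) := by
  intro z hz w hw s t hs ht hst
  obtain ⟨h1, h2, h3⟩ := hz
  obtain ⟨g1, g2, g3⟩ := hw
  rw [abs_le] at h1 g1
  have e1 : (s • z + t • w).re = s * z.re + t * w.re := by simp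
  have e2 : (s • z + t • w).im = s * z.im + t * w.im := by simp
  have ht' : t = 1 - s := by linarith
  subst ht'
  refine ⟨?_, ?_, ?_⟩
  · rw [e1, abs_le]; constructor <;> nlinarith [h1.1, h1.2, g1.1, g1.2]
  · rw [e2]; nlinarith
  · rw [e2]; nlinarith

theorem isPathConnected_Ks (P : Par e σ d q y) : IsPathConnected (Ks e σ d q y) := by
  have hq := P.hq
  have seg : ∀ a b : ℂ, IsPathConnected (segment ℝ a b) := fun a b =>
    (convex_segment a b).isPathConnected ⟨a, left_mem_segment ℝ a b⟩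
  have h0 : v0 q y ∈ lo 0 y q := by
    refine ⟨?_, ?_, ?_⟩ <;> simp only [v0]
    · simp only [sub_self, abs_zero]; exact hq.le
    · linarith
    · linarith
  have hlo : IsPathConnected (lo 0 y q) := (convex_lo 0 y q).isPathConnected ⟨_, h0⟩
  refine (((hlo.union (seg _ _) ⟨v0 q y, h0, left_mem_segment ℝ _ _⟩).union (seg _ _)
    ⟨v1 q, Or.inr (right_mem_segment ℝ _ _), left_mem_segment ℝ _ _⟩).union (seg _ _)
    ⟨v2 σ q, Or.inr (right_mem_segment ℝ _ _), left_mem_segment ℝ _ _⟩).union (seg _ _)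
    ⟨v3 e q, Or.inr (right_mem_segment ℝ _ _), left_mem_segment ℝ _ _⟩

theorem sq_e (P : Par e σ d q y) : e.re ^ 2 + e.im ^ 2 = 1 := by
  have h1 : Complex.normSq e = 1 := by
    rw [Complex.normSq_eq_norm_sq, P.he]; norm_num
  rw [Complex.normSq_apply] at h1
  linarith

theorem sq_σ (P : Par e σ d q y) : σ ^ 2 = 1 := by
  rcases P.hσ with h | h <;> rw [h] <;> norm_num

theorem norm_sq (u : ℂ) : ‖u‖ ^ 2 = u.re ^ 2 + u.im ^ 2 := by
  rw [← Complex.normSq_eq_norm_sq, Complex.normSq_apply]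
  ring

/-- The points of the cut. -/
theorem Ks_cases (P : Par e σ d q y) (hu : u ∈ Ks e σ d q y) :
    (|u.re| ≤ q ∧ y - 2 * q ≤ u.im ∧ u.im ≤ y) ∨ (u.re = 0 ∧ -(8 * q) ≤ u.im ∧ u.im ≤ y - q) ∨
    (0 ≤ σ * u.re ∧ 5 * q ≤ ‖u‖ ∧ ‖u‖ ≤ 8 * q) ∨ ∃ s : ℝ, 8 * q ≤ s ∧ s ≤ d ∧ u = s * e := by
  have hq := P.hq
  have hy1 := P.hy1
  have hy2 := P.hy2
  have hd := P.hd
  have hee := sq_e P
  have hσσ := sq_σ P
  have hσe := P.hσe
  have key : ∀ u : ℂ, 32 * q ^ 2 ≤ ‖u‖ ^ 2 → ‖u‖ ^ 2 ≤ 64 * q ^ 2 → 5 * q ≤ ‖u‖ ∧ ‖u‖ ≤ 8 * q := by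
    intro u h1 h2
    have h0 := norm_nonneg u
    constructor
    · by_contra hlt
      push Not at hlt
      nlinarith
    · by_contra hlt
      push Not at hlt
      nlinarith
  rcases hu with (((hu | hu) | hu) | hu) | hu
  · left
    obtain ⟨h1, h2, h3⟩ := hu
    rw [sub_zero] at h1
    exact ⟨h1, h2, h3⟩
  · right; left
    obtain ⟨a, b, ha, hb, hab, rfl⟩ := hu
    have e1 : (a • v0 q y + b • v1 q).re = 0 := by simp [v0, v1]
    have e2 : (a • v0 q y + b • v1 q).im = a * (y - q) + b * (-(8 * q)) := by simp [v0, v1]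
    have hb' : b = 1 - a := by linarith
    subst hb'
    refine ⟨e1, ?_, ?_⟩
    · rw [e2]; nlinarith
    · rw [e2]; nlinarith
  · right; right; left
    obtain ⟨a, b, ha, hb, hab, rfl⟩ := hu
    have e1 : (a • v1 q + b • v2 σ q).re = b * (8 * q * σ) := by simp [v1, v2]
    have e2 : (a • v1 q + b • v2 σ q).im = a * (-(8 * q)) := by simp [v1, v2]
    have hn : ‖a • v1 q + b • v2 σ q‖ ^ 2 = 64 * q ^ 2 * (a ^ 2 + b ^ 2) := by
      rw [norm_sq, e1, e2]
      linear_combination (b ^ 2 * (8 * q) ^ 2) * hσσ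
    have hab2 : 1 / 2 ≤ a ^ 2 + b ^ 2 := by nlinarith [sq_nonneg (a - b)]
    have hab3 : a ^ 2 + b ^ 2 ≤ 1 := by nlinarith [mul_nonneg ha hb]
    refine ⟨?_, ?_⟩
    · rw [e1]
      have : σ * (b * (8 * q * σ)) = b * (8 * q) * σ ^ 2 := by ring
      rw [this, hσσ]
      positivity
    · apply key
      · rw [hn]; nlinarith [sq_nonneg q]
      · rw [hn]; nlinarith [sq_nonneg q]
  · right; right; left
    obtain ⟨a, b, ha, hb, hab, rfl⟩ := hu
    have e1 : (a • v2 σ q + b • v3 e q).re = a * (8 * q * σ) + b * (8 * q * e.re) := by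
      simp [v2, v3]
    have e2 : (a • v2 σ q + b • v3 e q).im = b * (8 * q * e.im) := by simp [v2, v3]
    have hn : ‖a • v2 σ q + b • v3 e q‖ ^ 2 =
        64 * q ^ 2 * (a ^ 2 + b ^ 2 + 2 * a * b * (σ * e.re)) := by
      rw [norm_sq, e1, e2]
      linear_combination (a ^ 2 * (8 * q) ^ 2) * hσσ + (b ^ 2 * (8 * q) ^ 2) * hee
    have hσe1 : σ * e.re ≤ 1 := by nlinarith [sq_nonneg (σ - e.re), sq_nonneg e.im]
    have hab2 : 1 / 2 ≤ a ^ 2 + b ^ 2 := by nlinarith [sq_nonneg (a - b)]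
    have hab0 := mul_nonneg ha hb
    have hm := mul_nonneg hab0 hσe
    have hm' : a * b * (σ * e.re) ≤ a * b := by nlinarith
    have hab3 : a ^ 2 + b ^ 2 + 2 * (a * b) = 1 := by
      have : (a + b) ^ 2 = 1 := by rw [hab]; norm_num
      nlinarith
    refine ⟨?_, ?_⟩
    · rw [e1]
      have : σ * (a * (8 * q * σ) + b * (8 * q * e.re)) =
          8 * q * (a * σ ^ 2 + b * (σ * e.re)) := by ring
      rw [this, hσσ]
      have := mul_nonneg hb hσe
      positivity
    · apply key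
      · rw [hn]; nlinarith [sq_nonneg q]
      · rw [hn]; nlinarith [sq_nonneg q]
  · right; right; right
    obtain ⟨a, b, ha, hb, hab, rfl⟩ := hu
    refine ⟨a * (8 * q) + b * d, ?_, ?_, ?_⟩
    · nlinarith
    · nlinarith
    · simp only [v3, v4, Complex.real_smul]
      push_cast
      ring

/-- The cut is in the ball. -/
theorem norm_le_of_Ks (P : Par e σ d q y) (hu : u ∈ Ks e σ d q y) : ‖u‖ ≤ d := by
  have hq := P.hq
  have hy1 := P.hy1
  have hy2 := P.hy2
  have hd := P.hd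
  have h0 := norm_nonneg u
  rcases Ks_cases P hu with ⟨h1, h2, h3⟩ | ⟨h1, h2, h3⟩ | ⟨h1, h2, h3⟩ | ⟨s, h1, h2, rfl⟩
  · rw [abs_le] at h1
    have := norm_sq u
    by_contra hlt
    push Not at hlt
    nlinarith [h1.1, h1.2]
  · have := norm_sq u
    rw [h1] at this
    by_contra hlt
    push Not at hlt
    nlinarith
  · linarith
  · rw [norm_mul, P.he, mul_one, Complex.norm_real, Real.norm_of_nonneg (by linarith)]
    exact h2

theorem eq_of_Ks (P : Par e σ d q y) (hu : u ∈ Ks e σ d q y) (hn : d ≤ ‖u‖) : u = d * e := by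
  have hq := P.hq
  have hy1 := P.hy1
  have hy2 := P.hy2
  have hd := P.hd
  have h0 := norm_nonneg u
  rcases Ks_cases P hu with ⟨h1, h2, h3⟩ | ⟨h1, h2, h3⟩ | ⟨h1, h2, h3⟩ | ⟨s, h1, h2, rfl⟩
  · exfalso
    rw [abs_le] at h1
    have := norm_sq u
    nlinarith [h1.1, h1.2]
  · exfalso
    have := norm_sq u
    rw [h1] at this
    nlinarith
  · linarith
  · rw [norm_mul, P.he, mul_one, Complex.norm_real, Real.norm_of_nonneg (by linarith)] at hn
    rw [le_antisymm h2 hn]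

theorem lo_subset_Ks : lo 0 y q ⊆ Ks e σ d q y := fun _ h => Or.inl (Or.inl (Or.inl (Or.inl h)))

theorem v4_mem_Ks : (d : ℂ) * e ∈ Ks e σ d q y := Or.inr (right_mem_segment ℝ _ _)

theorem norm_up_le (P : Par e σ d q y) (hu : u ∈ up 0 y q) : ‖u‖ < 3 * q := by
  have hq := P.hq
  have hy1 := P.hy1
  have hy2 := P.hy2
  obtain ⟨h1, h2, h3⟩ := hu
  rw [sub_zero, abs_le] at h1
  have := norm_sq u
  have h0 := norm_nonneg u
  by_contra hlt
  push Not at hlt
  nlinarith [h1.1, h1.2]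

theorem norm_lo_le (P : Par e σ d q y) (hu : u ∈ lo 0 y q) : ‖u‖ < 4 * q := by
  have hq := P.hq
  have hy1 := P.hy1
  have hy2 := P.hy2
  obtain ⟨h1, h2, h3⟩ := hu
  rw [sub_zero, abs_le] at h1
  have := norm_sq u
  have h0 := norm_nonneg u
  by_contra hlt
  push Not at hlt
  nlinarith [h1.1, h1.2]

/-- The cut does not meet the box above the line. -/
theorem disjoint_up (P : Par e σ d q y) : Disjoint (Ks e σ d q y) (up 0 y q) := by
  rw [disjoint_left]
  intro u hu hu'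
  have hn := norm_up_le P hu'
  have hq := P.hq
  obtain ⟨g1, g2, g3⟩ := hu'
  rcases Ks_cases P hu with ⟨h1, h2, h3⟩ | ⟨h1, h2, h3⟩ | ⟨h1, h2, h3⟩ | ⟨s, h1, h2, rfl⟩
  · linarith
  · linarith
  · linarith
  · rw [norm_mul, P.he, mul_one, Complex.norm_real, Real.norm_of_nonneg (by linarith)] at hn
    linarith

/-- The outer part of the cut is near the boundary point. -/
theorem near_v4 (P : Par e σ d q y) (hm : 0 < m) (hmd : m ≤ d) (hu : u ∈ Ks e σ d q y)
    (hn : d - m / 4 ≤ ‖u‖) : dist u (d * e) ≤ m / 4 := by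
  have hq := P.hq
  have hy1 := P.hy1
  have hy2 := P.hy2
  have hd := P.hd
  have h48 : 48 * q ≤ ‖u‖ := by linarith
  rcases Ks_cases P hu with ⟨h1, h2, h3⟩ | ⟨h1, h2, h3⟩ | ⟨h1, h2, h3⟩ | ⟨s, h1, h2, rfl⟩
  · exfalso
    rw [abs_le] at h1
    have := norm_sq u
    nlinarith [h1.1, h1.2]
  · exfalso
    have := norm_sq u
    rw [h1] at this
    nlinarith
  · exfalso
    linarith
  · rw [norm_mul, P.he, mul_one, Complex.norm_real, Real.norm_of_nonneg (by linarith)] at hn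
    rw [dist_eq_norm, ← sub_mul, norm_mul, P.he, mul_one, ← Complex.ofReal_sub, Complex.norm_real,
      Real.norm_eq_abs, abs_sub_comm, abs_of_nonneg (by linarith)]
    linarith

/-! ### The access -/

/-- The ring part of the access. -/
def Sa (e : ℂ) (d q m : ℝ) : Set ℂ := sec e (16 * q) (d - m / 8) (1 - m ^ 2 / (16 * d ^ 2))

/-- The horizontal part of the access. -/
def Ha (σ q y : ℝ) : Set ℂ := segment ℝ (⟨0, y + q⟩ : ℂ) ⟨-(18 * q * σ), y + q⟩

theorem kap_bounds (P : Par e σ d q y) (hm : 0 < m) (hmd : m ≤ d) :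
    0 < m ^ 2 / (16 * d ^ 2) ∧ m ^ 2 / (16 * d ^ 2) ≤ 1 / 16 := by
  have hq := P.hq
  have hd : 0 < d := by rw [P.hd]; positivity
  refine ⟨by positivity, ?_⟩
  rw [div_le_iff₀ (by positivity)]
  nlinarith

theorem isPreconnected_Sa (P : Par e σ d q y) (hm : 0 < m) (hmd : m ≤ d) :
    IsPreconnected (Sa e d q m) := by
  have hq := P.hq
  obtain ⟨h1, h2⟩ := kap_bounds P hm hmd
  exact isPreconnected_sec P.he (by positivity) (by linarith) (by linarith)

theorem isPreconnected_Ha : IsPreconnected (Ha σ q y) := (convex_segment _ _).isPreconnected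

theorem dist_sq (p u : ℂ) : dist p u ^ 2 = (p.re - u.re) ^ 2 + (p.im - u.im) ^ 2 := by
  rw [dist_eq_norm, norm_sq, Complex.sub_re, Complex.sub_im]

theorem Ha_cases {p : ℂ} (hp : p ∈ Ha σ q y) : ∃ t : ℝ, 0 ≤ t ∧ t ≤ 18 * q ∧
    p.re = -(t * σ) ∧ p.im = y + q ∨ q < 0 := by
  obtain ⟨a, b, ha, hb, hab, rfl⟩ := hp
  rcases lt_or_ge q 0 with h | h
  · exact ⟨0, Or.inr h⟩
  refine ⟨b * (18 * q), Or.inl ⟨by positivity, by nlinarith, ?_, ?_⟩⟩
  · simp
    ring
  · simp
    linear_combination (y + q) * hab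

/-- The horizontal part is far from the cut. -/
theorem dist_Ha (P : Par e σ d q y) {p : ℂ} (hp : p ∈ Ha σ q y) (hu : u ∈ Ks e σ d q y) :
    q ≤ dist p u := by
  have hq := P.hq
  have hy1 := P.hy1
  have hy2 := P.hy2
  obtain ⟨t, ⟨ht0, ht1, hre, him⟩ | h⟩ := Ha_cases hp
  swap
  · linarith
  have hd0 : 0 ≤ dist p u := dist_nonneg
  have hds := dist_sq p u
  have hσσ := sq_σ P
  have key : 0 ≤ σ * u.re → 5 * q ≤ ‖u‖ → q ≤ dist p u := by
    intro h1 h2
    have hn := norm_sq u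
    have h3 : u.im ≤ ‖u‖ := Complex.im_le_norm u
    have h4 : ‖u‖ ^ 2 - 2 * ‖u‖ * (y + q) + (y + q) ^ 2 ≤ dist p u ^ 2 := by
      rw [hds, hre, him]
      have h5 : (-(t * σ) - u.re) ^ 2 = t ^ 2 * σ ^ 2 + 2 * t * (σ * u.re) + u.re ^ 2 := by ring
      rw [h5, hσσ]
      have h6 := mul_nonneg ht0 h1
      have h7 : (0 : ℝ) ≤ y + q := by linarith
      have h8 := mul_le_mul_of_nonneg_right h3 h7
      nlinarith [sq_nonneg t]
    by_contra hlt
    push Not at hlt
    have h5 : 4 * q ≤ ‖u‖ - (y + q) := by linarith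
    nlinarith
  rcases Ks_cases P hu with ⟨h1, h2, h3⟩ | ⟨h1, h2, h3⟩ | ⟨h1, h2, h3⟩ | ⟨s, h1, h2, hs⟩
  · by_contra hlt
    push Not at hlt
    rw [him] at hds
    nlinarith [sq_nonneg (p.re - u.re)]
  · by_contra hlt
    push Not at hlt
    rw [him] at hds
    nlinarith [sq_nonneg (p.re - u.re)]
  · exact key h1 h2
  · apply key
    · rw [hs, Complex.re_ofReal_mul]
      have := P.hσe
      have h5 : σ * (s * e.re) = s * (σ * e.re) := by ring
      rw [h5]
      exact mul_nonneg (by linarith) this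
    · rw [hs, norm_mul, P.he, mul_one, Complex.norm_real, Real.norm_of_nonneg (by linarith)]
      linarith

/-- The ring part is far from the cut. -/
theorem dist_Sa (P : Par e σ d q y) (hm : 0 < m) (hmd : m ≤ d) {p : ℂ} (hp : p ∈ Sa e d q m)
    (hu : u ∈ Ks e σ d q y) : m ^ 2 / (64 * d) ≤ dist p u := by
  have hq := P.hq
  have hy1 := P.hy1
  have hy2 := P.hy2
  have hd := P.hd
  have hd0 : 0 < d := by linarith
  obtain ⟨g1, g2, g3⟩ := hp
  obtain ⟨b1, b2⟩ := kap_bounds P hm hmd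
  have hsmall : m ^ 2 / (64 * d) ≤ q := by
    rw [div_le_iff₀ (by positivity)]
    have : q * (64 * d) = d * d := by rw [hd]; ring
    rw [this]
    nlinarith
  have hin : ‖u‖ ≤ 8 * q → m ^ 2 / (64 * d) ≤ dist p u := by
    intro h
    have := norm_sub_norm_le p u
    rw [← dist_eq_norm] at this
    linarith
  rcases Ks_cases P hu with ⟨h1, h2, h3⟩ | ⟨h1, h2, h3⟩ | ⟨h1, h2, h3⟩ | ⟨s, h1, h2, hs⟩
  · apply hin
    rw [abs_le] at h1
    have := norm_sq u
    have h0 := norm_nonneg u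
    by_contra hlt
    push Not at hlt
    nlinarith [h1.1, h1.2]
  · apply hin
    have := norm_sq u
    have h0 := norm_nonneg u
    rw [h1] at this
    by_contra hlt
    push Not at hlt
    nlinarith
  · exact hin h3
  · set β : ℝ := m ^ 2 / (16 * d ^ 2) with hβ
    have hs0 : 0 ≤ s := by linarith
    have e1 : dist p u ^ 2 = ‖p‖ ^ 2 + s ^ 2 - 2 * s * (p * conj e).re := by
      rw [dist_sq, hs, norm_sq p]
      simp only [Complex.ofReal_re, Complex.ofReal_im, Complex.mul_re, Complex.mul_im,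
        Complex.conj_re, Complex.conj_im]
      have := sq_e P
      linear_combination s ^ 2 * this
    have e2 : (β * ‖p‖) ^ 2 ≤ dist p u ^ 2 := by
      rw [e1]
      have h5 := mul_le_mul_of_nonneg_left g3 hs0
      have hp0 := norm_nonneg p
      have h6 : 0 ≤ (s - (1 - β) * ‖p‖) ^ 2 := sq_nonneg _
      have h7 : β ^ 2 * ‖p‖ ^ 2 ≤ β * ‖p‖ ^ 2 := by
        have : β ^ 2 ≤ β := by nlinarith
        nlinarith [sq_nonneg ‖p‖]
      nlinarith [sq_nonneg ‖p‖]
    have e3 : β * ‖p‖ ≤ dist p u := by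
      have h5 : 0 ≤ β * ‖p‖ := by positivity
      exact abs_le_of_sq_le_sq' e2 dist_nonneg |>.2
    refine le_trans ?_ e3
    calc m ^ 2 / (64 * d) = β * (16 * q) := by
          rw [hβ]
          have : q = d / 64 := by linarith
          rw [this]
          field_simp
      _ ≤ β * ‖p‖ := by gcongr

theorem c1_mem_Sa (P : Par e σ d q y) (hm : 0 < m) (hmd : m ≤ d) :
    (⟨-(18 * q * σ), y + q⟩ : ℂ) ∈ Sa e d q m := by
  have hq := P.hq
  have hy1 := P.hy1
  have hy2 := P.hy2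
  have hd := P.hd
  obtain ⟨b1, b2⟩ := kap_bounds P hm hmd
  have hσσ := sq_σ P
  have hn : ‖(⟨-(18 * q * σ), y + q⟩ : ℂ)‖ ^ 2 = (18 * q) ^ 2 + (y + q) ^ 2 := by
    rw [norm_sq]
    simp only
    linear_combination (18 * q) ^ 2 * hσσ
  have h0 := norm_nonneg (⟨-(18 * q * σ), y + q⟩ : ℂ)
  have h16 : 16 * q ≤ ‖(⟨-(18 * q * σ), y + q⟩ : ℂ)‖ := by
    by_contra hlt
    push Not at hlt
    nlinarith
  refine ⟨h16, ?_, ?_⟩
  · by_contra hlt
    push Not at hlt
    nlinarith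
  · have h5 : ((⟨-(18 * q * σ), y + q⟩ : ℂ) * conj e).re = -(18 * q) * (σ * e.re) + (y + q) * e.im := by
      simp only [Complex.mul_re, Complex.conj_re, Complex.conj_im]
      ring
    rw [h5]
    have h6 : e.im ≤ 1 := by
      have := sq_e P
      nlinarith [sq_nonneg e.re]
    have h7 := P.hσe
    have h8 : (y + q) * e.im ≤ y + q := by nlinarith
    have h9 : 0 ≤ 18 * q * (σ * e.re) := by positivity
    nlinarith

theorem norm_Ha (P : Par e σ d q y) {p : ℂ} (hp : p ∈ Ha σ q y) : ‖p‖ ≤ 20 * q := by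
  have hq := P.hq
  have hy1 := P.hy1
  have hy2 := P.hy2
  obtain ⟨t, ⟨ht0, ht1, hre, him⟩ | h⟩ := Ha_cases hp
  swap
  · linarith
  have hσσ := sq_σ P
  have hn := norm_sq p
  rw [hre, him] at hn
  have h0 := norm_nonneg p
  have h1 : (-(t * σ)) ^ 2 = t ^ 2 := by linear_combination t ^ 2 * hσσ
  rw [h1] at hn
  by_contra hlt
  push Not at hlt
  nlinarith

/-- The points of the circle far from the boundary point are in the ring part. -/
theorem mem_Sa (P : Par e σ d q y) (hm : 0 < m) (hmd : m ≤ d) {p : ℂ} (hp : ‖p‖ = d - m / 8)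
    (hpe : m / 2 ≤ dist p (d * e)) : p ∈ Sa e d q m := by
  have hq := P.hq
  have hd := P.hd
  have hd0 : 0 < d := by linarith
  refine ⟨by rw [hp]; linarith, hp.le, ?_⟩
  have e1 : dist p (d * e) ^ 2 = ‖p‖ ^ 2 + d ^ 2 - 2 * d * (p * conj e).re := by
    rw [dist_sq, norm_sq p]
    simp only [Complex.ofReal_re, Complex.ofReal_im, Complex.mul_re, Complex.mul_im,
      Complex.conj_re, Complex.conj_im]
    have := sq_e P
    linear_combination d ^ 2 * this
  have e2 : (m / 2) ^ 2 ≤ dist p (d * e) ^ 2 := pow_le_pow_left₀ (by positivity) hpe 2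
  rw [e1, hp] at e2
  rw [hp]
  have h1 : 2 * d * (p * conj e).re ≤ 2 * d * ((1 - m ^ 2 / (16 * d ^ 2)) * (d - m / 8)) := by
    have h2 : m ^ 2 / (16 * d ^ 2) * (d * (d - m / 8)) ≤ m ^ 2 / 16 := by
      rw [div_mul_eq_mul_div, div_le_iff₀ (by positivity)]
      have : m ^ 2 / 16 * (16 * d ^ 2) = m ^ 2 * d ^ 2 := by ring
      rw [this]
      apply mul_le_mul_of_nonneg_left _ (by positivity)
      nlinarith
    nlinarith
  exact le_of_mul_le_mul_left h1 (by positivity)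

end Vale.Agent.P167.H446.Cut
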