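import Vale.Agent.P167.E6.Defs

/-!
# P167, block E2-GEO: the domain of the corner curve

`Om δ S` is the open `3 δ / 8`-neighbourhood (in the maximum norm) of the closed domain `region δ S`.
-/

namespace Vale.Agent.P167.H446

/-- The domain of the corner curve: the closed domain, pushed outward by `3 δ / 8`. -/
def Om (δ : ℝ) (S : Finset (ℤ × ℤ)) : Set ℂ :=
  {z | ∃ w ∈ E6.region δ S, |z.re - w.re| < 3 / 8 * δ ∧ |z.im - w.im| < 3 / 8 * δ}

end Vale.Agent.P167.H446
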