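import Vale.Agent.P167.H756.Small

/-!
# P167, block POS: positions in the coordinate of the tip

The position of a point `ψ z` of `D_t = ψ (loewnerDomain W t)` is `w = Zf W z t`, a point of the upper
half-plane (tip = `0`, target = `∞`). `Nr κ I w`: `w` is within `κ` of the set `I` of real points, in
the chart `mb 1 I` of the disc.
-/

set_option autoImplicit false

open Set Topology Metric Filter

namespace Vale.Agent.P167.H446

open Vale.Agent.P153.R2.R1 Vale.Agent.P153.R2.OBSV Vale.Agent.P167.H174 Vale.Agent.P167.H756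
open Vale.Agent.P153.R2.L1 (HH)
open Vale.Agent.P164 (loewnerDomain Zf)
open Vale.Agent.P167.H947 (flow)

/-- The point `w` of the upper half-plane is within `κ` of the set `I` of real points, in the chart of
the disc. -/
def Nr (κ : ℝ) (I : Set ℝ) (w : ℂ) : Prop :=
  ∃ x ∈ I, dist (mb 1 Complex.I w) (mb 1 Complex.I (x : ℂ)) ≤ κ

/-- The position at time `t` of the real point `X`. -/
noncomputable def uX (W : ℝ → ℝ) (t X : ℝ) : ℝ := (flow W t X - W t).re

theorem Nr.mono {κ κ' : ℝ} {I J : Set ℝ} {w : ℂ} (h : Nr κ I w) (hκ : κ ≤ κ') (hI : I ⊆ J) :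
    Nr κ' J w := by
  obtain ⟨x, hx, hd⟩ := h
  exact ⟨x, hI hx, hd.trans hκ⟩

/-- Change of the point. -/
theorem Nr.trans {κ κ' : ℝ} {I : Set ℝ} {w w' : ℂ} (h : Nr κ I w)
    (hd : dist (mb 1 Complex.I w') (mb 1 Complex.I w) ≤ κ') : Nr (κ' + κ) I w' := by
  obtain ⟨x, hx, hx2⟩ := h
  exact ⟨x, hx, (dist_triangle _ _ _).trans (add_le_add hd hx2)⟩

end Vale.Agent.P167.H446
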