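import Vale.Agent.P167.H446.PosX
import Vale.Agent.P167.H756.Stg
import Vale.Agent.P167.H531.PosDefs
import Vale.Agent.P167.CL.Geo2

/-!
# P167, block POS: the plane of the faces

* `Tm`: the affine map to the plane of the faces, `CL.Psi δ ℓ N v₀ ψ z = Tm δ ℓ N v₀ (ψ z)`;
* `Pos.small`: positions along small connected sets;
* `exit_two`: the part of a path before it leaves an open set.
-/

set_option autoImplicit false

open Set Topology Metric MeasureTheory Filter Bornology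
open scoped ENNReal Real ComplexConjugate

namespace Vale.Agent.P167.H446

open Vale.Agent.P153.R2.R1 Vale.Agent.P167.H756
open Vale.Agent.P153.R2.L1 (HH)
open Vale.Agent.P164 (loewnerDomain Zf)
open Vale.Agent.P167.H947 (flow flow_gf)
open Vale.Agent.P167.E6
open Vale.Agent.P167.H161 (zp)
open Vale.Agent.P167.H450 (sqr reg)
open Vale.Agent.P167.H531 (Pos Dsq PosP)

/-! ### Positions along small connected sets -/

theorem pos_iff {ψ : ℂ → ℂ} {W : ℝ → ℝ} {t ε : ℝ} {I : Set ℝ} {z : ℂ} :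
    Pos ψ W t ε I z ↔ ∃ w ∈ loewnerDomain W t, ψ w = z ∧ Nr ε I (Zf W w t) := Iff.rfl

theorem pos_mono {ψ : ℂ → ℂ} {W : ℝ → ℝ} {t ε ε' : ℝ} {I I' : Set ℝ} {z : ℂ}
    (h : Pos ψ W t ε I z) (hε : ε ≤ ε') (hI : I ⊆ I') : Pos ψ W t ε' I' z := by
  obtain ⟨w, hw, e, hn⟩ := pos_iff.1 h
  exact ⟨w, hw, e, hn.mono hε hI⟩

/-- Positions along small connected sets. -/
theorem pos_small {T R Rd cd Y ε : ℝ} (hRd : 0 < Rd) (hcd : 0 < cd) (hY0 : 0 < Y)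
    (hY : 8 * R ≤ Y) (hY2 : 64 * T ≤ Y ^ 2) (hε : 0 < ε) :
    ∃ η > 0, ∀ ψ : ℂ → ℂ, HConf Rd cd Y ψ → ∀ (W : ℝ → ℝ) (t : ℝ), Drv T R W t →
      ∀ C ⊆ ψ '' loewnerDomain W t, IsPreconnected C → (∀ x ∈ C, ∀ y ∈ C, dist x y ≤ η) →
      ∀ z ∈ C, ∀ z' ∈ C, ∀ (κ : ℝ) (I : Set ℝ), Pos ψ W t κ I z → Pos ψ W t (ε + κ) I z' := by
  obtain ⟨η, hη, h⟩ := small_dom (T := T) (R := R) hRd hcd hY0 hY hY2 hε
  refine ⟨η, hη, fun ψ hψ W t H C hC hCc hsm z hz z' hz' κ I hp => ?_⟩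
  obtain ⟨w, hw, e, hn⟩ := pos_iff.1 hp
  obtain ⟨w', hw', e'⟩ := hC hz'
  exact ⟨w', hw', e', hn.trans (h ψ hψ W t H C hC hCc hsm w' hw' w hw (by rwa [e']) (by rwa [e]))⟩

/-! ### The affine map -/

/-- The affine map to the plane of the faces. -/
noncomputable def Tm (δ ℓ : ℝ) (N : ℕ) (v₀ : ℤ × ℤ) (z : ℂ) : ℂ :=
  ((ℓ / (N * δ) : ℝ) : ℂ) * ((1 + Complex.I) * z - δ * pt v₀)

/-- The inverse map. -/
noncomputable def Ti (δ ℓ : ℝ) (N : ℕ) (v₀ : ℤ × ℤ) (z : ℂ) : ℂ :=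
  (((N * δ / ℓ : ℝ) : ℂ) * z + δ * pt v₀) / (1 + Complex.I)

theorem psi_eq (δ ℓ : ℝ) (N : ℕ) (v₀ : ℤ × ℤ) (ψ : ℂ → ℂ) (z : ℂ) :
    CL.Psi δ ℓ N v₀ ψ z = Tm δ ℓ N v₀ (ψ z) := rfl

theorem one_add_I_ne : (1 + Complex.I) ≠ 0 := by
  intro h
  have := congrArg Complex.re h
  simp at this

section Tm

variable {δ ℓ : ℝ} {N : ℕ} {v₀ : ℤ × ℤ}

theorem Ti_Tm (hδ : 0 < δ) (hℓ : 0 < ℓ) (hN : 0 < N) (z : ℂ) :
    Ti δ ℓ N v₀ (Tm δ ℓ N v₀ z) = z := by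
  have hNr : (0 : ℝ) < N := by exact_mod_cast hN
  have h1 : (δ : ℂ) ≠ 0 := by exact_mod_cast hδ.ne'
  have h2 : (ℓ : ℂ) ≠ 0 := by exact_mod_cast hℓ.ne'
  have h3 : (N : ℂ) ≠ 0 := by exact_mod_cast hN.ne'
  have h4 := one_add_I_ne
  rw [Ti, Tm, div_eq_iff h4]
  push_cast
  field_simp
  ring

theorem Tm_Ti (hδ : 0 < δ) (hℓ : 0 < ℓ) (hN : 0 < N) (z : ℂ) :
    Tm δ ℓ N v₀ (Ti δ ℓ N v₀ z) = z := by
  have h1 : (δ : ℂ) ≠ 0 := by exact_mod_cast hδ.ne'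
  have h2 : (ℓ : ℂ) ≠ 0 := by exact_mod_cast hℓ.ne'
  have h3 : (N : ℂ) ≠ 0 := by exact_mod_cast hN.ne'
  rw [Ti, Tm, mul_div_cancel₀ _ one_add_I_ne]
  push_cast
  field_simp
  ring

theorem continuous_Ti (δ ℓ : ℝ) (N : ℕ) (v₀ : ℤ × ℤ) : Continuous (Ti δ ℓ N v₀) :=
  ((continuous_const.mul continuous_id).add continuous_const).div_const _

theorem Tm_zp (hδ : 0 < δ) (hN : 0 < N) (s : ℤ × ℤ) :
    Tm δ ℓ N v₀ (zp δ s) = ((ℓ / N : ℝ) : ℂ) * pt (s - v₀) := by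
  have hNr : (0 : ℝ) < N := by exact_mod_cast hN
  have e : (1 + Complex.I) * zp δ s = δ * pt s := by
    apply Complex.ext
    · simp [zp, pt]; ring
    · simp [zp, pt]; ring
  have h1 : (δ : ℂ) ≠ 0 := by exact_mod_cast hδ.ne'
  have h3 : (N : ℂ) ≠ 0 := by exact_mod_cast hN.ne'
  have e2 : pt (s - v₀) = pt s - pt v₀ := by
    apply Complex.ext <;> simp [pt]
  rw [Tm, e, e2]
  push_cast
  field_simp

theorem re_Tm (δ ℓ : ℝ) (N : ℕ) (v₀ : ℤ × ℤ) (z : ℂ) :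
    (Tm δ ℓ N v₀ z).re = ℓ / (N * δ) * (z.re - z.im - δ * v₀.1) := by
  rw [Tm, Complex.re_ofReal_mul]
  simp [pt]

theorem im_Tm (δ ℓ : ℝ) (N : ℕ) (v₀ : ℤ × ℤ) (z : ℂ) :
    (Tm δ ℓ N v₀ z).im = ℓ / (N * δ) * (z.re + z.im - δ * v₀.2) := by
  rw [Tm, Complex.im_ofReal_mul]
  simp [pt]
  ring_nf
  simp

/-- The diamonds are the lattice squares. -/
theorem mem_Dsq (hδ : 0 < δ) (hℓ : 0 < ℓ) (hN : 0 < N) {v : ℤ × ℤ} {z : ℂ} :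
    z ∈ Dsq δ v ↔ Tm δ ℓ N v₀ z ∈ sqr (ℓ / N) (v - v₀) := by
  have hNr : (0 : ℝ) < N := by exact_mod_cast hN
  have hc : 0 < ℓ / (N * δ) := by positivity
  have hcd : ℓ / (N * δ) * δ = ℓ / N := by field_simp
  have key : ∀ a b : ℝ, ℓ / N * a ≤ ℓ / (N * δ) * b ↔ δ * a ≤ b := by
    intro a b
    rw [← hcd, mul_assoc]
    exact mul_le_mul_iff_right₀ hc
  have key' : ∀ a b : ℝ, ℓ / (N * δ) * b ≤ ℓ / N * a ↔ b ≤ δ * a := by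
    intro a b
    rw [← hcd, mul_assoc]
    exact mul_le_mul_iff_right₀ hc
  simp only [sqr, mem_ofPred_eq, re_Tm, im_Tm, key, key', Dsq, zp, Prod.fst_sub, Prod.snd_sub,
    Int.cast_sub, Int.cast_add]
  constructor
  · intro h
    have h1 := le_abs_self (z.re - δ * (v.1 + v.2) / 2 - δ / 2)
    have h2 := neg_abs_le (z.re - δ * (v.1 + v.2) / 2 - δ / 2)
    have h3 := le_abs_self (z.im - δ * (v.2 - v.1) / 2)
    have h4 := neg_abs_le (z.im - δ * (v.2 - v.1) / 2)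
    refine ⟨?_, ?_, ?_, ?_⟩ <;> linarith
  · rintro ⟨h1, h2, h3, h4⟩
    rcases abs_cases (z.re - δ * (v.1 + v.2) / 2 - δ / 2) with ⟨e, -⟩ | ⟨e, -⟩ <;>
    rcases abs_cases (z.im - δ * (v.2 - v.1) / 2) with ⟨e', -⟩ | ⟨e', -⟩ <;>
    · rw [e, e']; linarith

theorem norm_one_add_I_sq : ‖(1 + Complex.I)‖ ^ 2 = 2 := by
  rw [← Complex.normSq_eq_norm_sq, Complex.normSq_apply]
  norm_num

theorem dist_Tm (hδ : 0 < δ) (hℓ : 0 < ℓ) (hN : 0 < N) (z w : ℂ) :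
    dist (Tm δ ℓ N v₀ z) (Tm δ ℓ N v₀ w) = ℓ / (N * δ) * (‖(1 + Complex.I)‖ * dist z w) := by
  have hNr : (0 : ℝ) < N := by exact_mod_cast hN
  have hc : 0 < ℓ / (N * δ) := by positivity
  have e : Tm δ ℓ N v₀ z - Tm δ ℓ N v₀ w =
      ((ℓ / (N * δ) : ℝ) : ℂ) * ((1 + Complex.I) * (z - w)) := by
    rw [Tm, Tm]; ring
  rw [dist_eq_norm, e, norm_mul, norm_mul, Complex.norm_real, Real.norm_of_nonneg hc.le,
    dist_eq_norm]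

theorem dist_Tm_le (hδ : 0 < δ) (hℓ : 0 < ℓ) (hN : 0 < N) (z w : ℂ) :
    dist (Tm δ ℓ N v₀ z) (Tm δ ℓ N v₀ w) ≤ 17 / 12 * (ℓ / (N * δ)) * dist z w := by
  rw [dist_Tm hδ hℓ hN]
  have hNr : (0 : ℝ) < N := by exact_mod_cast hN
  have hc : 0 < ℓ / (N * δ) := by positivity
  have h1 : ‖(1 + Complex.I)‖ ≤ 17 / 12 := by
    have h0 := norm_nonneg (1 + Complex.I)
    have h2 := norm_one_add_I_sq
    nlinarith
  have h3 := mul_le_mul_of_nonneg_right h1 (dist_nonneg (x := z) (y := w))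
  have h4 := mul_le_mul_of_nonneg_left h3 hc.le
  linarith

theorem le_dist_Tm (hδ : 0 < δ) (hℓ : 0 < ℓ) (hN : 0 < N) (z w : ℂ) :
    ℓ / (N * δ) * dist z w ≤ dist (Tm δ ℓ N v₀ z) (Tm δ ℓ N v₀ w) := by
  rw [dist_Tm hδ hℓ hN]
  have hNr : (0 : ℝ) < N := by exact_mod_cast hN
  have hc : 0 < ℓ / (N * δ) := by positivity
  have h1 : 1 ≤ ‖(1 + Complex.I)‖ := by
    have h0 := norm_nonneg (1 + Complex.I)
    have h2 := norm_one_add_I_sq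
    nlinarith
  have h3 := mul_le_mul_of_nonneg_right h1 (dist_nonneg (x := z) (y := w))
  have h4 := mul_le_mul_of_nonneg_left h3 hc.le
  linarith

end Tm

/-! ### The first exit -/

theorem exit_one {D : Set ℂ} (hD : IsOpen D) {f : ℝ → ℂ} (hf : ContinuousOn f (Icc 0 1))
    (h0 : f 0 ∈ D) (h1 : f 1 ∉ D) : ∃ C ⊆ D ∩ f '' Icc 0 1, IsPreconnected C ∧ f 0 ∈ C ∧
      ∃ e ∈ closure C, e ∉ D := by
  have hcl : IsCompact ({t | t ∈ Icc (0 : ℝ) 1} ∩ f ⁻¹' Dᶜ) := by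
    apply IsCompact.of_isClosed_subset isCompact_Icc _ inter_subset_left
    exact hf.preimage_isClosed_of_isClosed isClosed_Icc hD.isClosed_compl
  obtain ⟨s, ⟨hs, hsD⟩, hmin⟩ := hcl.exists_isLeast ⟨1, ⟨zero_le_one, le_rfl⟩, h1⟩
  have hs' : s ∈ Icc (0 : ℝ) 1 := hs
  have hs0 : 0 < s := by
    rcases hs'.1.eq_or_lt with h | h
    · rw [← h] at hsD
      exact absurd h0 hsD
    · exact h
  have hin : ∀ t ∈ Ico 0 s, f t ∈ D := by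
    intro t ht
    by_contra hcon
    exact absurd (hmin ⟨⟨ht.1, ht.2.le.trans hs'.2⟩, hcon⟩) (not_le.2 ht.2)
  refine ⟨f '' Ico 0 s, ?_, ?_, ⟨0, ⟨le_rfl, hs0⟩, rfl⟩, f s, ?_, hsD⟩
  · rintro _ ⟨t, ht, rfl⟩
    exact ⟨hin t ht, t, ⟨ht.1, ht.2.le.trans hs'.2⟩, rfl⟩
  · exact isPreconnected_Ico.image f (hf.mono fun t ht => ⟨ht.1, ht.2.le.trans hs'.2⟩)
  · have h2 : s ∈ closure (Ico 0 s) := by
      rw [closure_Ico hs0.ne]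
      exact ⟨hs0.le, le_rfl⟩
    exact ((hf s hs').mono fun t ht => ⟨ht.1, ht.2.le.trans hs'.2⟩).mem_closure_image h2

theorem exit_two {D : Set ℂ} (hD : IsOpen D) {f g : ℝ → ℂ} (hf : ContinuousOn f (Icc 0 1))
    (hg : ContinuousOn g (Icc 0 1)) (h0 : f 0 ∈ D) (hfg : f 1 = g 0) (h1 : g 1 ∉ D) :
    ∃ C ⊆ D ∩ (f '' Icc 0 1 ∪ g '' Icc 0 1), IsPreconnected C ∧ f 0 ∈ C ∧
      ∃ e ∈ closure C, e ∉ D := by
  by_cases h : ∀ t ∈ Icc (0 : ℝ) 1, f t ∈ D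
  · obtain ⟨C, hC, hCc, hC0, e, he, heD⟩ := exit_one hD hg (by
      rw [← hfg]; exact h 1 ⟨zero_le_one, le_rfl⟩) h1
    refine ⟨f '' Icc 0 1 ∪ C, ?_, ?_, Or.inl ⟨0, ⟨le_rfl, zero_le_one⟩, rfl⟩, e,
      closure_mono subset_union_right he, heD⟩
    · rintro _ (⟨t, ht, rfl⟩ | hz)
      · exact ⟨h t ht, Or.inl ⟨t, ht, rfl⟩⟩
      · exact ⟨(hC hz).1, Or.inr (hC hz).2⟩
    · exact IsPreconnected.union (f 1) ⟨1, ⟨zero_le_one, le_rfl⟩, rfl⟩ (by rw [hfg]; exact hC0)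
        (isPreconnected_Icc.image f hf) hCc
  · push Not at h
    obtain ⟨b, hb, hbD⟩ := h
    have hsub : ∀ t ∈ Icc (0 : ℝ) 1, b * t ∈ Icc (0 : ℝ) 1 := fun t ht =>
      ⟨mul_nonneg hb.1 ht.1, by nlinarith [hb.1, hb.2, ht.1, ht.2]⟩
    obtain ⟨C, hC, hCc, hC0, e, he, heD⟩ := exit_one hD (f := fun t => f (b * t))
      (hf.comp (by fun_prop) hsub) (by simpa using h0) (by simpa using hbD)
    refine ⟨C, ?_, hCc, by simpa using hC0, e, he, heD⟩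
    intro z hz
    obtain ⟨g1, t, ht, rfl⟩ := hC hz
    exact ⟨g1, Or.inl ⟨b * t, hsub t ht, rfl⟩⟩

end Vale.Agent.P167.H446
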