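import Vale.Agent.P167.H446.PosQ1

/-!
# P167, block POS: margin and collar of the polygon of a stage

`v₀`, `u'`: the vertex `v₀ + u'` of the small lattice is the base of the polygon (`u' = 0` or a
small shift).
-/

set_option autoImplicit false

open Set Topology Metric MeasureTheory Filter Bornology
open scoped ENNReal Real ComplexConjugate

namespace Vale.Agent.P167.H446

open Vale.Agent.P153.R2.R1 Vale.Agent.P167.H756
open Vale.Agent.P153.R2.L1 (HH)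
open Vale.Agent.P164 (loewnerDomain Zf)
open Vale.Agent.P167.H947 (flow flow_gf)
open Vale.Agent.P167.E6 Vale.Agent.P167.E2
open Vale.Agent.P167.H161 (zp)
open Vale.Agent.P167.H450 (sqr reg)
open Vale.Agent.P167.H531 (Pos Dsq PosP)

/-- The enlargement has the same domain. -/
theorem D6_enl {S : Finset (ℤ × ℤ)} {ℓ : ℝ} (hℓ : 0 < ℓ) {N : ℕ} (hN : 0 < N) (v : ℤ × ℤ) :
    D6 (ℓ / N) (CL.sE S N v) = (fun z => z + ((ℓ / N : ℝ) : ℂ) * pt v) '' D6 ℓ S := by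
  have hNr : (0 : ℝ) < N := by exact_mod_cast hN
  have h := CL.D6_sq (P := CL.mkShp (m := 1) (fun _ => 0) S 0 0 0) (δ := ℓ / N) (by positivity) hN v
  have e : (N : ℝ) * (ℓ / N) = ℓ := by field_simp
  rw [CL.sq_mkShp hN, e] at h
  exact h

theorem norm_pt_le {u : ℤ × ℤ} (h1 : |u.1| ≤ 1) (h2 : |u.2| ≤ 1) : ‖pt u‖ ≤ 17 / 12 := by
  have e : ‖pt u‖ ^ 2 = (u.1 : ℝ) ^ 2 + (u.2 : ℝ) ^ 2 := by
    rw [← Complex.normSq_eq_norm_sq, Complex.normSq_apply]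
    simp [pt]
    ring
  have h1' : (u.1 : ℝ) ^ 2 ≤ 1 := by
    rw [sq_le_one_iff_abs_le_one]; exact_mod_cast h1
  have h2' : (u.2 : ℝ) ^ 2 ≤ 1 := by
    rw [sq_le_one_iff_abs_le_one]; exact_mod_cast h2
  have h0 := norm_nonneg (pt u)
  nlinarith

theorem norm_shift {ℓ : ℝ} (hℓ : 0 < ℓ) {N : ℕ} (hN : 0 < N) {u : ℤ × ℤ} (h1 : |u.1| ≤ 1)
    (h2 : |u.2| ≤ 1) : ‖((ℓ / N : ℝ) : ℂ) * pt u‖ ≤ 17 / 12 * (ℓ / N) := by
  have hNr : (0 : ℝ) < N := by exact_mod_cast hN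
  rw [norm_mul, Complex.norm_real, Real.norm_of_nonneg (by positivity), mul_comm]
  exact mul_le_mul_of_nonneg_right (norm_pt_le h1 h2) (by positivity)

/-- The small square in its face. -/
theorem sqr_fce {ℓ : ℝ} (hℓ : 0 < ℓ) {N : ℕ} (hN : 0 < N) {v v₀ u' : ℤ × ℤ} {z : ℂ}
    (hz : z ∈ sqr (ℓ / N) (v - v₀)) :
    z - ((ℓ / N : ℝ) : ℂ) * pt u' ∈ sqr ℓ (CL.fce N (v₀ + u') v) := by
  have hNr : (0 : ℝ) < N := by exact_mod_cast hN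
  have hNz : (0 : ℤ) < N := by exact_mod_cast hN
  have e1 : (z - ((ℓ / N : ℝ) : ℂ) * pt u').re = z.re - ℓ / N * u'.1 := by
    rw [Complex.sub_re, Complex.re_ofReal_mul]; rfl
  have e2 : (z - ((ℓ / N : ℝ) : ℂ) * pt u').im = z.im - ℓ / N * u'.2 := by
    rw [Complex.sub_im, Complex.im_ofReal_mul]; rfl
  obtain ⟨h1, h2, h3, h4⟩ := hz
  simp only [Prod.fst_sub, Prod.snd_sub, Int.cast_sub] at h1 h2 h3 h4
  have key : ∀ a : ℤ, ℓ * ((a / (N : ℤ) : ℤ) : ℝ) ≤ ℓ / N * a ∧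
      ℓ / N * (a + 1) ≤ ℓ * (((a / (N : ℤ) : ℤ) : ℝ) + 1) := by
    intro a
    have g1 : (N : ℤ) * (a / N) ≤ a := Int.mul_ediv_self_le hNz.ne'
    have g2 : a + 1 ≤ N * (a / N + 1) := by
      have := Int.lt_mul_ediv_self_add (x := a) hNz
      linarith
    have g1' : (N : ℝ) * ((a / (N : ℤ) : ℤ) : ℝ) ≤ a := by exact_mod_cast g1
    have g2' : (a : ℝ) + 1 ≤ N * (((a / (N : ℤ) : ℤ) : ℝ) + 1) := by exact_mod_cast g2
    have hc : 0 < ℓ / N := by positivity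
    have e : ∀ x : ℝ, ℓ * x = ℓ / N * (N * x) := fun x => by field_simp
    rw [e, e]
    exact ⟨mul_le_mul_of_nonneg_left g1' hc.le, mul_le_mul_of_nonneg_left g2' hc.le⟩
  obtain ⟨k1, k2⟩ := key (v.1 - (v₀ + u').1)
  obtain ⟨k3, k4⟩ := key (v.2 - (v₀ + u').2)
  simp only [Prod.fst_add, Prod.snd_add, Int.cast_sub, Int.cast_add] at k1 k2 k3 k4
  have hc : 0 < ℓ / N := by positivity
  refine ⟨?_, ?_, ?_, ?_⟩
  · rw [e1]; simp only [CL.fce, Prod.fst_add]; nlinarith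
  · rw [e1]; simp only [CL.fce, Prod.fst_add]; nlinarith
  · rw [e2]; simp only [CL.fce, Prod.snd_add]; nlinarith
  · rw [e2]; simp only [CL.fce, Prod.snd_add]; nlinarith

section

variable {s : CL.Stg} {T R Rd cd δ : ℝ} {N : ℕ} {v₀ u' : ℤ × ℤ} {ψ : ℂ → ℂ}

theorem mem_D_iff (H : s.Ok T R Rd cd) (hδ : 0 < δ) (hN : 0 < N)
    (hψ : s.ψ = CL.Psi δ s.ℓ N v₀ ψ) {z : ℂ} :
    Tm δ s.ℓ N v₀ z ∈ s.D ↔ z ∈ ψ '' loewnerDomain s.W s.t := by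
  rw [SG.D_eq H, hψ]
  constructor
  · rintro ⟨w, hw, e⟩
    rw [psi_eq] at e
    refine ⟨w, hw, ?_⟩
    rw [← Ti_Tm (v₀ := v₀) hδ (CL.Stg.Ok.hℓ H) hN z, ← e, Ti_Tm hδ (CL.Stg.Ok.hℓ H) hN]
  · rintro ⟨w, hw, rfl⟩
    exact ⟨w, hw, rfl⟩

/-- Positions in the two planes. -/
theorem pos_Tm (H : s.Ok T R Rd cd) (hδ : 0 < δ) (hN : 0 < N)
    (hψ : s.ψ = CL.Psi δ s.ℓ N v₀ ψ) {κ : ℝ} {I : Set ℝ} {z : ℂ} :
    Pos s.ψ s.W s.t κ I (Tm δ s.ℓ N v₀ z) ↔ Pos ψ s.W s.t κ I z := by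
  rw [pos_iff, pos_iff]
  constructor
  · rintro ⟨w, hw, e, h⟩
    rw [hψ, psi_eq] at e
    refine ⟨w, hw, ?_, h⟩
    rw [← Ti_Tm (v₀ := v₀) hδ (CL.Stg.Ok.hℓ H) hN z, ← e, Ti_Tm hδ (CL.Stg.Ok.hℓ H) hN]
  · rintro ⟨w, hw, rfl, h⟩
    exact ⟨w, hw, by rw [hψ]; rfl, h⟩

theorem isOpen_D (H : s.Ok T R Rd cd) : IsOpen s.D := by
  rw [SG.D_eq H]
  have hconf : Conf (FD s.ψ s.W s.t) (FD s.ψ s.W s.t '' ball 0 1) := by
    refine ⟨?_, ?_, rfl⟩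
    · exact (Ps_diff H.drv H.conf.diff).comp (fun w hw => (imb_differentiableAt
        (ball_ne_one hw)).differentiableWithinAt) fun w hw =>
        imb_im_pos norm_one (by simp) (mem_ball_zero_iff.1 hw)
    · intro w hw w' hw' e
      have h3 := Ps_inj H.drv H.conf.inj (imb_im_pos norm_one (by simp) (mem_ball_zero_iff.1 hw))
        (imb_im_pos norm_one (by simp) (mem_ball_zero_iff.1 hw')) e
      have h4 := congrArg (mb 1 Complex.I) h3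
      rwa [(mb_imb norm_one (by simp) (ball_ne_one hw)).2,
        (mb_imb norm_one (by simp) (ball_ne_one hw')).2] at h4
  rw [← FD_img H.drv]
  exact hconf.isOpen

/-- **Margin.** -/
theorem mar_stg (H : s.Ok T R Rd cd) (hδ : 0 < δ) (hN : 0 < N)
    (hψ : s.ψ = CL.Psi δ s.ℓ N v₀ ψ) (hm : 13 * s.ℓ ≤ N * s.ρm) (hu1 : |u'.1| ≤ 1)
    (hu2 : |u'.2| ≤ 1) {v : ℤ × ℤ} (hv : v ∈ CL.sE s.SE N (v₀ + u')) {z : ℂ} (hz : z ∈ Dsq δ v) :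
    ball z (8 * δ) ⊆ ψ '' loewnerDomain s.W s.t := by
  have hℓ := CL.Stg.Ok.hℓ H
  have hNr : (0 : ℝ) < N := by exact_mod_cast hN
  intro w hw
  rw [mem_ball] at hw
  rw [← mem_D_iff H hδ hN hψ]
  have h1 := (mem_Dsq (v₀ := v₀) hδ hℓ hN).1 hz
  have h2 := sqr_fce (u' := u') hℓ hN h1
  have h3 : CL.fce N (v₀ + u') v ∈ s.SE := (CL.mem_sE hN).1 hv
  refine CL.Stg.marginE H ⟨_, Finset.mem_coe.2 h3, h2⟩ ?_
  rw [mem_ball]
  have h4 := dist_Tm_le (v₀ := v₀) hδ hℓ hN w z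
  have h5 := norm_shift hℓ hN hu1 hu2
  have h6 : dist (Tm δ s.ℓ N v₀ z) (Tm δ s.ℓ N v₀ z - ((s.ℓ / N : ℝ) : ℂ) * pt u') ≤
      17 / 12 * (s.ℓ / N) := by
    rw [dist_eq_norm]
    simpa using h5
  have h7 := dist_triangle (Tm δ s.ℓ N v₀ w) (Tm δ s.ℓ N v₀ z)
    (Tm δ s.ℓ N v₀ z - ((s.ℓ / N : ℝ) : ℂ) * pt u')
  have h8 : 17 / 12 * (s.ℓ / (N * δ)) * dist w z ≤ 17 / 12 * (s.ℓ / (N * δ)) * (8 * δ) :=
    mul_le_mul_of_nonneg_left hw.le (by positivity)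
  have h9 : 17 / 12 * (s.ℓ / (N * δ)) * (8 * δ) = 17 / 12 * 8 * (s.ℓ / N) := by field_simp
  have h10 : 13 * (s.ℓ / N) ≤ s.ρm := by
    rw [mul_div_assoc', div_le_iff₀ hNr]
    linarith
  have h11 : 0 < s.ℓ / N := by positivity
  linarith

/-- Outside of the polygon. -/
theorem out_stg (H : s.Ok T R Rd cd) (hδ : 0 < δ) (hN : 0 < N) {z : ℂ}
    (hz : Tm δ s.ℓ N v₀ z - ((s.ℓ / N : ℝ) : ℂ) * pt u' ∉ D6 s.ℓ s.SE) :
    ∃ v, v ∉ CL.sE s.SE N (v₀ + u') ∧ z ∈ Dsq δ v := by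
  have hℓ := CL.Stg.Ok.hℓ H
  have hNr : (0 : ℝ) < N := by exact_mod_cast hN
  have h1 : Tm δ s.ℓ N v₀ z ∉ D6 (s.ℓ / N) (CL.sE s.SE N u') := by
    rw [D6_enl hℓ hN]
    rintro ⟨w, hw, e⟩
    apply hz
    rw [← e]
    simpa using hw
  have h2 : ¬ ∀ F, Tm δ s.ℓ N v₀ z ∈ sqr (s.ℓ / N) F → F ∈ (CL.sE s.SE N u' : Set (ℤ × ℤ)) :=
    fun h => h1 ((H450.mem_interior_iff (by positivity)).2 h)
  push Not at h2
  obtain ⟨F, hF, hFn⟩ := h2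
  refine ⟨F + v₀, fun h => hFn ?_, (mem_Dsq (v₀ := v₀) hδ hℓ hN).2 (by simpa using hF)⟩
  rw [CL.mem_sE hN] at h
  rw [Finset.mem_coe, CL.mem_sE hN]
  have e : CL.fce N (v₀ + u') (F + v₀) = CL.fce N u' F := by
    simp only [CL.fce, Prod.fst_add, Prod.snd_add]
    congr 2 <;> ring
  rwa [← e]

/-- The sites of the polygon, untranslated, are on the boundary of the polygon. -/
theorem site_frontier (H : s.Ok T R Rd cd) (hN : 0 < N) {ip : ZMod s.mE} (i : ZMod (N * s.mE)) :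
    ((s.ℓ / N : ℝ) : ℂ) * pt (CL.qE s.pE ip N 0 i) ∈ frontier (D6 s.ℓ s.SE) := by
  have hℓ := CL.Stg.Ok.hℓ H
  have hNr : (0 : ℝ) < N := by exact_mod_cast hN
  have h1 := frontier_D6 (δ := s.ℓ / N) (by positivity) (CL.qE_poly (ip := ip) (v₀ := 0) H.polyE hN)
    (CL.qE_encl (ip := ip) (v₀ := 0) H.polyE H.enclE hN)
  have h2 : D6 (s.ℓ / N) (CL.sE s.SE N 0) = D6 s.ℓ s.SE := by
    have e : pt (0 : ℤ × ℤ) = 0 := by apply Complex.ext <;> simp [pt]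
    rw [D6_enl hℓ hN, e, mul_zero]
    simp
  rw [h2] at h1
  rw [h1]
  have hm : 0 < s.mE := by have := H.polyE.1; omega
  have : NeZero (N * s.mE) := ⟨by positivity⟩
  refine ⟨(i.val : ℕ), ?_⟩
  have h := pl_int (PV6 (CL.qE s.pE ip N 0) (s.ℓ / N)) ((i.val : ℕ) : ℤ)
  rw [PV6] at h
  push_cast at h
  rw [PF6, h]
  rw [ZMod.natCast_zmod_val]
  push_cast
  rfl

theorem frontier_sub_reg (hℓ : 0 < s.ℓ) : frontier (D6 s.ℓ s.SE) ⊆ reg s.ℓ (s.SE : Set (ℤ × ℤ)) := by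
  intro y hy
  have h1 : y ∈ closure (interior (reg s.ℓ (s.SE : Set (ℤ × ℤ)))) := frontier_subset_closure hy
  have h2 := closure_mono interior_subset h1
  rwa [(H450.isClosed_reg hℓ _).closure_eq] at h2

theorem qE_add (p : ZMod s.mE → ℤ × ℤ) (ip : ZMod s.mE) (N : ℕ) (v : ℤ × ℤ) (i : ZMod (N * s.mE)) :
    CL.qE p ip N v i = CL.qE p ip N 0 i + v := by
  simp [CL.qE]

/-- The sites in the plane of the faces. -/
theorem Tm_site (hδ : 0 < δ) (hN : 0 < N) (ip : ZMod s.mE) (i : ZMod (N * s.mE)) :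
    Tm δ s.ℓ N v₀ (zp δ (CL.qE s.pE ip N (v₀ + u') i)) =
      ((s.ℓ / N : ℝ) : ℂ) * pt (CL.qE s.pE ip N 0 i) + ((s.ℓ / N : ℝ) : ℂ) * pt u' := by
  rw [Tm_zp hδ hN, qE_add, ← mul_add]
  congr 1
  apply Complex.ext
  · simp [pt]
    ring
  · simp [pt]
    ring

/-- The points near the polygon are in the domain. -/
theorem near_site (H : s.Ok T R Rd cd) (hN : 0 < N) (hm : 13 * s.ℓ ≤ N * s.ρm) {y w : ℂ}
    (hy : y ∈ frontier (D6 s.ℓ s.SE)) (hw : dist w y ≤ 17 / 12 * (s.ℓ / N)) : w ∈ s.D := by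
  have hℓ := CL.Stg.Ok.hℓ H
  have hNr : (0 : ℝ) < N := by exact_mod_cast hN
  refine CL.Stg.marginE H (frontier_sub_reg hℓ hy) ?_
  rw [mem_ball]
  have h10 : 13 * (s.ℓ / N) ≤ s.ρm := by
    rw [mul_div_assoc', div_le_iff₀ hNr]
    linarith
  have h11 : 0 < s.ℓ / N := by positivity
  linarith

/-- **Collar.** -/
theorem col_stg (H : s.Ok T R Rd cd) (hδ : 0 < δ) (hN : 0 < N)
    (hψ : s.ψ = CL.Psi δ s.ℓ N v₀ ψ) (hm : 13 * s.ℓ ≤ N * s.ρm) (hu1 : |u'.1| ≤ 1)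
    (hu2 : |u'.2| ≤ 1) (hδℓ : N * δ ≤ 2 * s.ℓ) {h' : ℝ} (hε0 : 0 ≤ s.ε) (hε : s.ε ≤ h')
    (hg : ∀ z ∈ s.g, ∃ w ∈ s.g, w ∉ s.D ∧ JoinedIn s.g z w ∧ ∀ u ∈ s.g, dist u z ≤ h')
    (ip : ZMod s.mE) (i : ZMod (N * s.mE)) :
    ∃ C ⊆ ψ '' loewnerDomain s.W s.t, IsPreconnected C ∧
      zp δ (CL.qE s.pE ip N (v₀ + u') i) ∈ C ∧
      (∀ z ∈ C, ∀ z' ∈ C, dist z z' ≤ 16 * (s.ρm + 3 * s.ℓ + h')) ∧
      (∀ z ∈ C, ∃ v, v ∉ CL.sE s.SE N (v₀ + u') ∧ z ∈ Dsq δ v) ∧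
      ∃ e ∈ closure C, e ∉ ψ '' loewnerDomain s.W s.t := by
  have hℓ := CL.Stg.Ok.hℓ H
  have hNr : (0 : ℝ) < N := by exact_mod_cast hN
  have hN1 : (1 : ℝ) ≤ N := by exact_mod_cast hN
  have hρ := H.hρm
  set y : ℂ := ((s.ℓ / N : ℝ) : ℂ) * pt (CL.qE s.pE ip N 0 i) with hy
  set τ : ℂ := ((s.ℓ / N : ℝ) : ℂ) * pt u' with hτ
  have hyf : y ∈ frontier (D6 s.ℓ s.SE) := site_frontier H hN i
  have hτn : ‖τ‖ ≤ 17 / 12 * (s.ℓ / N) := norm_shift hℓ hN hu1 hu2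
  have hℓN : s.ℓ / N ≤ s.ℓ := div_le_self hℓ.le hN1
  have h10 : 13 * (s.ℓ / N) ≤ s.ρm := by
    rw [mul_div_assoc', div_le_iff₀ hNr]
    linarith
  have h11 : 0 < s.ℓ / N := by positivity
  have hset : D6 s.ℓ s.SE = interior (reg s.ℓ (H450.Cmp s.GE s.F₀)) := by
    rw [← H.setE]; rfl
  obtain ⟨γ, hγ, hγ0, hγ1, hγ2⟩ := H.sysE.collar hρ (SG.hη H) H.base hε0 hε hg (y := y) (by
    have := hyf
    rw [hset] at this
    exact this)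
  have hγD : γ 1 ∉ s.D := hγ1
  have hγ2' : ∀ t ∈ Icc (0 : ℝ) 1, γ t ∉ D6 s.ℓ s.SE ∧ dist (γ t) y ≤ s.ρm + 3 * s.ℓ + h' := by
    intro t ht
    rw [hset]
    exact hγ2 t ht
  -- the two paths
  have h0D : y + τ ∈ s.D := by
    refine near_site H hN hm hyf ?_
    rw [dist_eq_norm, add_sub_cancel_left]
    exact hτn
  obtain ⟨C, hC, hCc, hC0, e, he, heD⟩ := exit_two (isOpen_D H) (f := fun t => γ t + τ)
    (g := fun t : ℝ => γ 1 + ((1 - t : ℝ) : ℂ) * τ) (hγ.add continuousOn_const)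
    (by fun_prop) (by rw [hγ0]; exact h0D) (by simp) (by simpa using hγD)
  rw [hγ0] at hC0
  -- the properties of the points
  have key : ∀ w ∈ C, w - τ ∉ D6 s.ℓ s.SE ∧ dist w y ≤ s.ρm + 3 * s.ℓ + h' + 17 / 12 * (s.ℓ / N) := by
    intro w hw
    rcases (hC hw).2 with ⟨t, ht, rfl⟩ | ⟨t, ht, rfl⟩
    · obtain ⟨g1, g2⟩ := hγ2' t ht
      refine ⟨by simpa using g1, ?_⟩
      have h3 := dist_triangle (γ t + τ) (γ t) y
      have h4 : dist (γ t + τ) (γ t) = ‖τ‖ := by rw [dist_eq_norm, add_sub_cancel_left]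
      simp only
      linarith
    · obtain ⟨-, g2⟩ := hγ2' 1 ⟨zero_le_one, le_rfl⟩
      constructor
      · intro hcon
        simp only at hcon
        have h3 : γ 1 + ((1 - t : ℝ) : ℂ) * τ - τ ∈ reg s.ℓ (s.SE : Set (ℤ × ℤ)) :=
          interior_subset hcon
        apply hγD
        refine CL.Stg.marginE H h3 ?_
        rw [mem_ball, dist_eq_norm]
        have h4 : γ 1 - (γ 1 + ((1 - t : ℝ) : ℂ) * τ - τ) = ((t : ℝ) : ℂ) * τ := by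
          push_cast; ring
        rw [h4, norm_mul, Complex.norm_real, Real.norm_of_nonneg ht.1]
        have h5 : t * ‖τ‖ ≤ 1 * ‖τ‖ := mul_le_mul_of_nonneg_right ht.2 (norm_nonneg _)
        linarith
      · have h3 := dist_triangle (γ 1 + ((1 - t : ℝ) : ℂ) * τ) (γ 1) y
        have h4 : dist (γ 1 + ((1 - t : ℝ) : ℂ) * τ) (γ 1) = (1 - t) * ‖τ‖ := by
          rw [dist_eq_norm, add_sub_cancel_left, norm_mul, Complex.norm_real,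
            Real.norm_of_nonneg (by linarith [ht.2])]
        have h5 : (1 - t) * ‖τ‖ ≤ 1 * ‖τ‖ :=
          mul_le_mul_of_nonneg_right (by linarith [ht.1]) (norm_nonneg _)
        simp only
        linarith
  -- back to the plane of the lattice
  refine ⟨Ti δ s.ℓ N v₀ '' C, ?_, hCc.image _ (continuous_Ti _ _ _ _).continuousOn, ?_, ?_, ?_,
    Ti δ s.ℓ N v₀ e, ?_, ?_⟩
  · rintro _ ⟨w, hw, rfl⟩
    rw [← mem_D_iff H hδ hN hψ, Tm_Ti hδ hℓ hN]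
    exact (hC hw).1
  · refine ⟨y + τ, hC0, ?_⟩
    rw [← Tm_site hδ hN, Ti_Tm hδ hℓ hN]
  · rintro _ ⟨w, hw, rfl⟩ _ ⟨w', hw', rfl⟩
    have h3 := le_dist_Tm (v₀ := v₀) hδ hℓ hN (Ti δ s.ℓ N v₀ w) (Ti δ s.ℓ N v₀ w')
    rw [Tm_Ti hδ hℓ hN, Tm_Ti hδ hℓ hN] at h3
    have h4 := (key w hw).2
    have h5 := (key w' hw').2
    have h6 := dist_triangle_right w w' y
    have h7 : 1 / 2 ≤ s.ℓ / (N * δ) := by
      rw [le_div_iff₀ (by positivity)]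
      linarith
    have h8 : 1 / 2 * dist (Ti δ s.ℓ N v₀ w) (Ti δ s.ℓ N v₀ w') ≤
        s.ℓ / (N * δ) * dist (Ti δ s.ℓ N v₀ w) (Ti δ s.ℓ N v₀ w') :=
      mul_le_mul_of_nonneg_right h7 dist_nonneg
    have h9 : 0 ≤ h' := hε0.trans hε
    linarith
  · rintro _ ⟨w, hw, rfl⟩
    apply out_stg H hδ hN
    rw [Tm_Ti hδ hℓ hN]
    exact (key w hw).1
  · exact closure_mono (image_mono subset_rfl)
      (image_closure_subset_closure_image (continuous_Ti δ s.ℓ N v₀) ⟨e, he, rfl⟩)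
  · rw [← mem_D_iff H hδ hN hψ, Tm_Ti hδ hℓ hN]
    exact heD

end

end Vale.Agent.P167.H446
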