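import Mathlib.Analysis.Calculus.InverseFunctionTheorem.ApproximatesLinearOn
import Mathlib.Analysis.Normed.Module.FiniteDimension
import Mathlib.Analysis.Complex.Basic

/-!
# Homeomorphisms which move finitely many points

If the points `c i` have mutual distances at least `1` and `‖s i‖ ≤ 3 / 8`, then
`x ↦ x + ∑ i, max 0 (1 - 2 ‖x - c i‖) • s i` is a homeomorphism.
-/

open scoped NNReal

namespace Vale.Agent.P167.H446

/-- A tent of radius `1 / 2`. -/
noncomputable def tent {E : Type*} [NormedAddCommGroup E] (c x : E) : ℝ := max 0 (1 - 2 * ‖x - c‖)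

section

variable {E : Type*} [NormedAddCommGroup E] {c x y : E}

theorem tent_nonneg : 0 ≤ tent c x := le_max_left _ _

theorem tent_zero (h : 1 / 2 ≤ ‖x - c‖) : tent c x = 0 := max_eq_left (by linarith)

theorem tent_eq (h : ‖x - c‖ ≤ 1 / 2) : tent c x = 1 - 2 * ‖x - c‖ := max_eq_right (by linarith)

theorem tent_lip : |tent c x - tent c y| ≤ 2 * ‖x - y‖ := by
  have h1 : |‖x - c‖ - ‖y - c‖| ≤ ‖x - y‖ := by
    have := abs_norm_sub_norm_le (x - c) (y - c)
    rwa [sub_sub_sub_cancel_right] at this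
  rw [abs_le] at h1
  have h2 := norm_nonneg (x - c)
  have h3 := norm_nonneg (y - c)
  rw [abs_le]
  unfold tent
  constructor
  · rcases max_cases (0 : ℝ) (1 - 2 * ‖x - c‖) with ⟨e1, h4⟩ | ⟨e1, h4⟩ <;>
      rcases max_cases (0 : ℝ) (1 - 2 * ‖y - c‖) with ⟨e2, h5⟩ | ⟨e2, h5⟩ <;> rw [e1, e2] <;>
      linarith [h1.1, h1.2, norm_nonneg (x - y)]
  · rcases max_cases (0 : ℝ) (1 - 2 * ‖x - c‖) with ⟨e1, h4⟩ | ⟨e1, h4⟩ <;>
      rcases max_cases (0 : ℝ) (1 - 2 * ‖y - c‖) with ⟨e2, h5⟩ | ⟨e2, h5⟩ <;> rw [e1, e2] <;>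
      linarith [h1.1, h1.2, norm_nonneg (x - y)]

end

section

variable {ι : Type*} [Fintype ι] {E : Type*} [NormedAddCommGroup E] [NormedSpace ℝ E]
  {c s : ι → E}

/-- The displacement. -/
noncomputable def disp (c s : ι → E) (x : E) : E := ∑ i, tent (c i) x • s i

theorem disp_eq (hc : ∀ i j, i ≠ j → 1 ≤ ‖c i - c j‖) {x : E} {i : ι} (hx : ‖x - c i‖ ≤ 1 / 2) :
    disp c s x = (1 - 2 * ‖x - c i‖) • s i := by
  classical
  rw [disp, Finset.sum_eq_single i, tent_eq hx]
  · intro j _ hj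
    rw [tent_zero, zero_smul]
    have h1 := hc j i hj
    have h2 : ‖c j - c i‖ ≤ ‖x - c i‖ + ‖x - c j‖ := by
      have := norm_sub_le (x - c i) (x - c j)
      rwa [sub_sub_sub_cancel_left] at this
    linarith
  · intro h
    exact absurd (Finset.mem_univ i) h

theorem disp_eq_zero {x : E} (hx : ∀ i, 1 / 2 ≤ ‖x - c i‖) : disp c s x = 0 :=
  Finset.sum_eq_zero fun i _ => by rw [tent_zero (hx i), zero_smul]

theorem disp_norm_le (hc : ∀ i j, i ≠ j → 1 ≤ ‖c i - c j‖) (hs : ∀ i, ‖s i‖ ≤ 3 / 8) (x : E) :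
    ‖disp c s x‖ ≤ 3 / 8 := by
  by_cases h : ∃ i, ‖x - c i‖ ≤ 1 / 2
  · obtain ⟨i, hi⟩ := h
    rw [disp_eq hc hi, norm_smul, Real.norm_eq_abs, abs_of_nonneg (by linarith)]
    have h1 := hs i
    have h2 := norm_nonneg (x - c i)
    have h3 := norm_nonneg (s i)
    nlinarith
  · push Not at h
    rw [disp_eq_zero fun i => (h i).le, norm_zero]
    norm_num

theorem disp_lip (hc : ∀ i j, i ≠ j → 1 ≤ ‖c i - c j‖) (hs : ∀ i, ‖s i‖ ≤ 3 / 8) (x y : E) :
    ‖disp c s x - disp c s y‖ ≤ 3 / 4 * ‖x - y‖ := by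
  have one : ∀ x y : E, ∀ i, ‖x - c i‖ ≤ 1 / 2 → (∀ j, 1 / 2 < ‖y - c j‖) →
      ‖disp c s x - disp c s y‖ ≤ 3 / 4 * ‖x - y‖ := by
    intro x y i hi hy
    rw [disp_eq hc hi, disp_eq_zero fun j => (hy j).le, sub_zero, norm_smul, Real.norm_eq_abs,
      abs_of_nonneg (by linarith)]
    have h1 := hs i
    have h2 := hy i
    have h3 : ‖y - c i‖ ≤ ‖x - c i‖ + ‖x - y‖ := by
      have := norm_sub_le (x - c i) (x - y)
      rwa [sub_sub_sub_cancel_left] at this
    have h4 := norm_nonneg (s i)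
    nlinarith
  by_cases hx : ∃ i, ‖x - c i‖ ≤ 1 / 2
  · obtain ⟨i, hi⟩ := hx
    by_cases hy : ∃ j, ‖y - c j‖ ≤ 1 / 2
    · obtain ⟨j, hj⟩ := hy
      rw [disp_eq hc hi, disp_eq hc hj]
      by_cases hij : i = j
      · subst hij
        rw [← sub_smul, norm_smul, Real.norm_eq_abs]
        have h1 := hs i
        have h2 : |1 - 2 * ‖x - c i‖ - (1 - 2 * ‖y - c i‖)| ≤ 2 * ‖x - y‖ := by
          rw [← tent_eq hi, ← tent_eq hj]
          exact tent_lip
        have h3 := norm_nonneg (s i)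
        have h4 := norm_nonneg (x - y)
        have h5 := abs_nonneg (1 - 2 * ‖x - c i‖ - (1 - 2 * ‖y - c i‖))
        nlinarith
      · have h0 := hc i j hij
        refine (norm_sub_le _ _).trans ?_
        rw [norm_smul, norm_smul, Real.norm_eq_abs, Real.norm_eq_abs, abs_of_nonneg (by linarith),
          abs_of_nonneg (by linarith)]
        have h1 := hs i
        have h2 := hs j
        have h3 : ‖c i - c j‖ ≤ ‖x - c i‖ + ‖y - c j‖ + ‖x - y‖ := by
          have e : c i - c j = (x - y) - (x - c i) + (y - c j) := by abel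
          rw [e]
          have := norm_add_le ((x - y) - (x - c i)) (y - c j)
          have := norm_sub_le (x - y) (x - c i)
          linarith
        have h4 : (1 - 2 * ‖x - c i‖) * ‖s i‖ ≤ (1 - 2 * ‖x - c i‖) * (3 / 8) :=
          mul_le_mul_of_nonneg_left h1 (by linarith)
        have h5 : (1 - 2 * ‖y - c j‖) * ‖s j‖ ≤ (1 - 2 * ‖y - c j‖) * (3 / 8) :=
          mul_le_mul_of_nonneg_left h2 (by linarith)
        linarith
    · push Not at hy
      exact one x y i hi hy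
  · push Not at hx
    by_cases hy : ∃ j, ‖y - c j‖ ≤ 1 / 2
    · obtain ⟨j, hj⟩ := hy
      rw [norm_sub_rev, norm_sub_rev x y]
      exact one y x j hj hx
    · push Not at hy
      rw [disp_eq_zero fun i => (hx i).le, disp_eq_zero fun i => (hy i).le, sub_self, norm_zero]
      positivity

variable [CompleteSpace E] [Nontrivial E]

/-- The homeomorphism. -/
noncomputable def push (hc : ∀ i j, i ≠ j → 1 ≤ ‖c i - c j‖) (hs : ∀ i, ‖s i‖ ≤ 3 / 8) : E ≃ₜ E :=
  ApproximatesLinearOn.toHomeomorph (𝕜 := ℝ) (fun x => x + disp c s x)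
    (f' := ContinuousLinearEquiv.refl ℝ E) (c := (3 / 4 : ℝ≥0)) (by
      intro x _ y _
      have h := disp_lip hc hs x y
      have e : x + disp c s x - (y + disp c s y) -
          ((ContinuousLinearEquiv.refl ℝ E : E ≃L[ℝ] E) : E →L[ℝ] E) (x - y) =
          disp c s x - disp c s y := by
        change x + disp c s x - (y + disp c s y) - (x - y) = _
        abel
      rw [e]
      exact h)
    (by
      right
      rw [ContinuousLinearEquiv.refl_symm, ContinuousLinearEquiv.coe_refl,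
        ContinuousLinearMap.nnnorm_id, inv_one]
      exact_mod_cast (by norm_num : (3 / 4 : ℝ) < 1))

theorem push_apply (hc : ∀ i j, i ≠ j → 1 ≤ ‖c i - c j‖) (hs : ∀ i, ‖s i‖ ≤ 3 / 8) (x : E) :
    push hc hs x = x + disp c s x := rfl

end

end Vale.Agent.P167.H446
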