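import Vale.Agent.P167.H446.GeoT
import Vale.Agent.P167.H174.Exh
import Vale.Agent.P153.R2.R1.Out2

/-!
# P167, block E2-GEO (C): convergence of the uniformizers of the domains of the corner curves

From the boundary curves of the domains `Om δ S`: kernel convergence with uniform local
connectivity, convergence of the uniformizers.
-/

open Set Filter Topology Metric Bornology

namespace Vale.Agent.P167.H446

open Vale.Agent.P167.E6 Vale.Agent.P167.E2
open Vale.Agent.P153.R2 Vale.Agent.P153.R2.R1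
open Vale.Agent.P153.R2.Final (dom circ toC)

/-- The facts about the boundary curve `f` of the domain `Om δ S` which are used. -/
structure OmCurve {n : ℕ} (p : ZMod n → ℤ × ℤ) (S : Finset (ℤ × ℤ)) (δ : ℝ) (f : ℝ → ℂ) :
    Prop where
  jc : JCurve f n
  front : frontier (Om δ S) = range f
  near : ∀ x, dist (f x) (PF6 p δ x) ≤ δ

theorem OmCurve.good {n : ℕ} {p : ZMod n → ℤ × ℤ} {S : Finset (ℤ × ℤ)} {δ : ℝ} {f : ℝ → ℂ}
    (h : OmCurve p S δ f) (hδ : 0 < δ) (hp : IsPolygon p) (hS : Encloses p S) :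
    Good (Om δ S) where
  isOpen := isOpen_Om hδ S
  rdom := rdom_Om hδ hp hS
  bdd := isBounded_Om hδ S
  lc := h.jc.lc h.front
  nocut := h.jc.noCut h.front

theorem dist_PV6 {n : ℕ} {p : ZMod n → ℤ × ℤ} {δ : ℝ} (hδ : 0 < δ) (hp : IsPolygon p) (i : ℤ) :
    dist (PV6 p δ i) (PV6 p δ (i + 1)) = δ := by
  obtain ⟨r, hr⟩ := hp.2.2 (i : ZMod n)
  have e : PV6 p δ (i + 1) - PV6 p δ i = (δ : ℂ) * pt (dir r) := by
    simp only [PV6]
    push_cast
    rw [hr, ← mul_sub]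
    congr 1
    apply Complex.ext <;> simp
  have h1 : ‖pt (dir r)‖ = 1 := by
    rw [← Real.sqrt_sq (norm_nonneg _), Complex.sq_norm, Complex.normSq_apply, Real.sqrt_eq_one]
    fin_cases r <;> norm_num [dir]
  rw [dist_comm, dist_eq_norm, e, norm_mul, h1, Complex.norm_real, Real.norm_of_nonneg hδ.le,
    mul_one]

theorem dist_PF6 {n : ℕ} {p : ZMod n → ℤ × ℤ} {δ : ℝ} (hδ : 0 < δ) (hp : IsPolygon p) (x : ℝ) :
    dist (PF6 p δ x) (PV6 p δ ⌊x⌋) ≤ δ := by
  rw [PF6, pl, dist_eq_norm]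
  have e : (1 - Int.fract x) • PV6 p δ ⌊x⌋ + Int.fract x • PV6 p δ (⌊x⌋ + 1) - PV6 p δ ⌊x⌋ =
      Int.fract x • (PV6 p δ (⌊x⌋ + 1) - PV6 p δ ⌊x⌋) := by module
  rw [e, norm_smul, ← dist_eq_norm, dist_comm, dist_PV6 hδ hp, Real.norm_of_nonneg
    (Int.fract_nonneg x)]
  nlinarith [Int.fract_lt_one x, Int.fract_nonneg x]

variable {Φ : (ℝ × ℝ) ≃ₜ (ℝ × ℝ)} {δ : ℕ → ℝ} {N k : ℕ → ℕ} {p : ∀ n, ZMod (N n) → ℤ × ℤ}
  {S : ℕ → Finset (ℤ × ℤ)}

/-- The polygons are uniformly close to the Jordan curve modulo reparametrisation. -/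
theorem approx_close6 (h : Approx Φ δ N k p S) {ε : ℝ} (hε : 0 < ε) :
    ∀ᶠ n in atTop, ∃ σ : ℝ → ℝ, Continuous σ ∧ Monotone σ ∧
      (∀ x, σ (x + N n) = σ x + 2 * Real.pi) ∧ σ 0 = 0 ∧ σ (k n) = Real.pi ∧
      ∀ x, dist (PF6 (p n) (δ n) x) (FC Φ (σ x)) ≤ ε := by
  obtain ⟨h1, h2, h3⟩ := h
  have hδ : ∀ᶠ n in atTop, δ n < ε / 2 := h2.eventually (gt_mem_nhds (half_pos hε))
  filter_upwards [hδ, h3 (ε / 4) (by positivity)] with n hδn ⟨s, hs, s0, sk, sN, hsd⟩
  obtain ⟨hδ0, hk0, hkN, hp, -⟩ := h1 n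
  have hN : 0 < N n := by omega
  have hmono := monotone_st hN hs s0 sN
  refine ⟨pl (st s (N n)), continuous_pl _, monotone_pl hmono, ?_, ?_, ?_, ?_⟩
  · intro x
    have := pl_add (st s (N n)) (st s (N n)) (N n) (2 * Real.pi) (st_add hN) x
    exact_mod_cast this
  · have := pl_int (st s (N n)) 0
    rw [Int.cast_zero] at this
    rw [this]
    have e := st_nat (s := s) (N := N n) (i := 0) hN
    rw [Nat.cast_zero] at e
    rw [e, s0]
  · have := pl_int (st s (N n)) (k n)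
    rw [Int.cast_natCast] at this
    rw [this, st_nat hkN, sk]
  · intro x
    set i := ⌊x⌋ with hi
    have hσ := pl_mem_Icc hmono x
    rw [← hi] at hσ
    obtain ⟨e1, e2⟩ := st_step hN s0 sN i
    rw [e1, e2] at hσ
    set r := (i % (N n : ℤ)).toNat with hr
    set q := i / (N n : ℤ) with hq
    have hN0 : (0 : ℤ) < N n := by omega
    have hr0 : 0 ≤ i % (N n : ℤ) := Int.emod_nonneg i hN0.ne'
    have hr1 : i % (N n : ℤ) < N n := Int.emod_lt_of_pos i hN0
    have hrN : r < N n := by omega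
    have hpi : p n (i : ZMod (N n)) = p n (r : ZMod (N n)) := by
      congr 1
      have e3 : (i : ZMod (N n)) = ((r : ℤ) : ZMod (N n)) := by
        rw [ZMod.intCast_eq_intCast_iff_dvd_sub]
        refine ⟨-q, ?_⟩
        have e4 := Int.mul_ediv_add_emod i (N n)
        rw [← hq] at e4
        have e5 : (r : ℤ) = i % (N n) := by omega
        rw [e5]
        linarith
      rw [e3]
      push_cast
      rfl
    have hd := hsd r hrN (pl (st s (N n)) x - q * (2 * Real.pi))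
      ⟨by linarith [hσ.1], by linarith [hσ.2]⟩
    have hF : FC Φ (pl (st s (N n)) x - q * (2 * Real.pi)) = FC Φ (pl (st s (N n)) x) := by
      have := per_int (jcurve_FC Φ).per (-q) (pl (st s (N n)) x)
      push_cast at this
      rw [← this]
      congr 1
      ring
    have h6 : dist (PV6 (p n) (δ n) i) (FC Φ (pl (st s (N n)) x)) ≤ ε / 4 := by
      rw [← hF, PV6, hpi]
      exact hd.le
    have h7 := dist_PF6 (p := p n) hδ0 hp x
    rw [← hi] at h7
    have h8 := dist_triangle (PF6 (p n) (δ n) x) (PV6 (p n) (δ n) i) (FC Φ (pl (st s (N n)) x))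
    linarith

/-- The boundary curves are uniformly close to the Jordan curve modulo reparametrisation. -/
theorem curve_close (h : Approx Φ δ N k p S) {f : ℕ → ℝ → ℂ}
    (hf : ∀ n, OmCurve (p n) (S n) (δ n) (f n)) {ε : ℝ} (hε : 0 < ε) :
    ∀ᶠ n in atTop, ∃ σ : ℝ → ℝ, Continuous σ ∧ Monotone σ ∧
      (∀ x, σ (x + N n) = σ x + 2 * Real.pi) ∧ σ 0 = 0 ∧ σ (k n) = Real.pi ∧
      ∀ x, dist (f n x) (FC Φ (σ x)) ≤ ε := by
  have hδ : ∀ᶠ n in atTop, δ n < ε / 2 := h.2.1.eventually (gt_mem_nhds (half_pos hε))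
  filter_upwards [hδ, approx_close6 h (half_pos hε)] with n hn ⟨σ, h1, h2, h3, h4, h5, h6⟩
  refine ⟨σ, h1, h2, h3, h4, h5, fun x => ?_⟩
  have h7 := dist_triangle (f n x) (PF6 (p n) (δ n) x) (FC Φ (σ x))
  linarith [h6 x, (hf n).near x]

theorem region_sub_Om {δ : ℝ} (hδ : 0 < δ) (S : Finset (ℤ × ℤ)) : region δ S ⊆ Om δ S :=
  fun z hz => ⟨z, hz, by rw [sub_self, abs_zero]; positivity, by rw [sub_self, abs_zero]; positivity⟩

theorem kconv_Om (h : Approx Φ δ N k p S) {f : ℕ → ℝ → ℂ}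
    (hf : ∀ n, OmCurve (p n) (S n) (δ n) (f n)) :
    KConv atTop (fun n => Om (δ n) (S n)) (DC Φ) where
  bdd := by
    obtain ⟨R, hR⟩ := (isBounded_DC Φ).closure.subset_closedBall 0
    refine ⟨|R| + 1, by positivity, ?_⟩
    filter_upwards [curve_close h hf one_pos] with n hn
    obtain ⟨σ, -, -, -, -, -, hd⟩ := hn
    refine subset_closedBall_of_frontier (isOpen_Om (h.1 n).1 _) (isBounded_Om (h.1 n).1 _) ?_
    rw [(hf n).front]
    rintro _ ⟨x, rfl⟩
    have h1 : FC Φ (σ x) ∈ closedBall (0 : ℂ) R :=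
      hR (frontier_subset_closure (FC_mem_frontier Φ (σ x)))
    rw [mem_closedBall] at h1 ⊢
    have h2 := dist_triangle (f n x) (FC Φ (σ x)) 0
    linarith [hd x, le_abs_self R]
  ctrl := by
    intro ε hε
    obtain ⟨η, hη, ε₁, hε₁, hctrl⟩ := (jcurve_FC Φ).ctrl hε
    refine ⟨η, hη, ?_⟩
    filter_upwards [curve_close h hf hε₁] with n hn
    obtain ⟨σ, hσc, hσm, hσp, -, -, hd⟩ := hn
    exact hctrl _ σ (N n) _ (hf n).jc.pos (hf n).jc.cont (hf n).jc.per hσc hσm hσp hd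
      (hf n).front
  inner := by
    intro K hK hKc
    filter_upwards [H174.exhausts_of_approx h K hK hKc] with n hn
    exact hn.trans (region_sub_Om (h.1 n).1 _)
  outer := by
    intro q hq r hr
    rw [frontier_DC] at hq
    obtain ⟨t, rfl⟩ := hq
    filter_upwards [curve_close h hf (half_pos hr)] with n hn hsub
    obtain ⟨σ, hσc, hσm, hσp, hσ0, -, hd⟩ := hn
    -- a parameter of the same point in `[0, 2π]`
    obtain ⟨j, hj, -⟩ := existsUnique_add_zsmul_mem_Ico (jcurve_FC Φ).pos t 0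
    rw [zsmul_eq_mul, zero_add] at hj
    have hN0 : (0 : ℝ) ≤ N n := by positivity
    have hσN : σ (N n) = 2 * Real.pi := by
      have := hσp 0
      rw [zero_add, hσ0, zero_add] at this
      exact this
    obtain ⟨x, -, hx⟩ := intermediate_value_Icc hN0 hσc.continuousOn
      (show t + j * (2 * Real.pi) ∈ Icc (σ 0) (σ (N n)) by
        rw [hσ0, hσN]; exact ⟨hj.1, hj.2.le⟩)
    have h1 := hd x
    rw [hx, per_int (jcurve_FC Φ).per j t] at h1
    have h2 : f n x ∈ frontier (Om (δ n) (S n)) := by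
      rw [(hf n).front]; exact mem_range_self x
    refine notMem_of_frontier (isOpen_Om (h.1 n).1 _) h2 (hsub ?_)
    rw [mem_ball]
    linarith

theorem norm_sq_le (r : Fin 4) : ‖sq r‖ ≤ 2 := by
  refine (Complex.norm_le_abs_re_add_abs_im _).trans ?_
  fin_cases r <;> simp [E2.sq] <;> norm_num

/-- The first mark is close to the polygon. -/
theorem dist_aM {n : ℕ} {p : ZMod n → ℤ × ℤ} {δ : ℝ} (hδ : 0 < δ) (hp : IsPolygon p) :
    dist (aM p δ) (PF6 p δ 0) ≤ 2 * δ := by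
  have e1 : PF6 p δ 0 = PV6 p δ 0 := by
    have := pl_int (PV6 p δ) 0
    rwa [Int.cast_zero] at this
  have h1 := dist_PV6 hδ hp (-1)
  rw [neg_add_cancel] at h1
  have h2 : dist (aM p δ) (PV6 p δ (-1)) ≤ δ := by
    rw [dist_eq_norm, aM, PV6]
    push_cast
    rw [← mul_sub, add_sub_cancel_left, norm_mul, norm_mul, Complex.norm_real,
      Real.norm_of_nonneg hδ.le]
    have h3 := norm_sq_le (ro p (-1) - 1)
    have h4 : ‖(3 / 8 : ℂ)‖ = 3 / 8 := by
      have : (3 / 8 : ℂ) = ((3 / 8 : ℝ) : ℂ) := by push_cast; rfl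
      rw [this, Complex.norm_real, Real.norm_of_nonneg (by norm_num)]
    rw [h4]
    nlinarith
  rw [e1]
  have := dist_triangle (aM p δ) (PV6 p δ (-1)) (PV6 p δ 0)
  linarith

/-- The second mark is close to the polygon. -/
theorem dist_bM {n : ℕ} {p : ZMod n → ℤ × ℤ} {δ : ℝ} (hδ : 0 < δ) (k : ℕ) :
    dist (bM p k δ) (PF6 p δ k) ≤ δ := by
  have e1 : PF6 p δ k = PV6 p δ k := by
    have := pl_int (PV6 p δ) k
    rwa [Int.cast_natCast] at this
  rw [e1, dist_eq_norm, bM, PV6]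
  push_cast
  rw [← mul_sub, add_sub_cancel_left, norm_mul, norm_mul, Complex.norm_real,
    Real.norm_of_nonneg hδ.le]
  have h3 := norm_sq_le (ri p (k : ZMod n))
  have h4 : ‖(3 / 8 : ℂ)‖ = 3 / 8 := by
    have : (3 / 8 : ℂ) = ((3 / 8 : ℝ) : ℂ) := by push_cast; rfl
    rw [this, Complex.norm_real, Real.norm_of_nonneg (by norm_num)]
  rw [h4]
  nlinarith

/-- **The uniformizers of the domains of the corner curves converge.** -/
theorem rado_of_curves (h : Approx Φ δ N k p S) {f : ℕ → ℝ → ℂ}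
    (hf : ∀ n, OmCurve (p n) (S n) (δ n) (f n)) {ψ : ℂ → ℂ} (hψ : Final.IsUniformizer Φ ψ)
    {a b : ℕ → ℂ} (ha : ∀ n, a n ∈ frontier (Om (δ n) (S n)))
    (hb : ∀ n, b n ∈ frontier (Om (δ n) (S n))) (hab : ∀ n, a n ≠ b n)
    (ha' : ∀ᶠ n in atTop, a n = aM (p n) (δ n))
    (hb' : ∀ᶠ n in atTop, b n = bM (p n) (k n) (δ n)) :
    ∃ ψn : ℕ → ℂ → ℂ, (∀ n, IsU (ψn n) (Om (δ n) (S n)) (a n) (b n) ∧
      InjOn (ψn n) {z | 0 ≤ z.im} ∧ ∀ z : ℂ, 0 ≤ z.im → ψn n z ≠ b n) ∧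
      TendstoUniformlyOn ψn ψ atTop {z | 0 ≤ z.im} := by
  have hG : ∀ n, Good (Om (δ n) (S n)) := fun n => by
    obtain ⟨h1, -, -, h2, h3⟩ := h.1 n
    exact (hf n).good h1 h2 h3
  have h0 : FC Φ 0 = toC (Φ (circ 0)) := rfl
  have hπ : FC Φ Real.pi = toC (Φ (circ Real.pi)) := rfl
  obtain ⟨ψn, h1, h2⟩ := half_rado (kconv_Om h hf) hG (fun n => (hG n).rdom.nonempty)
    (good_DC Φ).nocut ((isUniformizer_iff Φ ψ).1 hψ) ha hb hab
    (by
      rw [Metric.tendsto_nhds]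
      intro ε hε
      have hδ : ∀ᶠ n in atTop, δ n < ε / 4 := h.2.1.eventually (gt_mem_nhds (by positivity))
      filter_upwards [ha', hδ, approx_close6 h (show 0 < ε / 4 by positivity)] with n e h2 h3
      obtain ⟨σ, -, -, -, hσ, -, hd⟩ := h3
      have h4 := hd 0
      rw [hσ] at h4
      have h5 := dist_aM (h.1 n).1 (h.1 n).2.2.2.1
      rw [e]
      have h6 := dist_triangle (aM (p n) (δ n)) (PF6 (p n) (δ n) 0) (FC Φ 0)
      linarith)
    (by
      rw [Metric.tendsto_nhds]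
      intro ε hε
      have hδ : ∀ᶠ n in atTop, δ n < ε / 4 := h.2.1.eventually (gt_mem_nhds (by positivity))
      filter_upwards [hb', hδ, approx_close6 h (show 0 < ε / 4 by positivity)] with n e h2 h3
      obtain ⟨σ, -, -, -, -, hσ, hd⟩ := h3
      have h4 := hd (k n)
      rw [hσ] at h4
      have h5 := dist_bM (p := p n) (h.1 n).1 (k n)
      rw [e]
      have h6 := dist_triangle (bM (p n) (k n) (δ n)) (PF6 (p n) (δ n) (k n)) (FC Φ Real.pi)
      linarith)
  exact ⟨ψn, fun n => ⟨(h1 n).1, (h1 n).2, ((h1 n).1.injOn (hG n).nocut).2⟩, h2⟩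

end Vale.Agent.P167.H446
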